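import Vale.Agent.P301Z.Al.Geo

/-!
# P301, block ALG: the theorem of Chow
-/

open scoped Topology
open Set Filter
open Vale.Agent.P272.K (Cm)
open Vale.Agent.P281Z

noncomputable section

namespace Vale.Agent.P301Z.Al

namespace ChowX

variable {n : ℕ}

theorem ev_smul {P : Pl n} {d : ℕ} (hP : P.IsHomogeneous d) (t : ℂ) (w : Cm n) :
    ev P (t • w) = t ^ d * ev P w := by
  unfold ev
  rw [MvPolynomial.eval_eq, MvPolynomial.eval_eq, Finset.mul_sum]
  refine Finset.sum_congr rfl fun m hm => ?_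
  simp only [Pi.smul_apply, smul_eq_mul, mul_pow]
  rw [Finset.prod_mul_distrib, Finset.prod_pow_eq_pow_sum, ← hP.degree_eq_sum_deg_support hm]
  ring

theorem fderiv_sc {g : Cm n → ℂ} {t : ℂ} {v : Cm n} (hg : DifferentiableAt ℂ g (t • v)) (ξ : Cm n) :
    fderiv ℂ (fun w => g (t • w)) v ξ = fderiv ℂ g (t • v) (t • ξ) := by
  have h := hg.hasFDerivAt.comp v ((hasFDerivAt_id v).const_smul t)
  exact congrArg (fun L : Cm n →L[ℂ] ℂ => L ξ) h.fderiv

theorem fderiv_ev_smul {P : Pl n} {d : ℕ} (hP : P.IsHomogeneous d) (t : ℂ) (v ξ : Cm n) :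
    fderiv ℂ (ev P) (t • v) (t • ξ) = t ^ d * fderiv ℂ (ev P) v ξ := by
  rw [← fderiv_sc (ev_an P _).differentiableAt, funext (ev_smul hP t),
    fderiv_const_mul (ev_an P v).differentiableAt]
  rfl

theorem cone_smul {K : ℕ} {S : PS K} {A : Set S.P.X} {v : Cm (K + 1)} (hv : v ∈ cone S A) (c : ℂ) :
    c • v ∈ cone S A := by
  by_cases h : c • v = 0
  · exact Or.inl h
  · obtain ⟨h1, h2⟩ := smul_ne_zero_iff.1 h
    exact Or.inr (by rw [S.pt_smul h1 h2]; exact hv.resolve_left h2)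

end ChowX

open ChowX

theorem finj : FINJ := by
  intro n X
  obtain ⟨s, hs, h⟩ := (Submodule.fg_span_iff_fg_span_finset_subset (R := Pl n) (J X)).1
    (IsNoetherian.noetherian _)
  refine ⟨s.card, fun j => s.equivFin.symm j, fun j => hs (s.equivFin.symm j).2, fun P hP => ?_⟩
  have h1 : range (fun j => (s.equivFin.symm j : Pl n)) = s := by
    rw [← Subtype.range_coe (s := (s : Set (Pl n)))]
    exact s.equivFin.symm.surjective.range_comp Subtype.val
  rw [h1]
  exact h.le (Submodule.subset_span hP)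

theorem chow_of (hC : CONE) (hH : HOMP) : CHOW := by
  intro K S A hA v
  obtain ⟨m, g, hg⟩ := hC K S A hA
  have h1 := eventually_all.2 fun i => hH (K + 1) (cone S A) (g i) (fun _ => cone_smul)
    (hg.self_of_nhds.1 i) (hg.mono fun w k hw => k.2.1.1 hw i)
  have h2 : Tendsto (fun t : ℂ => t • v) (𝓝[≠] 0) (𝓝 0) := by
    refine tendsto_nhdsWithin_of_tendsto_nhds ?_
    exact Continuous.tendsto' (by fun_prop) _ _ (zero_smul ℂ v)
  obtain ⟨t, ⟨⟨k1, k2, k3⟩, k4⟩, ht⟩ := ((h2.eventually (hg.and h1)).and self_mem_nhdsWithin).exists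
  have ht0 : t ≠ 0 := ht
  refine ⟨fun h => ?_, fun hv h hh h0 ξ hξ => ?_⟩
  · have h3 := cone_smul (k2.2 fun i => (k4 i).1 fun P hP => by
      obtain ⟨d, hd⟩ := hP.1
      rw [ev_smul hd, h P hP, mul_zero]) t⁻¹
    rwa [inv_smul_smul₀ ht0] at h3
  · have e : t⁻¹ • t • v = v := inv_smul_smul₀ ht0 v
    have hs : AnalyticAt ℂ (fun w : Cm (K + 1) => t⁻¹ • w) (t • v) :=
      analyticAt_const.fun_smul analyticAt_id
    obtain ⟨c, hc, hc'⟩ := k3 (fun w => h (t⁻¹ • w))
      (AnalyticAt.fun_comp (g := h) (by rw [e]; exact hh) hs) (by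
        have h4 := hs.continuousAt.tendsto
        rw [e] at h4
        filter_upwards [h4.eventually h0] with w hw hw' using hw (cone_smul hw' _))
    have h5 := fderiv_sc (g := h) (t := t⁻¹) (v := t • v) (by rw [e]; exact hh.differentiableAt)
      (t • ξ)
    rw [e, inv_smul_smul₀ ht0] at h5
    rw [← h5, EventuallyEq.fderiv_eq hc', fderiv_fun_sum fun i _ =>
      (hc i).differentiableAt.fun_mul (k1 i).differentiableAt, sum_apply]
    refine Finset.sum_eq_zero fun i _ => ?_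
    have h6 : fderiv ℂ (g i) (t • v) (t • ξ) = 0 := (k4 i).2 _ fun P hP => by
      obtain ⟨d, hd⟩ := hP.1
      rw [fderiv_ev_smul hd, hξ P hP, mul_zero]
    rw [fderiv_fun_mul (hc i).differentiableAt (k1 i).differentiableAt, k2.1 (cone_smul hv t) i]
    simp only [add_apply, smul_apply, h6, smul_zero,
      zero_smul, add_zero]

end Vale.Agent.P301Z.Al
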