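import Vale.Agent.P301Z.Al.Geo
import Vale.Agent.P281Z.Rs.All
import Vale.Agent.P281Z.Pb.Ps
import Vale.Agent.P277Z.Oka.All

/-!
# P301, block ALG: the cone over an analytic subset of the projective space
-/

open scoped Manifold ContDiff Topology
open Set Filter
open Vale.Agent.P272.K (Cm Chart At)
open Vale.Agent.P277Z (Hol at_chart)
open Vale.Agent.P281Z

noncomputable section

namespace Vale.Agent.P301Z.Al

namespace Cone

variable {K : ℕ} (S : PS K) (S' : PS (K + 1))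

theorem an_pt {a : S.P.X → ℂ} {v : Cm (K + 1)} (hv : v ≠ 0) (h : Hol K a (S.pt v)) :
    AnalyticAt ℂ (fun w => a (S.pt w)) v := by
  have he := at_chart (n := K) (S.pt v)
  refine ((h _ he).comp_of_eq (S.an v hv _ he) rfl).congr ?_
  filter_upwards [(S.cont v hv).eventually (P277Z.At.left he)] with w hw using congrArg a hw

/-- the incidence set -/
def Gam : Set (S.P.prod S'.P).X := {z | ∀ h h', S.P.p1 S'.P z ∈ S.H.U h → S.P.p2 S'.P z ∈ S'.H.U h' →
  ∀ a b, S'.x h' (S.P.p2 S'.P z) a.castSucc * S.x h (S.P.p1 S'.P z) b =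
    S'.x h' (S.P.p2 S'.P z) b.castSucc * S.x h (S.P.p1 S'.P z) a}

theorem an_gam : An (K + (K + 1)) (Gam S S') := .of_fin fun z => by
  obtain ⟨h, hh⟩ := S.lb.cover (S.P.p1 S'.P z)
  obtain ⟨h', hh'⟩ := S'.lb.cover (S.P.p2 S'.P z)
  refine ⟨Fin (K + 1) × Fin (K + 1), inferInstance, fun q z =>
    S'.x h' (S.P.p2 S'.P z) q.1.castSucc * S.x h (S.P.p1 S'.P z) q.2 -
      S'.x h' (S.P.p2 S'.P z) q.2.castSucc * S.x h (S.P.p1 S'.P z) q.1, fun q =>
    ((hol_p2.hol (S'.xhol hh' _)).mul (hol_p1.hol (S.xhol hh _))).sub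
      ((hol_p2.hol (S'.xhol hh' _)).mul (hol_p1.hol (S.xhol hh _))), ?_⟩
  filter_upwards [cont_p1.continuousAt.eventually (lb_near S.lb hh),
    cont_p2.continuousAt.eventually (lb_near S'.lb hh')] with y y1 y2
  refine ⟨fun k q => sub_eq_zero.2 (k h h' y1 y2 _ _), fun k i i' c c' a b => ?_⟩
  have := k (a, b)
  simp only [S.x_chg c y1, S'.x_chg c' y2, Pi.smul_apply, smul_eq_mul]
  linear_combination S'.H.g i' h' (S.P.p2 S'.P y) * S.H.g i h (S.P.p1 S'.P y) * this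

theorem ne (w : Cm (K + 1)) : (Fin.snoc w 1 : Cm (K + 1 + 1)) ≠ 0 := fun h => by
  simpa using congrFun h (Fin.last _)

theorem mem_iff (A : Set S.P.X) (w : Cm (K + 1)) : S'.pt (Fin.snoc w 1) ∈
    S.P.p2 S'.P '' (Gam S S' ∩ S.P.p1 S'.P ⁻¹' A) ∪ {S'.pt (Fin.snoc (0 : Cm (K + 1)) 1)} ↔
      w ∈ cone S A := by
  refine ⟨?_, fun k => ?_⟩
  · rintro (⟨z, ⟨z1, z2⟩, z3⟩ | k)
    · obtain ⟨h, hh⟩ := S.lb.cover (S.P.p1 S'.P z)
      obtain ⟨h', hh'⟩ := S'.lb.cover (S.P.p2 S'.P z)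
      have k := z1 h h' hh hh'
      rw [z3] at k hh'
      obtain ⟨c, c0, hc⟩ := S'.x_pt' (ne w) hh'
      obtain ⟨d, rfl⟩ := (prop_iff (v := w) (S.xnz h _ hh)).2 fun a b => mul_left_cancel₀ c0 (by
        simpa only [hc, Pi.smul_apply, smul_eq_mul, Fin.snoc_castSucc, mul_assoc] using k a b)
      rcases eq_or_ne d 0 with rfl | d0
      · exact .inl (zero_smul _ _)
      · exact .inr ((S.pt_x h _ d hh d0).symm ▸ z2)
    · obtain ⟨c, hc⟩ := (S'.pt_eq_iff (ne w) (ne 0)).1 k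
      exact .inl (funext fun a => by simpa using congrFun hc a.castSucc)
  · rcases eq_or_ne w 0 with rfl | w0
    · exact .inr rfl
    refine .inl ⟨S.P.pair S'.P (S.pt w) (S'.pt (Fin.snoc w 1)), ⟨fun h h' c c' a b => ?_,
      k.resolve_left w0⟩, rfl⟩
    obtain ⟨d, -, hd⟩ := S.x_pt' w0 c
    obtain ⟨d', -, hd'⟩ := S'.x_pt' (ne w) c'
    show S'.x h' (S'.pt _) _ * S.x h (S.pt w) _ = S'.x h' (S'.pt _) _ * S.x h (S.pt w) _
    simp only [hd, hd', Pi.smul_apply, smul_eq_mul, Fin.snoc_castSucc]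
    ring

end Cone

open Cone in
theorem cone_an : CONE := by
  intro K S A hA
  obtain ⟨S'⟩ := Pb.psex (K + 1)
  obtain ⟨k, h, h1, h2⟩ := (rem _ _ _ _ _ _ hol_p2 ((an_gam S S').inter (hA.pre hol_p1))).union
    (an_point (S'.pt (Fin.snoc (0 : Cm (K + 1)) 1))) (S'.pt (Fin.snoc (0 : Cm (K + 1)) 1))
  have a : AnalyticAt ℂ (fun w : Cm (K + 1) => (Fin.snoc w 1 : Cm (K + 1 + 1))) 0 :=
    AnalyticAt.pi fun i => by
      refine Fin.lastCases ?_ (fun i => ?_) i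
      · simpa only [Fin.snoc_last] using analyticAt_const
      · simp only [Fin.snoc_castSucc]
        exact (ContinuousLinearMap.proj (R := ℂ) (φ := fun _ : Fin (K + 1) => ℂ) i).analyticAt 0
  have b : ∀ᶠ w in 𝓝 (0 : Cm (K + 1)), w ∈ cone S A ↔ ∀ i, h i (S'.pt (Fin.snoc w 1)) = 0 :=
    (((S'.cont _ (ne 0)).comp_of_eq a.continuousAt rfl).eventually h2).mono fun w c =>
      (mem_iff S S' A w).symm.trans c
  obtain ⟨m, g, g1, g2, g3⟩ := P277Z.Oka.car_all (Cm (K + 1)) (Fin k) 0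
    (fun i w => h i (S'.pt (Fin.snoc w 1))) fun i => (an_pt S' (ne 0) (h1 i)).comp_of_eq a rfl
  choose c c1 c2 using fun i => g3.self_of_nhds (fun w => h i (S'.pt (Fin.snoc w 1)))
    ((an_pt S' (ne 0) (h1 i)).comp_of_eq a rfl) (.of_forall fun _ k => k i)
  refine ⟨m, g, ?_⟩
  filter_upwards [eventually_all.2 fun i => (g1 i).eventually_analyticAt, b.eventually_nhds,
    eventually_all.2 g2, g3, eventually_all.2 c2] with v v1 v2 v3 v4 v5
  exact ⟨v1, v2.self_of_nhds.trans ⟨fun k i => v3 i k, fun k i => by simp [v5 i, k]⟩,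
    fun f f1 f2 => v4 f f1 ((f2.and v2).mono fun w d k => d.1 (d.2.2 k))⟩

end Vale.Agent.P301Z.Al
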