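import Vale.Agent.P301Z.Al.Geo

/-!
# P301, block ALG: equations of a submanifold of an embedded manifold
-/

open scoped Manifold ContDiff Topology
open Set Filter
open Vale.Agent.P272.K (Cm Chart At)
open Vale.Agent.P277Z (Hol)
open Vale.Agent.P277Z.Slc (Ind dd at_chartAt dd_congr)
open Vale.Agent.P281Z

noncomputable section

namespace Vale.Agent.P301Z.Al

namespace Eqm

/-- the choice of independent functionals -/
theorem pick {E : Type} [NormedAddCommGroup E] [NormedSpace ℂ E] {s c : ℕ}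
    (φ : Fin s → E →L[ℂ] ℂ) {ψ : Fin c → E →L[ℂ] ℂ} (hψ : LinearIndependent ℂ ψ)
    (h : ∀ a η, (∀ j, φ j η = 0) → ψ a η = 0) :
    ∃ σ : Fin c → Fin s, LinearIndependent ℂ fun i => φ (σ i) := by
  have h1 : ∀ a, ψ a ∈ Submodule.span ℂ (range φ) := fun a => by
    have := mem_span_of_iInf_ker_le_ker (L := fun j => (φ j : E →ₗ[ℂ] ℂ)) (K := (ψ a : E →ₗ[ℂ] ℂ))
      fun η hη => h a η fun j => (Submodule.mem_iInf _).1 hη j
    obtain ⟨t, ht⟩ := (Submodule.mem_span_range_iff_exists_fun ℂ).1 this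
    refine (Submodule.mem_span_range_iff_exists_fun ℂ).2 ⟨t, ContinuousLinearMap.ext fun η => ?_⟩
    simpa using LinearMap.congr_fun ht η
  obtain ⟨κ, a, ha, e, hi⟩ := exists_linearIndependent' ℂ φ
  have : Finite κ := Finite.of_injective a ha
  have := Fintype.ofFinite κ
  have : Module.Finite ℂ (Submodule.span ℂ (range (φ ∘ a))) :=
    Module.Finite.span_of_finite ℂ (finite_range _)
  have h2 : Submodule.span ℂ (range ψ) ≤ Submodule.span ℂ (range (φ ∘ a)) :=
    Submodule.span_le.2 (by rintro _ ⟨b, rfl⟩; exact e ▸ h1 b)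
  have h3 := Submodule.finrank_mono h2
  rw [finrank_span_eq_card hψ, finrank_span_eq_card hi] at h3
  obtain ⟨u⟩ := Function.Embedding.nonempty_of_card_le h3
  exact ⟨fun i => a (u i), hi.comp u u.injective⟩

variable {n s : ℕ} {F : Fin s → Pl n} {P : Pl n} {v ξ : Cm n}

theorem span_zero (h : ∀ j, ev (F j) v = 0) (hP : P ∈ Ideal.span (range F)) : ev P v = 0 :=
  (Ideal.span_le (I := RingHom.ker (MvPolynomial.eval v))).2 (by rintro _ ⟨j, rfl⟩; exact h j) hP

theorem span_der (h : ∀ j, ev (F j) v = 0) (h' : ∀ j, fderiv ℂ (ev (F j)) v ξ = 0)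
    (hP : P ∈ Ideal.span (range F)) : fderiv ℂ (ev P) v ξ = 0 := by
  induction hP using Submodule.span_induction with
  | mem P hP => obtain ⟨j, rfl⟩ := hP; exact h' j
  | zero =>
    rw [show ev (0 : Pl n) = fun _ => 0 from funext fun w => map_zero _]
    simp
  | add P Q _ _ h1 h2 =>
    rw [show ev (P + Q) = fun w => ev P w + ev Q w from funext fun w => map_add _ _ _,
      fderiv_fun_add (ev_an P v).differentiableAt (ev_an Q v).differentiableAt]
    simp [h1, h2]
  | smul Q P hP h1 =>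
    rw [show ev (Q • P) = fun w => ev Q w * ev P w from funext fun w => map_mul _ _ _,
      fderiv_fun_mul (ev_an Q v).differentiableAt (ev_an P v).differentiableAt]
    simp [h1, span_zero h hP]

variable {D K : ℕ} {M : Mf D} {y : M.X}

theorem chain {X : M.X → Cm n} (hX : AnV D X y) {G : Cm n → ℂ} (hG : AnalyticAt ℂ G (X y))
    {e : Chart D M.X} (he : At e y) (η : Cm D) : dd (fun y => G (X y)) e y η =
      fderiv ℂ G (X y) (fderiv ℂ (fun z => X (e.symm z)) (e y) η) := by
  have h1 : X (e.symm (e y)) = X y := by rw [e.left_inv he.2]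
  have h2 := (h1.symm ▸ hG.differentiableAt.hasFDerivAt).comp (e y)
    (hX e he).differentiableAt.hasFDerivAt
  rw [h1] at h2
  exact congrArg (fun A => A η) h2.fderiv

theorem an_pt (S : PS K) {v : Cm (K + 1)} (hv : v ≠ 0) {A : S.P.X → ℂ} (hA : Hol K A (S.pt v)) :
    AnalyticAt ℂ (fun w => A (S.pt w)) v := by
  have he := at_chartAt (n := K) (S.pt v)
  refine ((hA _ he).comp_of_eq (S.an v hv _ he) rfl).congr ?_
  filter_upwards [(S.cont v hv).eventually (at_near he)] with w hw
  exact congrArg A ((chartAt (Cm K) (S.pt v)).left_inv hw.2)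

end Eqm

open Eqm in
theorem eqm_of (hC : CHOW) (hJ : FINJ) : EQM := by
  intro D N c K M S ι Y hc hι hY hcl
  obtain ⟨V, i, hi⟩ := hY.emb hcl.isCompact
  have hC := hC K S (ι '' Y) (hι.comp hi).an
  obtain ⟨s, F, hF, hgen⟩ := hJ _ (cone S (ι '' Y))
  have h1 : ∀ y ∈ Y, ∀ v, S.pt v = ι y → v ∈ cone S (ι '' Y) :=
    fun y hy v e => Or.inr (e ▸ mem_image_of_mem ι hy)
  refine ⟨s, F, fun j => (hF j).1, fun y v hv e => ⟨fun hy j => (hF j).2 v (h1 y hy v e),
    fun h0 => ?_⟩, fun y hy h hU => ?_⟩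
  · rcases (hC v).1 fun P hP => span_zero h0 (hgen P hP) with h2 | ⟨y', h2, h3⟩
    · exact absurd h2 hv
    · exact hι.inj (h3.trans e) ▸ h2
  obtain ⟨c', k, hc', hk, hkY⟩ := hY y hy
  obtain rfl : c' = c := by omega
  have hX : AnV D (fun y => S.x h (ι y)) y := AnV.pi fun a => hι.hol.hol (S.xhol hU a)
  have hv := S.xnz h _ hU
  have hpt := S.pt_x' hU
  have hcone := h1 y hy _ hpt
  have he := at_chartAt (n := D) y
  have hol : ∀ j, Hol D (fun y => ev (F j) (S.x h (ι y))) y := fun j => hX.cmp (ev_an _ _)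
  obtain ⟨σ, hσ⟩ := pick (fun j => dd (fun y => ev (F j) (S.x h (ι y))) _ y) (hk.2 _ he)
    fun a η hη => by
      obtain ⟨A, hA, hAk⟩ := (hι.imm y).ext (hι.hol.at y) (hk.1 a)
      have hH := an_pt S hv (A := A) (hpt.symm ▸ hA)
      have h2 : dd (k a) _ y = dd (fun y => A (S.pt (S.x h (ι y)))) _ y := dd_congr (by
        filter_upwards [hAk, hι.hol.cont.continuousAt.eventually ((S.lb.isOpen h).mem_nhds hU)]
          with y' h3 h4
        rw [S.pt_x' h4, h3]) he
      rw [h2, chain hX hH he]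
      refine (hC _).2 hcone _ hH ?_ _ fun P hP => span_der (fun j => (hF j).2 _ hcone)
        (fun j => (chain hX (ev_an _ _) he η).symm.trans (hη j)) (hgen P hP)
      have h3 := hι.ev.1 (hAk.and hkY)
      rw [← hpt] at h3
      filter_upwards [(S.cont _ hv).eventually h3, eventually_ne_nhds hv] with w h4 h5 h6
      obtain ⟨y', h7, h8⟩ := h6.resolve_left h5
      rw [← h8, (h4 y' h8).1, (h4 y' h8).2.1 h7 a]
  exact ⟨σ, Ind.of_chart (fun a => hol _) he hσ⟩

end Vale.Agent.P301Z.Al
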