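import Vale.Agent.P301Z.Al.Geo
import Mathlib.Analysis.Complex.LocallyUniformLimit
import Mathlib.Analysis.Analytic.Uniqueness

/-!
# P301, block ALG: homogeneous parts of an analytic function
-/

open scoped Topology
open Set Filter
open Vale.Agent.P272.K (Cm)

noncomputable section

namespace Vale.Agent.P301Z.Al

theorem mlp : MLP := by
  intro n k p
  refine ⟨∑ f : Fin k → Fin n, MvPolynomial.C (p fun i => Pi.single (f i) 1) *
    ∏ i, MvPolynomial.X (f i), MvPolynomial.IsHomogeneous.sum _ _ _ fun f _ => ?_, fun v => ?_⟩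
  · have := MvPolynomial.IsHomogeneous.prod Finset.univ
      (fun i => (MvPolynomial.X (f i) : Pl n)) (fun _ => 1) fun i _ =>
        MvPolynomial.isHomogeneous_X ℂ (f i)
    rw [Finset.sum_const, Finset.card_univ, Fintype.card_fin, smul_eq_mul, mul_one] at this
    exact this.C_mul _
  · have e : (fun _ : Fin k => v) = fun _ => ∑ j, v j • (Pi.single j 1 : Cm n) :=
      funext fun _ => pi_eq_sum_univ' v
    rw [e, p.map_sum, ev, map_sum]
    refine Finset.sum_congr rfl fun f _ => ?_
    rw [p.map_smul_univ, map_mul, map_prod, MvPolynomial.eval_C, smul_eq_mul, mul_comm]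
    simp only [MvPolynomial.eval_X]

theorem homp : HOMP := by
  intro n X g hX hg h0
  obtain ⟨p, r, hp⟩ := hg
  choose P hP eP using fun k => mlp n k (p k)
  have hJ : ∀ k, P k ∈ J X := fun k => ⟨⟨k, hP k⟩, fun v hv => by
    let u : ℂ →L[ℂ] Cm n := ContinuousLinearMap.toSpanSingleton ℂ v
    have h1 : HasFPowerSeriesAt g p (u 0) := by
      rw [map_zero]
      exact hp.hasFPowerSeriesAt
    have h2 : ∀ᶠ t in 𝓝 (0 : ℂ), u t ∈ X → g (u t) = 0 :=
      (u.continuous.tendsto' 0 0 (map_zero u)).eventually h0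
    have h3 := (h1.compContinuousLinearMap.congr (g := 0)
      (h2.mono fun t ht => ht (hX v hv t))).apply_eq_zero k 1
    rw [eP, ← h3, FormalMultilinearSeries.compContinuousLinearMap_apply]
    exact congrArg (p k) (funext fun _ => (one_smul ℂ v).symm)⟩
  filter_upwards [Metric.eball_mem_nhds (0 : Cm n) hp.r_pos] with v hv
  refine ⟨fun h => ?_, fun ξ h => ?_⟩
  · have h1 := hp.hasSum hv
    rw [zero_add, funext fun k => (eP k v).symm.trans (h _ (hJ k))] at h1
    exact h1.unique hasSum_zero
  · have hl : ∀ s : ℂ, HasDerivAt (fun s : ℂ => v + s • ξ) ξ s := fun s => by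
      simpa using ((hasDerivAt_id s).smul_const ξ).const_add v
    have hc : Continuous fun s : ℂ => v + s • ξ := by fun_prop
    have h00 : v + (0 : ℂ) • ξ = v := by rw [zero_smul, add_zero]
    have hd : ∀ f : Cm n → ℂ, DifferentiableAt ℂ f v →
        HasDerivAt (fun s : ℂ => f (v + s • ξ)) (fderiv ℂ f v ξ) 0 := fun f hf =>
      hf.hasFDerivAt.comp_hasDerivAt_of_eq 0 (hl 0) h00.symm
    have e : ∀ m, p.partialSum m ∘ (fun s : ℂ => v + s • ξ) =
        fun s => ∑ k ∈ Finset.range m, ev (P k) (v + s • ξ) := fun m => funext fun s =>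
      (Finset.sum_congr (s₁ := Finset.range m) rfl fun k _ => eP k (v + s • ξ)).symm
    have h1 := hp.tendstoLocallyUniformlyOn.comp _ (mapsTo_preimage _ _) hc.continuousOn
    have h2 := (h1.deriv (Eventually.of_forall fun m => by
      rw [e]
      exact DifferentiableOn.fun_sum fun k _ s _ =>
        ((ev_an _ _).differentiableAt.comp s (hl s).differentiableAt).differentiableWithinAt)
      (Metric.isOpen_eball.preimage hc)).tendsto_at (a := 0) (by rwa [mem_preimage, h00])
    have h3 : ∀ m, deriv (p.partialSum m ∘ fun s : ℂ => v + s • ξ) 0 = 0 := fun m => by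
      rw [e, (HasDerivAt.fun_sum fun k _ => hd _ (ev_an (P k) v).differentiableAt).deriv]
      exact Finset.sum_eq_zero fun k _ => h _ (hJ k)
    have h4 : deriv ((fun y => g (0 + y)) ∘ fun s : ℂ => v + s • ξ) 0 = fderiv ℂ g v ξ := by
      simp only [zero_add]
      exact (hd g (hp.analyticAt_of_mem hv).differentiableAt).deriv
    rw [← h4]
    exact tendsto_nhds_unique h2 (tendsto_const_nhds.congr fun m => (h3 m).symm)

end Vale.Agent.P301Z.Al
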