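import Vale.Agent.P301Z.Al.FDefs
import Vale.Agent.P281Z.An.All
import Vale.Agent.P281Z.Lf.Rech

/-!
# P301, block ALG: the smallest subvariety through uncountably many points
-/

open scoped Manifold ContDiff Topology
open Set Filter Function
open Vale.Agent.P281Z

noncomputable section

namespace Vale.Agent.P301Z.Al

theorem prj_imm {n p : ℕ} {V : Mf n} {W : Mf p} {f : V.X → W.X} (hf : HolM n p f)
    (h : ∀ x, Imm n p f x) (k : W.Prj) : V.Prj :=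
  let ⟨_, a, b⟩ := k; ⟨_, hf.lb a, Lf.pos_pull hf h b⟩

/-- the resolution of the closure of `A - B` -/
theorem res_prj (hR : RES) {n d : ℕ} {M : Mf n} {A B : Set M.X} (hA : An n A) (hB : An n B)
    (h : SubM n d (A \ B)) : ∃ (V : Mf d) (π : V.X → M.X), Over d n π A B ∧ (M.Prj → V.Prj) := by
  obtain ⟨I, rfl⟩ := idl n M B hB
  obtain ⟨U, π, r, E, a, -, -, -, -, b⟩ := hR n d M A I hA h
  exact ⟨U, π, a, fun ⟨L, c, e⟩ => b L c e⟩

theorem thp (hR : RES) {m : ℕ} (V : Mf m) {A : Set V.X} (hA : Thin m A) :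
    ∃ (U : ∀ d : Fin m, Mf d) (g : ∀ d, (U d).X → V.X), (∀ d : Fin m, HolM d m (g d)) ∧
      (∀ x ∈ A, ∃ d, x ∈ range (g d)) ∧ (V.Prj → ∀ d, (U d).Prj) := by
  obtain ⟨B, k1, -, k3, k4⟩ := Ana.reg m V.X A hA.an
  choose U g a b using fun d : Fin m => res_prj hR hA.an (k1 d) (k3 d)
  have e : A \ B m = ∅ := eq_empty_of_forall_notMem fun x hx => by
    obtain ⟨c, h, hc, -, h2⟩ := k3 m x hx
    obtain rfl : c = 0 := by omega
    exact hA.freq x (h2.mono fun y k => not_not.2 (k.2 fun a => a.elim0).1)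
  refine ⟨U, g, fun d => (a d).hol, fun x hx => ?_, fun k d => b d k⟩
  obtain ⟨d, p, q⟩ := mem_iUnion₂.1 (k4.le hx)
  refine ⟨⟨d, (Nat.lt_succ_iff.1 (Finset.mem_range.1 p)).lt_of_ne ?_⟩, (a _).range.ge q⟩
  rintro rfl
  simp [e] at q

theorem pigeon {ι κ P : Type} [Countable κ] {U : κ → Type} (f : ∀ k, U k → P) (a : ι → P)
    {I : Set ι} (hI : ¬ I.Countable) (h : ∀ i ∈ I, ∃ k, a i ∈ range (f k)) :
    ∃ (k : κ) (J : Set ι) (b : ι → U k), J ⊆ I ∧ ¬ J.Countable ∧ ∀ i ∈ J, f k (b i) = a i := by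
  obtain ⟨k, hk⟩ : ∃ k, ¬ {i | i ∈ I ∧ a i ∈ range (f k)}.Countable := by
    by_contra! k
    refine hI ((countable_iUnion k).mono fun i hi => ?_)
    obtain ⟨k, c⟩ := h i hi
    exact mem_iUnion.2 ⟨k, hi, c⟩
  obtain ⟨i, -, u, -⟩ : {i | i ∈ I ∧ a i ∈ range (f k)}.Nonempty :=
    nonempty_iff_ne_empty.2 fun c => hk (c ▸ countable_empty)
  have : Nonempty (U k) := ⟨u⟩
  exact ⟨k, _, fun i => invFun (f k) (a i), fun _ c => c.1, hk, fun i c => invFun_eq c.2⟩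

/-- **MIN** -/
theorem min_of (hR : RES) : MIN := by
  intro m
  refine Nat.strong_induction_on m fun m ih P ι a I hP hI => ?_
  obtain ⟨κ, _, W, j, c1, c2, -, c4, -⟩ := comps P
  obtain ⟨k, J, b, b1, b2, b3⟩ := pigeon j a hI fun i _ => c4 (a i)
  have hW := prj_imm (c2 k).hol (c2 k).imm hP
  by_cases h : ∀ Q, Thin m Q → {i | i ∈ J ∧ b i ∈ Q}.Countable
  · exact ⟨m, W k, j k, J, b, c1 k, hW, (c2 k).hol, b1, b2, b3, h⟩
  obtain ⟨Q, hQ⟩ := not_forall.1 h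
  obtain ⟨q1, q2⟩ := Classical.not_imp.1 hQ
  obtain ⟨U, g, g1, g2, g3⟩ := thp hR (W k) q1
  obtain ⟨d, J', b', d1, d2, d3⟩ := pigeon g b q2 fun i hi => g2 _ hi.2
  obtain ⟨p, Z, f, J'', zz, e1, e2, e3, e4, e5, e6, e7⟩ := ih d d.2 (U d) ι b' J' (g3 hW d) d2
  exact ⟨p, Z, fun z => j k (g d (f z)), J'', zz, e1, e2, (c2 k).hol.comp ((g1 d).comp e3),
    fun i hi => b1 (d1 (e4 hi)).1, e5,
    fun i hi => by beta_reduce; rw [e6 i hi, d3 i (e4 hi), b3 i (d1 (e4 hi)).1], e7⟩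

end Vale.Agent.P301Z.Al
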