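import Vale.Agent.P301Z.Al.Loc
import Vale.Agent.P301Z.Al.Min
import Vale.Agent.P281Z.Pb.Ps
import Vale.Agent.P281Z.Pb.Api

/-!
# P301, block ALG: curves through a point of a projective manifold
-/

open scoped Manifold ContDiff Topology
open Set Filter Function Metric
open Vale.Agent.P272.K
open Vale.Agent.P277Z (Hol at_chart hol_const)
open Vale.Agent.P277Z.Slc (Ind dd ind_iff_surj)
open Vale.Agent.P281Z Vale.Agent.P281Z.Ana

set_option linter.unusedSectionVars false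

noncomputable section

namespace Vale.Agent.P301Z.Al

/-- **FIN1** -/
theorem fin1 : FIN1 := by
  intro C S hS
  have k : ∀ x, ∀ᶠ y in 𝓝 x, y ∈ S → y = x := fun x => by
    obtain ⟨g, g1, g2, g3⟩ := hS.nz x
    have he := at_chart (n := 1) x
    set e := chartAt (Cm 1) x
    let T := ContinuousLinearEquiv.funUnique (Fin 1) ℂ ℂ
    have a : AnalyticAt ℂ (fun t => g (e.symm (T.symm t))) (T (e x)) :=
      (g1 e he).comp_of_eq (T.symm.analyticAt _) (T.symm_apply_apply _)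
    have t : Tendsto (fun y => T (e y)) (𝓝 x) (𝓝 (T (e x))) :=
      T.continuous.continuousAt.tendsto.comp (e.continuousAt he.2)
    have u : ∀ᶠ y in 𝓝 x, e.symm (T.symm (T (e y))) = y :=
      (at_near he).mono fun y hy => by rw [T.symm_apply_apply, e.left_inv hy.2]
    rcases a.eventually_eq_zero_or_eventually_ne_zero with b | b
    · exact (g2 (((t.eventually b).and u).mono fun y hy => hy.2 ▸ hy.1)).elim
    · filter_upwards [t.eventually (eventually_nhdsWithin_iff.1 b), u, g3] with y i j l m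
      by_contra c
      exact i (fun c' => c (j.symm.trans (c'.symm ▸ u.self_of_nhds))) (j.symm ▸ l m)
  obtain ⟨t, -, ht⟩ := hS.closed.isCompact.elim_nhds_subcover _ fun x _ => k x
  refine t.finite_toSet.subset fun y hy => ?_
  obtain ⟨x, a, b⟩ := mem_iUnion₂.1 (ht hy)
  exact b hy ▸ a

namespace L

theorem dir {E : Type} [NormedAddCommGroup E] [NormedSpace ℂ E] {U : E → ℂ} (hU : AnalyticAt ℂ U 0)
    (h : ∀ v : E, ∀ᶠ t in 𝓝 (0 : ℂ), U (t • v) = U 0) : ∀ᶠ v in 𝓝 0, U v = U 0 := by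
  obtain ⟨ε, e0, e1⟩ := Metric.eventually_nhds_iff_ball.1 hU.eventually_analyticAt
  filter_upwards [ball_mem_nhds (0 : E) (half_pos e0)] with v hv
  have a : AnalyticOnNhd ℂ (fun t : ℂ => U (t • v)) (ball 0 2) := fun t ht =>
    (e1 _ (by
      rw [mem_ball_zero_iff] at *
      rw [norm_smul]
      nlinarith [norm_nonneg t, norm_nonneg v])).comp (f := fun t : ℂ => t • v)
      (analyticAt_id.smul analyticAt_const)
  simpa using a.eqOn_of_preconnected_of_eventuallyEq (analyticOnNhd_const (v := U 0))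
    (convex_ball _ _).isPreconnected (mem_ball_self two_pos) (h v) (show (1 : ℂ) ∈ ball 0 2 by simp)

variable {n : ℕ} {X : Type} [TopologicalSpace X] [ChartedSpace (Cm n) X]
  [IsManifold 𝓘(ℂ, Cm n) ω X] {y : X}

theorem ind_clm {α β : Type} [Fintype α] [Fintype β] {w : X → α → ℂ}
    (h : Ind n (fun a y => w y a) y) (T : (α → ℂ) →L[ℂ] (β → ℂ)) (hT : Surjective T) :
    Ind n (fun b y => T (w y) b) y := by
  have he := at_chart (n := n) y
  have h0 : AnV n w y := AnV.pi h.1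
  have h1 : AnV n (fun y => T (w y)) y := h0.cmp (T.analyticAt _)
  refine Ind.of_chart h1.hol he ((ind_iff_surj _).2 fun v => ?_)
  obtain ⟨a, rfl⟩ := hT v
  obtain ⟨ξ, rfl⟩ := (ind_iff_surj _).1 (h.2 _ he) a
  have k := (T.hasFDerivAt.comp _ (h0 _ he).differentiableAt.hasFDerivAt).fderiv
  have k' := fderiv_pi fun a => (h1.hol a _ he).differentiableAt
  have k'' := fderiv_pi fun a => (h.1 a _ he).differentiableAt
  exact ⟨ξ, (DFunLike.congr_fun (k'.symm.trans k) ξ).trans (congrArg T (DFunLike.congr_fun k'' ξ))⟩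

theorem ind_of_sep {m : ℕ} {f : Fin m → X → ℂ} (hf : ∀ j, Hol n (f j) y) {e : Chart n X}
    (he : At e y) (h : ∀ ξ ≠ 0, ∃ j, dd (f j) e y ξ ≠ 0) :
    ∃ σ : Fin n → Fin m, Ind n (fun a => f (σ a)) y := by
  obtain ⟨σ, τ, k⟩ := (minor n m n (ContinuousLinearMap.pi fun j => dd (f j) e y)).1 (by
    rw [rk, LinearMap.finrank_range_of_inj ((injective_iff_map_eq_zero _).2 fun ξ c =>
      by_contra fun c' => let ⟨j, hj⟩ := h ξ c'; hj (congrFun c j))]
    simp)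
  exact ⟨σ, .of_chart (fun a => hf _) he (LinearIndependent.of_comp (LinearMap.pi fun b =>
    (ContinuousLinearMap.apply ℂ ℂ (Pi.single (τ b) 1 : Cm n)).toLinearMap)
    (Matrix.linearIndependent_rows_of_det_ne_zero k))⟩

/-- linear sections -/
theorem lin_an {r q : ℕ} (S : PS r) {φ : X → S.P.X} (hφ : HolM n r φ)
    (Λ : Cm (r + 1) →L[ℂ] Cm q) : ∃ Γ, An n Γ ∧ ∀ y h, φ y ∈ S.H.U h →
      (y ∈ Γ ↔ Λ (S.x h (φ y)) = 0) := by
  have k : ∀ y h, φ y ∈ S.H.U h → ((∀ h', φ y ∈ S.H.U h' → Λ (S.x h' (φ y)) = 0) ↔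
      Λ (S.x h (φ y)) = 0) := fun y h a =>
    ⟨fun b => b h a, fun b h' c => by rw [S.x_chg c a, map_smul, b, smul_zero]⟩
  refine ⟨{y | ∀ h', φ y ∈ S.H.U h' → Λ (S.x h' (φ y)) = 0}, fun x => ?_, k⟩
  obtain ⟨h, a⟩ := S.lb.cover (φ x)
  refine ⟨q, fun i y => Λ (S.x h (φ y)) i,
    ((AnV.pi fun b => hφ.hol (S.xhol a b)).cmp (Λ.analyticAt _)).hol, ?_⟩
  filter_upwards [hφ.cont.continuousAt.eventually ((S.lb.isOpen h).mem_nhds a)] with y b
  exact (k y h b).trans funext_iff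

/-- local coordinates whose linear subspaces are contained in global analytic sets -/
theorem coord (hK : Pb.KODE) {p : ℕ} {Z : Mf p} (hZ : Z.Prj) (z : Z.X) :
    ∃ w : Z.X → Cm p, w z = 0 ∧ Ind p (fun a y => w y a) z ∧ ∀ (q : ℕ) (T : Cm p →L[ℂ] Cm q),
      ∃ Γ, An p Γ ∧ ∀ᶠ y in 𝓝 z, y ∈ Γ ↔ T (w y) = 0 := by
  obtain ⟨L, l1, l2⟩ := hZ
  obtain ⟨_, r, _, -, -, -, k⟩ := hK p Z L l1 l2
  obtain ⟨S⟩ := Pb.psex r
  obtain ⟨φ, hφ, -⟩ := k S
  obtain ⟨h, a⟩ := S.lb.cover (φ z)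
  have a' := hφ.hol.cont.continuousAt.eventually ((S.lb.isOpen h).mem_nhds a)
  have hs : ∀ b, Hol p (fun y => S.x h (φ y) b) z := fun b => hφ.hol.hol (S.xhol a b)
  obtain ⟨l, hl⟩ := Function.ne_iff.1 (S.xnz h _ a)
  have he := at_chart (n := p) z
  have hr : ∀ j, Hol p (fun y => S.x h (φ y) j / S.x h (φ y) l) z := fun j e c =>
    (hs j e c).div (hs l e c) (by rwa [c.left_inv])
  obtain ⟨σ, hσ⟩ := ind_of_sep hr he ((S.imm_iff hs hl he).1
    ((hφ.imm z).cng (a'.mono fun y b => (S.pt_x' b).symm)))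
  let c : Cm p := fun b => S.x h (φ z) (σ b) / S.x h (φ z) l
  refine ⟨fun y b => S.x h (φ y) (σ b) / S.x h (φ y) l - c b, funext fun b => sub_self _,
    ⟨fun b e i => (hr _ e i).sub analyticAt_const, fun e i => ?_⟩, fun q T => ?_⟩
  · simpa only [P277Z.Slc.dd_sub_const] using hσ.2 e i
  let W : Cm (r + 1) →L[ℂ] Cm p := ContinuousLinearMap.pi fun b =>
    ContinuousLinearMap.proj (σ b) - c b • ContinuousLinearMap.proj l
  obtain ⟨Γ, g1, g2⟩ := lin_an S hφ.hol (T.comp W)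
  refine ⟨Γ, g1, ?_⟩
  filter_upwards [a', (hs l).continuousAt.eventually_ne hl] with y i j
  have : W (S.x h (φ y)) = S.x h (φ y) l • fun b => S.x h (φ y) (σ b) / S.x h (φ y) l - c b :=
    funext fun b => by
      change S.x h (φ y) (σ b) - c b * S.x h (φ y) l = S.x h (φ y) l * (_ / _ - _)
      rw [mul_sub, mul_div_cancel₀ _ j, mul_comm]
  rw [g2 y h i, ContinuousLinearMap.comp_apply, this, map_smul, smul_eq_zero_iff_right j]

end L

open L in
/-- **CUR** -/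
theorem cur_of (hR : RES) (hK : Pb.KODE) : CUR := by
  intro p Z z u hZ hu hn
  obtain ⟨w, w0, w1, w2⟩ := coord hK hZ z
  obtain ⟨Θ, t1, t2, -, t4⟩ := exists_co w1 (d := 0) (by simp) univ_mem
  have t5 : ∀ y ∈ Θ.source, (w y, 0) = Θ y := fun y hy =>
    Prod.ext (t4 y hy).symm (Subsingleton.elim _ _)
  have t6 : ((0 : Cm p), (0 : Cm 0)) = Θ z := w0 ▸ t5 z t2
  have t7 : ((0 : Cm p), (0 : Cm 0)) ∈ Θ.target := t6 ▸ Θ.map_source t2
  have t8 : Θ.symm (0, 0) = z := by rw [t6, Θ.left_inv t2]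
  obtain ⟨v, hv⟩ : ∃ v : Cm p, ¬ ∀ᶠ t in 𝓝 (0 : ℂ), u (Θ.symm (t • v, 0)) = u (Θ.symm (0, 0)) := by
    by_contra! k
    have := dir (U := fun v : Cm p => u (Θ.symm (v, 0))) ((t1.an_hol t7 (t8.symm ▸ hu)).comp
      (f := fun v : Cm p => (v, (0 : Cm 0))) (analyticAt_id.prod analyticAt_const)) k
    refine hn ?_
    filter_upwards [(AnV.pi w1.1).cont.eventually (p := fun v =>
      u (Θ.symm (v, 0)) = u (Θ.symm (0, 0))) (w0.symm ▸ this),
      Θ.open_source.mem_nhds t2] with y a b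
    rwa [t5 y b, Θ.left_inv b, t8] at a
  obtain ⟨l, hl⟩ : ∃ l, v l ≠ 0 := Function.ne_iff.1 fun c => hv (by simp [show v = 0 from c])
  obtain ⟨q, rfl⟩ : ∃ q, p = q + 1 := ⟨p - 1, by have := l.2; omega⟩
  let T : Cm (q + 1) →L[ℂ] Cm q := ContinuousLinearMap.pi fun b =>
    ContinuousLinearMap.proj (l.succAbove b) - (v (l.succAbove b) / v l) • ContinuousLinearMap.proj l
  have T1 : T v = 0 := funext fun b => by simp [T, hl]
  have T2 : Surjective T := fun x => ⟨l.insertNth 0 x, funext fun b => by simp [T]⟩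
  obtain ⟨Γ, g1, g2⟩ := w2 q T
  have g3 := ind_clm w1 T T2
  have g4 : ∀ᶠ y in 𝓝 z, y ∈ Γ ↔ ∀ b, T (w y) b = 0 := g2.mono fun y a => a.trans funext_iff
  have g5 : z ∈ Γ := g2.self_of_nhds.2 (by rw [w0, map_zero])
  have g6 : z ∉ Rg.B (q + 1) Γ 1 := by
    rw [Rg.B, if_pos (Nat.le_add_left 1 q), Nat.add_sub_cancel]
    rintro (c | c)
    · exact c.2 ⟨_, g3, fun b => g4.mono fun y a k => a.1 k b⟩
    · exact not_T g3 g4 c
  obtain ⟨V, π, o1, o2⟩ := res_prj hR g1 (Rg.an_B g1 1) (Rg.subM g1 1)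
  obtain ⟨x, rfl, x1⟩ := o1.one z g5 g6
  obtain ⟨C, i, c1, c2⟩ := comp_emb V x
  obtain ⟨o, rfl⟩ := c2.ex mem_connectedComponent
  refine ⟨C, fun t => π (i t), o, c1, prj_imm c2.hol c2.imm (o2 hZ), o1.hol.comp c2.hol, rfl,
    fun k => hv ?_⟩
  have k1 := o1.hol.cont.isClosedMap.eventually_nhds_fiber (p := fun x => u (π x) = u (π (i o)))
    (π (i o)) fun x hx => by
      rw [x1 x hx]
      refine ((imm_iff_sbm.1 (c2.imm o)).ev (c2.hol.at o) k).mono ?_
      rintro _ ⟨t, a, rfl⟩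
      exact a
  have k2 : Tendsto (fun t : ℂ => (t • v, (0 : Cm 0))) (𝓝 0) (𝓝 (0, 0)) :=
    Continuous.tendsto' (by fun_prop) _ _ (by simp)
  have k3 := (Θ.continuousAt_symm t7).tendsto.comp k2
  rw [t8] at k3
  filter_upwards [k2.eventually (Θ.open_target.mem_nhds t7), k3.eventually (k1.and (g2.and
    ((Rg.an_B g1 1).closed.isOpen_compl.eventually_mem g6)))] with t a ⟨b, c, d⟩
  have e : w (Θ.symm (t • v, 0)) = t • v :=
    congrArg Prod.fst ((t5 _ (Θ.map_target a)).trans (Θ.right_inv a))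
  obtain ⟨y, hy, -⟩ := o1.one _ (c.2 (by rw [comp_apply, e, map_smul, T1, smul_zero])) d
  rw [t8, ← b y hy, hy, comp_apply]

end Vale.Agent.P301Z.Al
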