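import Vale.Agent.P301Z.Al.Rk
import Vale.Agent.P301Z.Al.Min
import Vale.Agent.P281Z.El.Dma

/-!
# P301, block ALG: the family through uncountably many submanifolds
-/

open scoped Manifold ContDiff Topology
open Set Filter Function
open Vale.Agent.P272.K
open Vale.Agent.P277Z (Hol at_chart)
open Vale.Agent.P277Z.Slc (Ind Snc)
open Vale.Agent.P277.H762 (Cv cv_iUnion)
open Vale.Agent.P281Z Vale.Agent.P281Z.El

noncomputable section

namespace Vale.Agent.P301Z.Al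

namespace L

theorem dm_cov {D d : ℕ} {W : Mf D} {κ : Type} [Countable κ] {A : Set W.X} {K : κ → Set W.X}
    (h : ∀ k, Dm d (K k)) (k : A ⊆ ⋃ k, K k) : Dm d A := fun c hc =>
  (cv_iUnion fun k => h k c hc).mono (by
    rintro _ ⟨x, ⟨a, b⟩, rfl⟩
    obtain ⟨l, hl⟩ := mem_iUnion.1 (k a)
    exact mem_iUnion.2 ⟨l, x, ⟨hl, b⟩, rfl⟩)

theorem gen0 (hR : RES) {n p : ℕ} {V : Mf n} {Y : Mf p} {f : V.X → Y.X} (hf : HolM n p f) :
    ∃ Q, Thin p Q ∧ ∀ x, f x ∉ Q → Sbm n p f x := by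
  have s : Snc n (Empty.elim : Empty → Set V.X) := fun x => ⟨fun l => l.elim, fun l => l.elim,
    fun a => a.1.elim, fun _ _ => linearIndependent_empty_type⟩
  obtain ⟨Q, a, b⟩ := gen_of_res hR n p V Y f Empty _ hf s
  exact ⟨Q, a, fun x hx => (b _ hx).sbm hf s rfl⟩

/-- the bad set is covered by manifolds of small dimension -/
theorem T_cov (hR : RES) {n c e : ℕ} {W : Mf n} {A : Set W.X} (hA : An n A) (he : e + c = n) :
    ∃ (U : ∀ d : Fin e, Mf d) (g : ∀ d, (U d).X → W.X), (∀ d : Fin e, HolM d n (g d)) ∧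
      T n A c ⊆ ⋃ d, range (g d) := by
  obtain ⟨B, k1, -, k3, k4⟩ := Ana.reg n W.X A hA
  choose U g a b using fun d : Fin e => res_prj hR hA (k1 d) (k3 d)
  refine ⟨U, g, fun d => (a d).hol, closure_minimal (fun q hq => ?_)
    (isClosed_iUnion_of_finite fun d => (isCompact_range (a d).hol.cont).isClosed)⟩
  obtain ⟨h', r1, r2⟩ : Ana.Rg.R n A (c + 1) q := by_contra fun k => hq.2 ⟨hq.1, k⟩
  obtain ⟨d, -, k⟩ := mem_iUnion₂.1 (k4.le hq.1)
  obtain ⟨z, z1, z2, z3⟩ := ((mem_closure_iff_frequently.1 k).and_eventually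
    (r1.near.and (eventually_all.2 r2).eventually_nhds)).exists
  obtain ⟨c', h, s1, s2, s3⟩ := k3 d z z1
  have := codim_le s2 (s3.self_of_nhds.1 z1) z2
    ((s3.and z3).mono fun w i j b => i.2 b (i.1.2 j).1)
  simp only [Fintype.card_fin] at this
  exact mem_iUnion.2 ⟨⟨d, by omega⟩, (a _).range.ge k⟩

/-- the general fibres of the bad set are small -/
theorem T_fib (hR : RES) {p D N c : ℕ} {Z : Mf p} {M : Mf D} {A : Set (Z.prod M).X}
    (hA : An (p + D) A) (hN : N + c = D) : ∃ S, Thin p S ∧ ∀ t ∉ S, ∀ (F : Mf N) (j : F.X → M.X)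
      (v : F.X), HolM N D j → Imm N D j v → ¬ ∀ u, Z.pair M t (j u) ∈ T (p + D) A c := by
  obtain ⟨U, g, g1, g2⟩ := T_cov hR hA (e := p + N) (c := c) (by omega)
  choose Q q1 q2 using fun d => gen0 hR (hol_p1.comp (g1 d))
  refine ⟨⋃ d, Q d, Thin.iUnion q1, fun t ht F j v hj hv k => ?_⟩
  have s : ∀ d x, Z.p1 M (g d x) = t → Sbm d p (fun x => Z.p1 M (g d x)) x := fun d x hx =>
    q2 d x fun c => ht (mem_iUnion.2 ⟨d, hx ▸ c⟩)
  have u : ∀ u, ∃ d x, g d x = Z.pair M t (j u) := fun u => mem_iUnion.1 (g2 (k u))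
  obtain ⟨d₀, x₀, h₀⟩ := u v
  have := (s d₀ x₀ (congrArg (Z.p1 M) h₀)).le
  have := d₀.2
  have := DmH.imm hj hv (dm_cov (d := N - 1)
    (K := fun d => (fun x => Z.p2 M (g d x)) '' {x | Z.p1 M (g d x) = t}) (fun d => ?_) ?_)
  · omega
  · rcases eq_empty_or_nonempty {x | Z.p1 M (g d x) = t} with c | ⟨x, c⟩
    · exact DmH.sub (by simp [c])
    have := (s d x c).le
    have := d.2
    obtain ⟨F', i, hi⟩ := fib_emb (d := d - p) (by omega) (hol_p1.comp (g1 d)) (s d)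
    refine DmH.push (hol_p2.comp (g1 d)) ?_
    have := dma.rng _ (N - 1) _ _ _ i hi.hol (by omega)
    rwa [hi.rng] at this
  · rintro _ ⟨w, rfl⟩
    obtain ⟨d, x, h⟩ := u w
    exact mem_iUnion.2 ⟨d, x, congrArg (Z.p1 M) h, congrArg (Z.p2 M) h⟩

end L

open L in
/-- **FAM** -/
theorem fam_of (hR : RES) : FAM := by
  intro m D N c P M V ι a Y I hP hV hN hI h1 h2 h3
  obtain ⟨p, Z, g, J, zz, e1, e2, e3, e4, e5, e6, e7⟩ := min_of hR m P ι a I hP hI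
  have hA := an_pb (M := M) e3 hV
  have f1 : ∀ i ∈ J, ∀ y, Z.pair M (zz i) y ∈ pb M g V ↔ y ∈ Y i := fun i hi y => by
    rw [mem_pb, e6 i hi, h2 i (e4 hi)]
  have f2 : ∀ i ∈ J, ∀ y ∈ Y i, JS Z M (pb M g V) c (Z.pair M (zz i) y) := fun i hi y hy =>
    JS.pb e3 (by
      change JS P M V c (P.pair M (g (zz i)) y)
      rw [e6 i hi]
      exact h3 i (e4 hi) y hy)
  set A := pb M g V
  have hB := rem_of_res hR _ _ _ _ _ _ hol_p1 ((rkl p D c Z M A hA).union (an_T hA c))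
  set B := Z.p1 M '' ({z | z ∈ A ∧ ¬ JS Z M A c z} ∪ T (p + D) A c)
  have un : ∀ Q, Thin p Q → ¬ {i | i ∈ J ∧ zz i ∉ Q}.Countable := fun Q hQ k =>
    e5 ((k.union (e7 Q hQ)).mono fun i hi =>
      (em (zz i ∈ Q)).elim (fun c => .inr ⟨hi, c⟩) fun c => .inl ⟨hi, c⟩)
  have tB : Thin p B := by
    obtain ⟨S, s1, s2⟩ := T_fib hR hA hN
    obtain ⟨i, hi, hs⟩ : {i | i ∈ J ∧ zz i ∉ S}.Nonempty :=
      nonempty_iff_ne_empty.2 fun c => un S s1 (c ▸ countable_empty)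
    obtain ⟨F, j, _, hj⟩ := h1 i (e4 hi)
    have ct := (emb_slice2 (W := M) (zz i)).hol.cont.comp hj.hol.cont
    have cl : IsClopen {u | Z.pair M (zz i) (j u) ∈ T (p + D) A c} :=
      ⟨(an_T hA c).closed.preimage ct, isOpen_iff_mem_nhds.2 fun u hu => by
        obtain ⟨h, b1, b2⟩ := f2 i hi _ (hj.mem u)
        exact (ct.continuousAt.eventually (T_near hA b1.ind b2 hu)).mono fun w k =>
          k ((f1 i hi _).2 (hj.mem w))⟩
    refine hB.thin fun k => ?_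
    obtain ⟨z, z1, z2⟩ : zz i ∈ B := k ▸ mem_univ _
    obtain ⟨y, rfl⟩ : ∃ y, z = Z.pair M (zz i) y := ⟨Z.p2 M z, prod_ext z2 rfl⟩
    rcases z1 with z1 | z1
    · exact z1.2 (f2 i hi _ ((f1 i hi _).1 z1.1))
    · obtain ⟨u, hu⟩ := hj.ex ((f1 i hi _).1 (T_sub hA c z1))
      exact s2 _ hs F j u hj.hol (hj.imm u)
        (eq_univ_iff_forall.1 (cl.eq_univ ⟨u, by rwa [mem_ofPred_eq, hu]⟩))
  refine ⟨⟨p, Z, e1, e2, B, tB, A, hA, fun z hz k => ?_, {i | i ∈ J ∧ zz i ∉ B}, un B tB, zz,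
    fun i hi => hi.2, fun i hi => f1 i hi.1, fun Q hQ => (e7 Q hQ).mono fun i hi =>
      And.intro hi.1.1 hi.2⟩, fun i hi => e4 hi.1⟩
  obtain ⟨h, b1, b2⟩ : JS Z M A c z := by_contra fun c => k ⟨z, .inl ⟨hz, c⟩, rfl⟩
  exact ⟨h, b1, (b2.and (sub_man (hA z) hz b1.ind b2 fun c => k ⟨z, .inr c, rfl⟩)).mono
    fun w i => ⟨i.1, i.2⟩⟩

end Vale.Agent.P301Z.Al
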