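import Vale.Agent.P301Z.Al.Geo

/-!
# P301, block ALG: the parameter space of systems of forms, and zero sets of bihomogeneous functions
-/

open scoped Manifold ContDiff Topology
open Set Filter
open Vale.Agent.P272.K (Cm Chart At)
open Vale.Agent.P277Z (Hol)
open Vale.Agent.P281Z

noncomputable section

namespace Vale.Agent.P301Z.Al

namespace Parm

theorem fd (n d : ℕ) : FiniteDimensional ℂ (MvPolynomial.homogeneousSubmodule (Fin n) ℂ d) :=
  Submodule.finiteDimensional_of_le (S₂ := MvPolynomial.restrictTotalDegree (Fin n) ℂ d)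
    fun _ hP => (MvPolynomial.mem_restrictTotalDegree _ _ _).2
      (MvPolynomial.IsHomogeneous.totalDegree_le hP)

theorem ev_lin {E n : ℕ} (Φ : Cm E →ₗ[ℂ] Pl n) (q : Cm E) (v : Cm n) :
    ev (Φ q) v = ∑ b, q b * ev (Φ (Pi.single b 1)) v := by
  have h : q = ∑ b, q b • (Pi.single b 1 : Cm E) := by
    funext a
    simp [Finset.sum_apply, Pi.single_apply]
  conv_lhs => rw [h]
  simp only [ev, map_sum, map_smul, MvPolynomial.smul_eval]

theorem ev_an2 {E n : ℕ} (Φ : Cm E →ₗ[ℂ] Pl n) (z : Cm E × Cm n) :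
    AnalyticAt ℂ (fun z : Cm E × Cm n => ev (Φ z.1) z.2) z := by
  simp only [ev_lin Φ (Prod.fst _)]
  refine Finset.analyticAt_fun_sum _ fun b _ => AnalyticAt.mul ?_ ?_
  · exact analyticAt_pi_iff.1 analyticAt_fst b
  · exact AnalyticAt.fun_comp (ev_an _ z.2) analyticAt_snd

end Parm

theorem parm : PARM := by
  intro n s d
  have := Parm.fd n
  let W : Type := ℂ × ((j : Fin s) → MvPolynomial.homogeneousSubmodule (Fin n) ℂ (d j))
  obtain ⟨E, hE⟩ : ∃ E, Module.finrank ℂ W = E + 1 :=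
    Nat.exists_eq_succ_of_ne_zero (Module.finrank_pos (R := ℂ) (M := W)).ne'
  let ε : W ≃ₗ[ℂ] Cm (E + 1) := (Module.finBasisOfFinrankEq ℂ W hE).equivFun
  refine ⟨E, fun j => (Submodule.subtype _) ∘ₗ (LinearMap.proj j) ∘ₗ (LinearMap.snd ℂ ℂ _) ∘ₗ
    ε.symm.toLinearMap, fun j q => ((ε.symm q).2 j).2, fun j z => Parm.ev_an2 _ z, fun F hF => ?_⟩
  refine ⟨ε (1, fun j => ⟨F j, hF j⟩), fun h => ?_, fun j => ?_⟩
  · exact one_ne_zero (congrArg Prod.fst (ε.map_eq_zero_iff.1 h))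
  · show (((ε.symm (ε (1, fun j => ⟨F j, hF j⟩))).2 j : _) : Pl n) = F j
    rw [ε.symm_apply_apply]

theorem zh : ZH := by
  intro D E K s W S S' φ ψ f hφ hψ hf w
  obtain ⟨h, hh⟩ := S.lb.cover (φ w)
  obtain ⟨h', hh'⟩ := S'.lb.cover (ψ w)
  refine ⟨s, fun i y => f i (S.x h (φ y)) (S'.x h' (ψ y)), fun i => ?_, ?_⟩
  · exact ((AnV.pi fun a => hφ.hol (S.xhol hh a)).prod
      (AnV.pi fun a => hψ.hol (S'.xhol hh' a))).cmp ((hf i).1 _)
  · filter_upwards [hφ.cont.continuousAt.eventually ((S.lb.isOpen h).mem_nhds hh),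
      hψ.cont.continuousAt.eventually ((S'.lb.isOpen h').mem_nhds hh')] with y k k'
    refine ⟨fun hy => hy _ (S.xnz h _ k) _ (S'.xnz h' _ k') (S.pt_x' k) (S'.pt_x' k'),
      fun hy q hq v hv e e' i => ?_⟩
    rw [← e] at k
    rw [← e'] at k'
    have h0 := hy i
    rw [← e, ← e'] at h0
    have := (hf i).2 _ _ _ _ (S.sc_ne hq k) (S'.sc_ne hv k') h0
    rwa [← S.sc_spec hq k, ← S'.sc_spec hv k'] at this

end Vale.Agent.P301Z.Al
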