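import Vale.Agent.P301Z.Al.Geo
import Vale.Agent.P281Z.Hm.Calc
import Vale.Agent.P281Z.Sc.Bd
import Vale.Agent.P281Z.Rs.Zero
import Vale.Agent.P284Z.F0.Levi

/-!
# P301, block ALG: products of projective manifolds (PRJP, MPROD)
-/

open scoped Manifold ContDiff Topology ComplexOrder
open Set Filter
open Vale.Agent.P272.K (Cm Chart At cHess)
open Vale.Agent.P272.K.Prod (fstP sndP glue fstP_glue sndP_glue glue_fst_snd)
open Vale.Agent.P281Z
open Vale.Agent.P285.H281.FD (Bd IsLB)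
open Vale.Agent.P277.HD (pull)
open Vale.Agent.P284Z (levi cHess_quad cHess_psd_iff)

noncomputable section

namespace Vale.Agent.P301Z.Al

namespace MprodA

theorem posDef_iff {d : ℕ} {u : Cm d → ℝ} {z : Cm d} (hu : ContDiffAt ℝ 2 u z) :
    (cHess u z).PosDef ↔ ∀ w, w ≠ 0 → 0 < levi u z w := by
  refine ⟨fun h w hw => ?_, fun h => ?_⟩
  · have := h.dotProduct_mulVec_pos (star_ne_zero.2 hw)
    rw [cHess_quad hu, star_star, Complex.zero_lt_real] at this
    linarith
  · have h0 : (cHess u z).PosSemidef := (cHess_psd_iff hu).2 fun w => by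
      by_cases hw : w = 0
      · simp [hw, levi]
      · exact (h w hw).le
    refine Matrix.PosDef.of_dotProduct_mulVec_pos h0.isHermitian fun x hx => ?_
    rw [cHess_quad hu, Complex.zero_lt_real]
    linarith [h (star x) (star_ne_zero.2 hx)]

/-- the first component as a linear map -/
def fL (n p : ℕ) : Cm (n + p) →L[ℂ] Cm n :=
  ContinuousLinearMap.pi fun i => ContinuousLinearMap.proj (Fin.castAdd p i)

/-- the second component as a linear map -/
def sL (n p : ℕ) : Cm (n + p) →L[ℂ] Cm p :=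
  ContinuousLinearMap.pi fun i => ContinuousLinearMap.proj (Fin.natAdd n i)

theorem sum_pos {n p : ℕ} {a : Cm n → ℝ} {b : Cm p → ℝ} {x : Cm n} {y : Cm p}
    (ha : ContDiffAt ℝ ∞ a x) (hb : ContDiffAt ℝ ∞ b y) :
    ContDiffAt ℝ ∞ (fun w : Cm (n + p) => a (fstP w) + b (sndP w)) (glue x y) ∧
      ((cHess a x).PosDef → (cHess b y).PosDef →
        (cHess (fun w : Cm (n + p) => a (fstP w) + b (sndP w)) (glue x y)).PosDef) := by
  have t : (2 : WithTop ℕ∞) ≤ ∞ := WithTop.coe_le_coe.2 le_top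
  have ex : fL n p (glue x y) = x := fstP_glue x y
  have ey : sL n p (glue x y) = y := sndP_glue x y
  have ha' : ContDiffAt ℝ ∞ a (fL n p (glue x y)) := ex.symm ▸ ha
  have hb' : ContDiffAt ℝ ∞ b (sL n p (glue x y)) := ey.symm ▸ hb
  have s1 : ContDiffAt ℝ ∞ (fun w : Cm (n + p) => a (fL n p w)) (glue x y) :=
    ha'.comp _ ((fL n p).restrictScalars ℝ).contDiff.contDiffAt
  have s2 : ContDiffAt ℝ ∞ (fun w : Cm (n + p) => b (sL n p w)) (glue x y) :=
    hb'.comp _ ((sL n p).restrictScalars ℝ).contDiff.contDiffAt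
  refine ⟨s1.add s2, fun h1 h2 => ?_⟩
  change (cHess (fun w : Cm (n + p) => a (fL n p w) + b (sL n p w)) (glue x y)).PosDef
  refine (posDef_iff ((s1.add s2).of_le t)).2 fun w hw => ?_
  rw [Hm.levi_add (s1.of_le t) (s2.of_le t),
    Hm.levi_comp (g := fL n p) (ha'.of_le t) ((fL n p).analyticAt _),
    Hm.levi_comp (g := sL n p) (hb'.of_le t) ((sL n p).analyticAt _), (fL n p).fderiv,
    (sL n p).fderiv, ex, ey]
  have p1 := (posDef_iff (ha.of_le t)).1 h1
  have p2 := (posDef_iff (hb.of_le t)).1 h2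
  have q1 := (cHess_psd_iff (ha.of_le t)).1 h1.posSemidef (fL n p w)
  have q2 := (cHess_psd_iff (hb.of_le t)).1 h2.posSemidef (sL n p w)
  by_cases k : fL n p w = 0
  · refine add_pos_of_nonneg_of_pos q1 (p2 _ fun k' => hw ?_)
    funext i
    refine Fin.addCases (fun i => ?_) (fun i => ?_) i
    · exact congrFun k i
    · exact congrFun k' i
  · exact add_pos_of_pos_of_nonneg (p1 _ k) q2

end MprodA

open MprodA

/-- **PRJP** -/
theorem prjp : PRJP := by
  rintro n p V W ⟨L, hL, ψ, h1, h2⟩ ⟨L', hL', ψ', h1', h2'⟩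
  refine ⟨(pull (V.p1 W) L).mul (pull (V.p2 W) L'), lb_mul (hol_p1.lb hL) (hol_p2.lb hL'),
    fun i z => ψ i.1 (V.p1 W z) + ψ' i.2 (V.p2 W z), ⟨fun i E z hE hi => ?_, fun i j z hi hj => ?_⟩,
    fun i E z hE hi => ?_⟩
  · obtain ⟨e, e', rfl, he, he'⟩ := at_prod_dec hE
    exact (sum_pos (h1.smooth i.1 e _ he hi.1) (h1'.smooth i.2 e' _ he' hi.2)).1
  · change ψ i.1 (V.p1 W z) + ψ' i.2 (V.p2 W z) = ψ j.1 (V.p1 W z) + ψ' j.2 (V.p2 W z) +
      Real.log (‖L.g i.1 j.1 (V.p1 W z) * L'.g i.2 j.2 (V.p2 W z)‖ ^ 2)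
    rw [h1.change i.1 j.1 _ hi.1 hj.1, h1'.change i.2 j.2 _ hi.2 hj.2, norm_mul, mul_pow,
      Real.log_mul (pow_ne_zero 2 (norm_ne_zero_iff.2 (hL.ne_zero _ _ _ hi.1 hj.1)))
        (pow_ne_zero 2 (norm_ne_zero_iff.2 (hL'.ne_zero _ _ _ hi.2 hj.2)))]
    ring
  · obtain ⟨e, e', rfl, he, he'⟩ := at_prod_dec hE
    exact (sum_pos (h1.smooth i.1 e _ he hi.1) (h1'.smooth i.2 e' _ he' hi.2)).2
      (h2 i.1 e _ he hi.1) (h2' i.2 e' _ he' hi.2)

/-- **MPROD** -/
theorem mprod : MPROD := by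
  intro r
  induction r with
  | zero =>
    intro d V _ _
    refine ⟨0, Rs.Zr.mf Unit, fun a => a.elim0, Rs.Zr.prj _, ?_, fun a => a.elim0,
      fun n W f _ => ⟨fun _ => (), holM_const _, fun a => a.elim0⟩⟩
    have : Subsingleton (Rs.Zr.mf Unit).X := inferInstanceAs (Subsingleton Unit)
    have : Nonempty (Rs.Zr.mf Unit).X := inferInstanceAs (Nonempty Unit)
    exact { isPreconnected_univ := Set.subsingleton_univ.isPreconnected, toNonempty := this }
  | succ r ih =>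
    intro d V hV hc
    obtain ⟨m, P, π, hP, hPc, hπ, hu⟩ :=
      ih (fun a => d a.succ) (fun a => V a.succ) (fun a => hV _) fun a => hc _
    have := hc 0
    refine ⟨d 0 + m, (V 0).prod P,
      fun a => Fin.cases (motive := fun a => ((V 0).prod P).X → (V a).X) ((V 0).p1 P)
        (fun a z => π a ((V 0).p2 P z)) a, prjp _ _ _ _ (hV 0) hP, prod_conn, fun a => ?_,
      fun n W f hf => ?_⟩
    · refine Fin.cases ?_ (fun a => ?_) a
      · exact hol_p1
      · exact (hπ a).comp hol_p2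
    · obtain ⟨g, hg, hg'⟩ := hu n W (fun a => f a.succ) fun a => hf _
      refine ⟨fun y => (V 0).pair P (f 0 y) (g y), (hf 0).pair hg, fun a y => ?_⟩
      refine Fin.cases ?_ (fun a => ?_) a
      · rfl
      · exact hg' a y

end Vale.Agent.P301Z.Al
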