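import Vale.Agent.P301Z.Al.FDefs
import Vale.Agent.P281Z.Sc.Pic
import Vale.Agent.P281Z.Pb.Api2
import Vale.Agent.P281Z.Mf.Prod
import Vale.Agent.P281Z.Mf.Sub
import Mathlib.RingTheory.MvPolynomial.Homogeneous
import Mathlib.Analysis.Analytic.Polynomial

/-!
# P301, block ALG: equations of submanifolds of projective manifolds (definitions, statements)
-/

open scoped Manifold ContDiff Topology
open Set Filter
open Vale.Agent.P272.K (Cm Chart At)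
open Vale.Agent.P277Z (Hol)
open Vale.Agent.P277Z.Slc (Ind)
open Vale.Agent.P281Z
open Vale.Agent.P285.H281.FD (Bd IsLB)
open Vale.Agent.P277.HD (pull)

noncomputable section

namespace Vale.Agent.P301Z.Al

/-- polynomials -/
abbrev Pl (n : ℕ) : Type := MvPolynomial (Fin n) ℂ

/-- the value of a polynomial -/
def ev {n : ℕ} (P : Pl n) (v : Cm n) : ℂ := MvPolynomial.eval v P

theorem ev_an {n : ℕ} (P : Pl n) (v : Cm n) : AnalyticAt ℂ (ev P) v :=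
  AnalyticOnNhd.eval_mvPolynomial P v trivial

/-- homogeneous polynomials -/
def Hmg {n : ℕ} (P : Pl n) : Prop := ∃ d, P.IsHomogeneous d

/-- the homogeneous polynomials which vanish on `X` -/
def J {n : ℕ} (X : Set (Cm n)) : Set (Pl n) := {P | Hmg P ∧ ∀ v ∈ X, ev P v = 0}

/-- the cone over a subset of the projective space -/
def cone {K : ℕ} (S : PS K) (A : Set S.P.X) : Set (Cm (K + 1)) := {v | v = 0 ∨ S.pt v ∈ A}

/-! ### The theorem of Chow -/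

/-- **MLP**: the diagonal of a multilinear map is a homogeneous polynomial -/
def MLP : Prop := ∀ (n k : ℕ) (p : ContinuousMultilinearMap ℂ (fun _ : Fin k => Cm n) ℂ),
  ∃ P : Pl n, P.IsHomogeneous k ∧ ∀ v, ev P v = p fun _ => v

/-- **CONE**: generators of the ideal of the cone near the vertex -/
def CONE : Prop := ∀ (K : ℕ) (S : PS K) (A : Set S.P.X), An K A →
  ∃ (m : ℕ) (g : Fin m → Cm (K + 1) → ℂ), ∀ᶠ v in 𝓝 (0 : Cm (K + 1)),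
    (∀ i, AnalyticAt ℂ (g i) v) ∧ (v ∈ cone S A ↔ ∀ i, g i v = 0) ∧
    ∀ h, AnalyticAt ℂ h v → (∀ᶠ w in 𝓝 v, w ∈ cone S A → h w = 0) →
      ∃ c : Fin m → Cm (K + 1) → ℂ, (∀ i, AnalyticAt ℂ (c i) v) ∧
        ∀ᶠ w in 𝓝 v, h w = ∑ i, c i w * g i w

/-- **HOMP**: homogeneous parts -/
def HOMP : Prop := ∀ (n : ℕ) (X : Set (Cm n)) (g : Cm n → ℂ), (∀ v ∈ X, ∀ c : ℂ, c • v ∈ X) →
  AnalyticAt ℂ g 0 → (∀ᶠ v in 𝓝 0, v ∈ X → g v = 0) → ∀ᶠ v in 𝓝 0,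
    ((∀ P ∈ J X, ev P v = 0) → g v = 0) ∧
      ∀ ξ, (∀ P ∈ J X, fderiv ℂ (ev P) v ξ = 0) → fderiv ℂ g v ξ = 0

/-- **CHOW** -/
def CHOW : Prop := ∀ (K : ℕ) (S : PS K) (A : Set S.P.X), An K A → ∀ v,
  ((∀ P ∈ J (cone S A), ev P v = 0) → v ∈ cone S A) ∧
    (v ∈ cone S A → ∀ h : Cm (K + 1) → ℂ, AnalyticAt ℂ h v →
      (∀ᶠ w in 𝓝 v, w ∈ cone S A → h w = 0) →
      ∀ ξ, (∀ P ∈ J (cone S A), fderiv ℂ (ev P) v ξ = 0) → fderiv ℂ h v ξ = 0)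

/-- **FINJ**: finitely many generators -/
def FINJ : Prop := ∀ (n : ℕ) (X : Set (Cm n)), ∃ (s : ℕ) (F : Fin s → Pl n), (∀ j, F j ∈ J X) ∧
  ∀ P ∈ J X, P ∈ Ideal.span (range F)

/-- **EQM**: equations of a submanifold of an embedded manifold -/
def EQM : Prop := ∀ (D N c K : ℕ) (M : Mf D) (S : PS K) (ι : M.X → S.P.X) (Y : Set M.X),
  N + c = D → Emb D K ι (range ι) → SubM D N Y → IsClosed Y →
  ∃ (s : ℕ) (F : Fin s → Pl (K + 1)), (∀ j, Hmg (F j)) ∧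
    (∀ y, ∀ v ≠ 0, S.pt v = ι y → (y ∈ Y ↔ ∀ j, ev (F j) v = 0)) ∧
    ∀ y ∈ Y, ∀ h, ι y ∈ S.H.U h →
      ∃ σ : Fin c → Fin s, Ind D (fun i y => ev (F (σ i)) (S.x h (ι y))) y

/-! ### The universal zero set -/

/-- **PARM**: the space of the systems of homogeneous polynomials of given degrees -/
def PARM : Prop := ∀ (n s : ℕ) (d : Fin s → ℕ), ∃ (E : ℕ) (Φ : Fin s → Cm (E + 1) →ₗ[ℂ] Pl n),
  (∀ j q, (Φ j q).IsHomogeneous (d j)) ∧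
  (∀ j (z : Cm (E + 1) × Cm n),
    AnalyticAt ℂ (fun z : Cm (E + 1) × Cm n => ev (Φ j z.1) z.2) z) ∧
  ∀ F : Fin s → Pl n, (∀ j, (F j).IsHomogeneous (d j)) → ∃ q ≠ 0, ∀ j, Φ j q = F j

/-- `f` is analytic and its zero set is a cone in both variables -/
def Bi {E n : ℕ} (f : Cm E → Cm n → ℂ) : Prop :=
  (∀ z : Cm E × Cm n, AnalyticAt ℂ (fun z : Cm E × Cm n => f z.1 z.2) z) ∧
    ∀ q v (a b : ℂ), a ≠ 0 → b ≠ 0 → f q v = 0 → f (a • q) (b • v) = 0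

/-- the common zeros of the `f i` along `(φ, ψ)` -/
def Zs {W κ : Type} {E K : ℕ} (S : PS E) (S' : PS K) (φ : W → S.P.X) (ψ : W → S'.P.X)
    (f : κ → Cm (E + 1) → Cm (K + 1) → ℂ) : Set W :=
  {w | ∀ q ≠ 0, ∀ v ≠ 0, S.pt q = φ w → S'.pt v = ψ w → ∀ i, f i q v = 0}

/-- **ZH** -/
def ZH : Prop := ∀ (D E K s : ℕ) (W : Mf D) (S : PS E) (S' : PS K) (φ : W.X → S.P.X)
  (ψ : W.X → S'.P.X) (f : Fin s → Cm (E + 1) → Cm (K + 1) → ℂ), HolM D E φ → HolM D K ψ →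
  (∀ i, Bi (f i)) → An D (Zs S S' φ ψ f)

/-- **UNIV**: the universal zero set -/
def UNIV : Prop := ∀ (D N c : ℕ) (M : Mf D) (ι : Type) (Y : ι → Set M.X) (I : Set ι), M.Prj →
  N + c = D → ¬ I.Countable → (∀ i ∈ I, SubM D N (Y i) ∧ IsClosed (Y i)) →
  ∃ (m : ℕ) (P : Mf m) (V : Set (P.prod M).X) (a : ι → P.X) (I' : Set ι), P.Prj ∧
    An (m + D) V ∧ I' ⊆ I ∧ ¬ I'.Countable ∧ (∀ i ∈ I', ∀ y, P.pair M (a i) y ∈ V ↔ y ∈ Y i) ∧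
    ∀ i ∈ I', ∀ y ∈ Y i, JS P M V c (P.pair M (a i) y)

/-! ### Embeddings by several line bundles -/

/-- **PRJP** -/
def PRJP : Prop := ∀ (n p : ℕ) (V : Mf n) (W : Mf p), V.Prj → W.Prj → (V.prod W).Prj

/-- **MPROD**: finite products -/
def MPROD : Prop := ∀ (r : ℕ) (d : Fin r → ℕ) (V : ∀ a, Mf (d a)), (∀ a, (V a).Prj) →
  (∀ a, ConnectedSpace (V a).X) → ∃ (m : ℕ) (P : Mf m) (π : ∀ a, P.X → (V a).X), P.Prj ∧
    ConnectedSpace P.X ∧ (∀ a, HolM m (d a) (π a)) ∧ ∀ (n : ℕ) (W : Mf n)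
      (f : ∀ a, W.X → (V a).X), (∀ a, HolM n (d a) (f a)) →
        ∃ g : W.X → P.X, HolM n m g ∧ ∀ a y, π a (g y) = f a y

/-- **EMB** -/
def EMB : Prop := ∀ (N r : ℕ) (ι : Type) (Y : ι → Mf N) (H : ∀ i, Fin r → Bd (Y i).X)
  (I : Set ι), 0 < r → ¬ I.Countable → (∀ i ∈ I, ∀ a, IsLB N (H i a) ∧ Pos N (H i a)) →
  ∃ (J : Set ι) (k : Fin r → ℕ) (m : ℕ) (P : Mf m) (G : Fin r → Bd P.X)
    (φ : ∀ i, (Y i).X → P.X), J ⊆ I ∧ ¬ J.Countable ∧ P.Prj ∧ ConnectedSpace P.X ∧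
    (∀ a, 0 < k a ∧ IsLB m (G a) ∧ Bpf m (G a)) ∧ ∀ i ∈ J, Emb N m (φ i) (range (φ i)) ∧
      ∀ a, LIso N (pull (φ i) (G a)) ((H i a).pow (k a))

end Vale.Agent.P301Z.Al
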