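import Vale.Agent.P301Z.Al.Geo
import Vale.Agent.P281Z.Pb.Kode
import Vale.Agent.P281Z.Pb.Ps

/-!
# P301, block ALG: the universal zero set
-/

open scoped Manifold ContDiff Topology
open Set Filter
open Vale.Agent.P272.K (Cm Chart At)
open Vale.Agent.P277Z (Hol hol_const)
open Vale.Agent.P277Z.Slc (Ind dd)
open Vale.Agent.P281Z

noncomputable section

namespace Vale.Agent.P301Z.Al

namespace Univ

theorem pigeon {ι Δ : Type} [Countable Δ] {I : Set ι} (hI : ¬ I.Countable) (δ : ι → Δ) :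
    ∃ d, ¬ {i | i ∈ I ∧ δ i = d}.Countable := by
  by_contra h
  push Not at h
  exact hI ((countable_iUnion h).mono fun i hi => mem_iUnion.2 ⟨δ i, And.intro hi rfl⟩)

theorem ev_smul {n d : ℕ} {P : Pl n} (h : P.IsHomogeneous d) (c : ℂ) (v : Cm n) :
    ev P (c • v) = c ^ d * ev P v := by
  unfold ev
  rw [MvPolynomial.eval_eq', MvPolynomial.eval_eq', Finset.mul_sum]
  refine Finset.sum_congr rfl fun m hm => ?_
  have k : ∑ i, m i = d := by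
    rw [← h (MvPolynomial.mem_support_iff.1 hm), Finsupp.weight_apply,
      Finsupp.sum_fintype _ _ (by simp)]
    simp
  simp only [Pi.smul_apply, smul_eq_mul, mul_pow, Finset.prod_mul_distrib,
    Finset.prod_pow_eq_pow_sum, k]
  ring

theorem ev_smul' {n : ℕ} (c : ℂ) (P : Pl n) (v : Cm n) : ev (c • P) v = c * ev P v := by
  simp [ev]

theorem ind_smul {n : ℕ} {X α : Type} [TopologicalSpace X] [ChartedSpace (Cm n) X]
    {h : α → X → ℂ} {x : X} (hi : Ind n h x) {c : ℂ} (hc : c ≠ 0) :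
    Ind n (fun a y => c * h a y) x := by
  refine ⟨fun a e he => analyticAt_const.mul (hi.1 a e he), fun e he => ?_⟩
  have k : (fun a => dd (fun y => c * h a y) e x) = fun a => Units.mk0 c hc • dd (h a) e x :=
    funext fun a => fderiv_const_mul (hi.1 a e he).differentiableAt c
  rw [k]
  exact (hi.2 e he).units_smul fun _ => Units.mk0 c hc

theorem hol_bi {D E K : ℕ} {W : Mf D} {S : PS E} {S' : PS K} {φ : W.X → S.P.X}
    {ψ : W.X → S'.P.X} {f : Cm (E + 1) → Cm (K + 1) → ℂ} {w : W.X} {h : S.H.ι} {h' : S'.H.ι}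
    (hf : ∀ z : Cm (E + 1) × Cm (K + 1),
      AnalyticAt ℂ (fun z : Cm (E + 1) × Cm (K + 1) => f z.1 z.2) z)
    (h1 : HolA D E φ w) (h2 : HolA D K ψ w) (k1 : φ w ∈ S.H.U h) (k2 : ψ w ∈ S'.H.U h') :
    Hol D (fun w => f (S.x h (φ w)) (S'.x h' (ψ w))) w := fun e he =>
  ((AnV.pi fun a => h1.hol (S.xhol k1 a)).prod (AnV.pi fun a => h2.hol (S'.xhol k2 a))).cmp
    (hf _) e he

end Univ

open Univ

theorem univ_of (h1 : EQM) (h2 : PARM) (h3 : ZH) : UNIV := by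
  intro D N c M ι Y I ⟨L, hL, hp⟩ hc hI hY
  obtain ⟨k, K, s₀, -, -, -, hφ⟩ := Pb.kode D M L hL hp
  obtain ⟨S'⟩ := Pb.psex K
  obtain ⟨j, hj, -⟩ := hφ S'
  have key : ∀ i, ∃ (δ : Σ s : ℕ, Fin s → ℕ) (F : Fin δ.1 → Pl (K + 1)), i ∈ I →
      (∀ a, (F a).IsHomogeneous (δ.2 a)) ∧
      (∀ y, ∀ v ≠ 0, S'.pt v = j y → (y ∈ Y i ↔ ∀ a, ev (F a) v = 0)) ∧
      ∀ y ∈ Y i, ∀ h, j y ∈ S'.H.U h →
        ∃ σ : Fin c → Fin δ.1, Ind D (fun b y => ev (F (σ b)) (S'.x h (j y))) y := fun i => by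
    by_cases hi : i ∈ I
    · obtain ⟨s, F, k1, k2⟩ := h1 D N c K M S' j (Y i) hc hj (hY i hi).1 (hY i hi).2
      choose d hd using k1
      exact ⟨⟨s, d⟩, F, fun _ => ⟨hd, k2⟩⟩
    · exact ⟨⟨0, Fin.elim0⟩, Fin.elim0, fun h => (hi h).elim⟩
  choose δ F hF using key
  obtain ⟨⟨s, d⟩, hd⟩ := pigeon hI δ
  obtain ⟨E, Φ, p1, p2, p3⟩ := h2 (K + 1) s d
  obtain ⟨S⟩ := Pb.psex E
  have key2 : ∀ i, ∃ q : Cm (E + 1), i ∈ {i | i ∈ I ∧ δ i = ⟨s, d⟩} → q ≠ 0 ∧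
      (∀ y, ∀ v ≠ 0, S'.pt v = j y → (y ∈ Y i ↔ ∀ a, ev (Φ a q) v = 0)) ∧
      ∀ y ∈ Y i, ∀ h, j y ∈ S'.H.U h →
        ∃ σ : Fin c → Fin s, Ind D (fun b y => ev (Φ (σ b) q) (S'.x h (j y))) y := fun i => by
    by_cases hi : i ∈ {i | i ∈ I ∧ δ i = ⟨s, d⟩}
    · have k1 := hF i hi.1
      have k2 := hi.2
      generalize F i = G at k1
      generalize δ i = δ' at G k1 k2
      subst k2
      obtain ⟨q, q0, hq⟩ := p3 G k1.1
      exact ⟨q, fun _ => ⟨q0, by simpa only [hq] using k1.2⟩⟩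
    · exact ⟨0, fun h => (hi h).elim⟩
  choose q hq using key2
  have hB : ∀ a, Bi fun q v => ev (Φ a q) v := fun a => ⟨p2 a, fun q v x y _ _ h => by
    beta_reduce at h ⊢
    rw [map_smul, ev_smul', ev_smul (p1 a q), h, mul_zero, mul_zero]⟩
  have mem : ∀ {w : (S.P.prod M).X} {q v}, q ≠ 0 → v ≠ 0 → S.pt q = S.P.p1 M w →
      S'.pt v = j (S.P.p2 M w) → (w ∈ Zs S S' (S.P.p1 M) (fun w => j (S.P.p2 M w))
        (fun a q v => ev (Φ a q) v) ↔ ∀ a, ev (Φ a q) v = 0) := fun {w q v} a1 a2 a3 a4 =>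
    ⟨fun h => h q a1 v a2 a3 a4, fun h q' b1 v' b2 b3 b4 a => by
      obtain ⟨x, rfl⟩ := (S.pt_eq_iff b1 a1).1 (b3.trans a3.symm)
      obtain ⟨y, rfl⟩ := (S'.pt_eq_iff b2 a2).1 (b4.trans a4.symm)
      exact (hB a).2 q v x y (left_ne_zero_of_smul b1) (left_ne_zero_of_smul b2) (h a)⟩
  refine ⟨E, S.P, _, fun i => S.pt (q i), _, S.prj, h3 (E + D) E K s (S.P.prod M) S S' _ _ _ hol_p1
    (hj.hol.comp hol_p2) hB, fun i hi => hi.1, hd, fun i hi y => ?_, fun i hi y hy => ?_⟩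
  · obtain ⟨v, v0, hv⟩ := S'.surj (j y)
    exact (mem (w := S.P.pair M (S.pt (q i)) y) (hq i hi).1 v0 rfl hv).trans ((hq i hi).2.1 y v v0 hv).symm
  · obtain ⟨h, hh⟩ := S.lb.cover (S.pt (q i))
    obtain ⟨h', hh'⟩ := S'.lb.cover (j y)
    obtain ⟨σ, hσ⟩ := (hq i hi).2.2 y hy h' hh'
    obtain ⟨x, x0, hx⟩ := S.x_pt' (hq i hi).1 hh
    refine ⟨fun b w => ev (Φ (σ b) (S.x h (S.P.p1 M w))) (S'.x h' (j (S.P.p2 M w))),
      ⟨fun b => ?_, ?_⟩, ?_⟩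
    · exact hol_bi (f := fun q v => ev (Φ (σ b) q) v) (p2 (σ b)) (hol_p1.at _)
        ((hj.hol.comp hol_p2).at _) hh hh'
    · have k : (fun b y => ev (Φ (σ b) (S.x h (S.pt (q i)))) (S'.x h' (j y))) =
          fun b y => x * ev (Φ (σ b) (q i)) (S'.x h' (j y)) := by
        funext b y
        rw [hx, map_smul, ev_smul']
      exact (k ▸ ind_smul hσ x0 :
        Ind D (fun b y => ev (Φ (σ b) (S.x h (S.pt (q i)))) (S'.x h' (j y))) y)
    · filter_upwards [cont_p1.continuousAt.eventually ((S.lb.isOpen h).mem_nhds hh),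
        (hj.hol.comp hol_p2).cont.continuousAt.eventually ((S'.lb.isOpen h').mem_nhds hh')]
        with w k1 k2 hw b
      exact (mem (S.xnz h _ k1) (S'.xnz h' _ k2) (S.pt_x' k1) (S'.pt_x' k2)).1 hw (σ b)

end Vale.Agent.P301Z.Al
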