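import Vale.Agent.P301Z.Al.Geo
import Vale.Agent.P281Z.Pb.Kode
import Vale.Agent.P281Z.Pb.Ps

/-!
# P301, block ALG: embeddings by several line bundles
-/

open scoped Manifold ContDiff Topology
open Set Filter
open Vale.Agent.P272.K (Cm Chart At)
open Vale.Agent.P277Z (Hol)
open Vale.Agent.P281Z
open Vale.Agent.P285.H281.FD (Bd IsLB IsSec)
open Vale.Agent.P277.HD (pull)

noncomputable section

namespace Vale.Agent.P301Z.Al

namespace EmbX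

theorem liso {N K : ℕ} {Y : Mf N} {L : Bd Y.X} (S : PS K) {φ : Y.X → S.P.X}
    {s : L.ι → Y.X → Cm (K + 1)} (hs : ∀ a, IsSec N L fun b y => s b y a)
    (h0 : ∀ b, ∀ y ∈ L.U b, s b y ≠ 0) (he : ∀ b, ∀ y ∈ L.U b, φ y = S.pt (s b y)) :
    LIso N (pull φ S.H) L := by
  have h1 : ∀ h b y, φ y ∈ S.H.U h → y ∈ L.U b → S.pt (s b y) ∈ S.H.U h := fun h b y k k' =>
    he b y k' ▸ k
  have h2 : ∀ h b y, φ y ∈ S.H.U h → y ∈ L.U b → S.x h (φ y) = (S.sc h (s b y))⁻¹ • s b y :=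
    fun h b y k k' => by
      rw [he b y k']
      exact (eq_inv_smul_iff₀ (S.sc_ne (h0 b y k') (h1 h b y k k'))).2
        (S.sc_spec (h0 b y k') (h1 h b y k k')).symm
  refine ⟨fun h b y => (S.sc h (s b y))⁻¹, fun h b y k k' => (S.sc_hol (fun a => sec_hol (hs a) k')
    (h0 b y k') (h1 h b y k k')).inv (S.sc_ne (h0 b y k') (h1 h b y k k')),
    fun h b y k k' => inv_ne_zero (S.sc_ne (h0 b y k') (h1 h b y k k')),
    fun h h' b b' y k1 k2 k3 k4 => smul_left_injective ℂ (h0 b' y k4) ?_⟩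
  have h3 : s b y = L.g b b' y • s b' y := funext fun a => (hs a).change b b' y k3 k4
  have h4 := S.x_chg k1 k2
  rw [h2 h b y k1 k3, h2 h' b' y k2 k4, h3, smul_smul, smul_smul, ← h3] at h4
  exact h4

theorem one {N : ℕ} (Y : Mf N) (L : Bd Y.X) (hL : IsLB N L) (hP : Pos N L) :
    ∃ q : ℕ × ℕ, 0 < q.1 ∧ ∃ φ : Y.X → (Pb.Ps.ps q.2).P.X, Emb N q.2 φ (range φ) ∧
      LIso N (pull φ (Pb.Ps.ps q.2).H) (L.pow q.1) := by
  obtain ⟨k, K, s, hk, h1, h2, h3⟩ := Pb.kode N Y L hL hP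
  obtain ⟨φ, h4, h5⟩ := h3 (Pb.Ps.ps K)
  exact ⟨(k, K), hk, φ, h4, liso _ h1 h2 h5⟩

end EmbX

theorem emb_of (hM : MPROD) : EMB := by
  classical
  intro N r ι Y H I hr hI h
  choose! q h1 h2 using fun i (hi : i ∈ I) a => EmbX.one (Y i) (H i a) (h i hi a).1 (h i hi a).2
  obtain ⟨q₀, hJ⟩ : ∃ q₀, ¬ {i | i ∈ I ∧ q i = q₀}.Countable := by
    by_contra! k
    exact hI ((countable_iUnion k).mono fun i hi => mem_iUnion.2 ⟨q i, And.intro hi rfl⟩)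
  obtain ⟨m, P, π, p1, p2, p3, p4⟩ := hM r (fun a => (q₀ a).2) (fun a => (Pb.Ps.ps (q₀ a).2).P)
    (fun a => PS.prj _) fun a => PS.conn _
  have key : ∀ i, ∃ g : (Y i).X → P.X, i ∈ I ∧ q i = q₀ → Emb N m g (range g) ∧
      ∀ a, LIso N (pull g (pull (π a) (Pb.Ps.ps (q₀ a).2).H)) ((H i a).pow (q₀ a).1) := by
    intro i
    by_cases hi : i ∈ I ∧ q i = q₀
    swap
    · exact ⟨fun _ => Classical.arbitrary _, fun k => absurd k hi⟩
    obtain ⟨hi, rfl⟩ := hi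
    choose φ e1 e2 using h2 i hi
    obtain ⟨g, g1, g2⟩ := p4 N (Y i) φ fun a => (e1 a).hol
    obtain rfl : φ = fun a y => π a (g y) := funext fun a => funext fun y => (g2 a y).symm
    exact ⟨g, fun _ => ⟨⟨g1, fun y y' e => (e1 ⟨0, hr⟩).inj (congrArg (π _) e),
      fun y => .of_comp ((p3 _).at _) (g1.at y) ((e1 ⟨0, hr⟩).imm y), rfl⟩, e2⟩⟩
  choose g hg using key
  obtain ⟨i₀, hi₀⟩ : {i | i ∈ I ∧ q i = q₀}.Nonempty :=
    nonempty_iff_ne_empty.2 fun e => hJ (e ▸ countable_empty)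
  refine ⟨_, fun a => (q₀ a).1, m, P, fun a => pull (π a) (Pb.Ps.ps (q₀ a).2).H, g,
    fun i hi => hi.1, hJ, p1, p2, fun a => ⟨hi₀.2 ▸ h1 i₀ hi₀.1 a, (p3 a).lb (PS.lb _), fun y => ?_⟩,
    hg⟩
  obtain ⟨s, s1, s2⟩ := PS.bpf _ (π a y)
  exact ⟨_, (p3 a).sec s1, s2⟩

end Vale.Agent.P301Z.Al
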