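import Vale.Agent.P301Z.Al.Sk
import Vale.Agent.P301Z.Ry.Grp

/-!
# P301, block ALG: the arithmetic group of a frame
-/

open scoped ComplexOrder Matrix
open Set
open Vale.Agent.P301Z.Lat Vale.Agent.P301Z.Li

noncomputable section

namespace Vale.Agent.P301Z.Al

namespace AriA

open Ry.Grp

variable {n r : ℕ} {B : BB n r} (F : Fr B)

/-- the scaling factors -/
def dl : Fin 3 → ℝ := ![F.D, 1, 1]

theorem dl_ne (i : Fin 3) : dl F i ≠ 0 := by
  fin_cases i <;> simp [dl, F.Dpos.ne']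

theorem dl_ne' (i : Fin 3) : (dl F i : ℂ) ≠ 0 := Complex.ofReal_ne_zero.2 (dl_ne F i)

/-- rescaled coordinates -/
def sc (v : Fin 3 → ℂ) : Fin 3 → ℂ := fun i => v i / dl F i

theorem fr_eq (v : Fin 3 → ℂ) : fr F v = Ry.un F (sc F v) := by
  simp [fr, Ry.un, sc, dl]

theorem sc_inj : Function.Injective (sc F) := fun _ _ h =>
  funext fun i => (div_left_inj' (dl_ne' F i)).1 (congrFun h i)

theorem sc_sg (τ : ℂ) : sc F (Ry.sg F.e τ) = Ry.sg (Ry.eps F) τ := by
  funext i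
  have := D0 F
  fin_cases i <;> simp [sc, dl, Ry.sg, Ry.eps]
  field_simp

theorem dd : Matrix.diagonal (fun i => (dl F i)⁻¹) * Matrix.diagonal (dl F) = 1 := by
  rw [Matrix.diagonal_mul_diagonal, ← Matrix.diagonal_one]
  exact congrArg _ (funext fun i => inv_mul_cancel₀ (dl_ne F i))

theorem dd' : Matrix.diagonal (dl F) * Matrix.diagonal (fun i => (dl F i)⁻¹) = 1 := by
  rw [Matrix.diagonal_mul_diagonal, ← Matrix.diagonal_one]
  exact congrArg _ (funext fun i => mul_inv_cancel₀ (dl_ne F i))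

/-- the representation in the rescaled basis -/
def rh : Ry.Gp F →* Matrix (Fin 3) (Fin 3) ℝ where
  toFun g := Matrix.diagonal (dl F) * Ry.rho F g * Matrix.diagonal fun i => (dl F i)⁻¹
  map_one' := by rw [map_one, Matrix.mul_one, dd']
  map_mul' g h := by
    rw [map_mul]
    simp only [Matrix.mul_assoc]
    rw [← Matrix.mul_assoc (Matrix.diagonal fun i => (dl F i)⁻¹), dd, Matrix.one_mul]

theorem rh_apply (g : Ry.Gp F) (i j : Fin 3) :
    rh F g i j = dl F i * Ry.rho F g i j * (dl F j)⁻¹ := by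
  show (Matrix.diagonal (dl F) * Ry.rho F g * Matrix.diagonal fun i => (dl F i)⁻¹) i j = _
  rw [Matrix.mul_diagonal, Matrix.diagonal_mul]

theorem sc_ap (g : Ry.Gp F) (v : Fin 3 → ℂ) :
    sc F (Ry.ap (rh F g) v) = Ry.ap (Ry.rho F g) (sc F v) := by
  funext i
  have h := dl_ne' F
  simp only [sc, Ry.ap, rh_apply]
  push_cast
  field_simp [h i, h 0, h 1, h 2]

theorem qm1 : Matrix.diagonal (dl F) * Ry.Qm F.e * Matrix.diagonal (dl F) =
    F.D • Ry.Qm (Ry.eps F) := by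
  ext i j
  have := F.Dpos.ne'
  rw [Matrix.mul_diagonal, Matrix.diagonal_mul]
  fin_cases i <;> fin_cases j <;> simp [dl, Ry.Qm, Ry.eps]
  field_simp

theorem arith : Ry.Arith F.e (rh F) where
  pos := F.epos
  inj g h e := (Ry.arith F).inj (by
    ext i j
    have h1 := congrFun (congrFun e i) j
    rw [rh_apply, rh_apply] at h1
    exact mul_left_cancel₀ (dl_ne F i) (mul_right_cancel₀ (inv_ne_zero (dl_ne F j)) h1))
  iso g := by
    have h1 := (Ry.arith F).iso g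
    have h2 : (rh F g)ᵀ * Ry.Qm F.e * rh F g = Matrix.diagonal (fun i => (dl F i)⁻¹) *
        ((Ry.rho F g)ᵀ * (Matrix.diagonal (dl F) * Ry.Qm F.e * Matrix.diagonal (dl F)) *
          Ry.rho F g) * Matrix.diagonal fun i => (dl F i)⁻¹ := by
      show (Matrix.diagonal (dl F) * Ry.rho F g * Matrix.diagonal fun i => (dl F i)⁻¹)ᵀ * _ *
        (Matrix.diagonal (dl F) * Ry.rho F g * Matrix.diagonal fun i => (dl F i)⁻¹) = _
      simp only [Matrix.transpose_mul, Matrix.diagonal_transpose, Matrix.mul_assoc]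
    rw [h2, qm1, Matrix.mul_smul, Matrix.smul_mul, h1, ← qm1]
    simp only [Matrix.mul_assoc]
    rw [dd', Matrix.mul_one, ← Matrix.mul_assoc, dd, Matrix.one_mul]
  den := by
    obtain ⟨N, hN, h⟩ := (Ry.arith F).den
    obtain ⟨d, hd⟩ := qR_int B.q F.l F.m
    rw [F.lm] at hd
    have d0 : 0 < d := by have := F.Dpos; rw [hd] at this; exact_mod_cast this
    have h1 : ((d.toNat : ℕ) : ℝ) = F.D := by
      rw [hd, ← Int.cast_natCast, Int.toNat_of_nonneg d0.le]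
    have h2 : ∀ i, ∃ a : ℤ, dl F i = a := fun i => by
      fin_cases i
      exacts [⟨d, hd⟩, ⟨1, by simp [dl]⟩, ⟨1, by simp [dl]⟩]
    have h3 : ∀ j, ∃ a : ℤ, F.D * (dl F j)⁻¹ = a := fun j => by
      fin_cases j
      exacts [⟨1, by simp [dl, F.Dpos.ne']⟩, ⟨d, by simp [dl, hd]⟩, ⟨d, by simp [dl, hd]⟩]
    refine ⟨N * d.toNat, Nat.mul_pos hN (by omega), fun g i j => ?_⟩
    obtain ⟨k, hk⟩ := h g i j
    obtain ⟨a, ha⟩ := h2 i
    obtain ⟨b, hb⟩ := h3 j
    refine ⟨a * k * b, ?_⟩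
    push_cast
    rw [rh_apply, h1, ← hk, ← ha, ← hb]
    ring

variable {F}

theorem pp_rc {x : Fin r → ℝ} (h : Perp F x) : Ry.Pp F (rc x) :=
  ⟨by rw [qC_rc, h.1]; simp, by rw [qC_rc, h.2.1]; simp, by rw [qC_rc, h.2.2]; simp⟩

theorem perp_parts {k : Fin r → ℂ} (h : Ry.Pp F k) : Perp F (reV k) ∧ Perp F (imV k) := by
  have h1 := perp_of B.q (p := k) (x := zr F.l) (by rw [← qC_eq]; exact h.1)
  have h2 := perp_of B.q (p := k) (x := zr F.m) (by rw [← qC_eq]; exact h.2.1)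
  have h3 := perp_of B.q (p := k) (x := zr F.v) (by rw [← qC_eq]; exact h.2.2)
  simp only [← qR_eq] at h1 h2 h3
  exact ⟨⟨h1.1, h2.1, h3.1⟩, ⟨h1.2, h2.2, h3.2⟩⟩

theorem isoP_iff (A : ZM r) :
    IsoP F A ↔ A ∈ range ((Units.coeHom (ZM r)).comp (Ry.Gp F).subtype) := by
  constructor
  · rintro ⟨⟨u, rfl⟩, h1, h2⟩
    refine ⟨⟨u, fun x y => qC_ac h1 x y, fun k hk => ?_⟩, rfl⟩
    have h3 : ∀ x, Perp F x → Ry.ac (u : ZM r) (rc x) = rc x := h2
    conv_lhs => rw [re_add_im k, ac_add, ac_smul, h3 _ (perp_parts hk).1, h3 _ (perp_parts hk).2]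
    exact (re_add_im k).symm
  · rintro ⟨g, rfl⟩
    exact ⟨g.1.isUnit, iso_of_qC g.2.1, fun x hx => g.2.2 _ (pp_rc hx)⟩

end AriA

open AriA Ry.Grp

theorem ari : ARI where
  sg F τ := by rw [fr_eq, sc_sg, un_sg]
  inj F v w h := sc_inj F (by
    rw [fr_eq, fr_eq] at h
    rw [← co_un F (sc F v), h, co_un])
  smul F c v := by
    simp only [fr, Pi.smul_apply, smul_eq_mul, smul_add, mul_smul, mul_div_assoc]
  ql F τ := by
    rw [← un_sg]
    refine ⟨by rw [un_l]; simp [Ry.sg], by rw [un_v]; simp [Ry.sg, mul_comm], ?_,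
      fun x hx => qC_un_pp (pp_rc hx) _⟩
    have := F.Dpos.ne'
    rw [← un_star, qC_un_un]
    apply Complex.ext
    · rw [Complex.re_ofReal_mul, Ry.Lin.qf_sg_star, Complex.ofReal_re, Ry.eps]
      field_simp
    · rw [Complex.im_ofReal_mul, Complex.ofReal_im]
      simp [Ry.qf, Ry.sg, sq]
      right
      ring
  per {n r B} F π h1 h2 h3 := by
    have hT : Ry.InT F π := inT_iff.2 fun k hk => by
      rw [re_add_im k, qC_eq, map_add, map_smul, ← qC_eq, ← qC_eq, h3 _ (perp_parts hk).1,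
        h3 _ (perp_parts hk).2]
      simp
    have hD := (dom_iff hT).2 ⟨h1, (Complex.lt_def.1 h2).1⟩
    obtain ⟨a1, a2, a3⟩ := (Ry.lin _ (eps_pos F)).1 _ hD
    refine ⟨_, _, a1, a2, ?_⟩
    rw [← un_sg, ← un_smul, ← a3]
    exact hT.symm
  grp {n r B} F := ⟨Ry.Gp F, inferInstance, (Units.coeHom (ZM r)).comp (Ry.Gp F).subtype, rh F,
    arith F, fun _ _ h => Subtype.ext (Units.ext h), isoP_iff, fun g v => by
      rw [fr_eq, fr_eq, sc_ap, un_ap]
      rfl⟩

end Vale.Agent.P301Z.Al
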