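import Vale.Agent.P301Z.Lat.Defs

/-!
# P301, block ALG: the antiholomorphic derivative of a pull back is a Lie derivative
-/

open scoped ContDiff Topology Matrix
open Filter Complex
open Vale.Agent.P272.K
open Vale.Agent.P301Z.Lat

noncomputable section

namespace Vale.Agent.P301Z.Al.Ha

variable {p d D : ℕ}

theorem tri {E : Type} [NormedAddCommGroup E] [NormedSpace ℝ E] {a b : E → Cm D} {A : E → Mx D}
    {q : E} {a' b' : E →L[ℝ] Cm D} {A' : Fin D → Fin D → E →L[ℝ] ℂ} (ha : HasFDerivAt a a' q)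
    (hb : HasFDerivAt b b' q) (hA : ∀ i j, HasFDerivAt (fun r => A r i j) (A' i j) q) :
    ∃ L : E →L[ℝ] ℂ, HasFDerivAt (fun r => a r ⬝ᵥ A r *ᵥ b r) L q ∧ ∀ m, L m =
      a' m ⬝ᵥ A q *ᵥ b q + a q ⬝ᵥ (Matrix.of fun i j => A' i j m) *ᵥ b q + a q ⬝ᵥ A q *ᵥ b' m := by
  have k := HasFDerivAt.fun_sum (u := Finset.univ) fun i _ => (hasFDerivAt_pi'.1 ha i).fun_mul
    (HasFDerivAt.fun_sum (u := Finset.univ) fun j _ => (hA i j).fun_mul (hasFDerivAt_pi'.1 hb j))
  refine ⟨_, k, fun m => ?_⟩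
  simp only [dotProduct, Matrix.mulVec, Matrix.of_apply, sum_apply,
    add_apply, smul_apply, ContinuousLinearMap.comp_apply,
    ContinuousLinearMap.proj_apply, smul_eq_mul, Finset.mul_sum, Finset.sum_mul,
    ← Finset.sum_add_distrib]
  exact Finset.sum_congr rfl fun i _ => Finset.sum_congr rfl fun j _ => by ring

/-- the antiholomorphic derivative in the parameter -/
def xi (j : Fin p) (L : Cm p × Cm d →L[ℝ] Cm D) : Cm D :=
  (2 : ℂ)⁻¹ • (L (Pi.single j 1, 0) + I • L (Pi.single j I, 0))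

/-- the pull back of the form `S` to the fibres -/
def pb (F : Cm p × Cm d → Cm D) (S : Cm D → Mx D) (q : Cm p × Cm d) (v v' : Cm d) : ℂ :=
  fderiv ℝ F q (0, v) ⬝ᵥ S (F q) *ᵥ fderiv ℝ F q (0, v')

variable {F : Cm p × Cm d → Cm D} {S : Cm D → Mx D} {w : Cm p} {z : Cm d}

theorem fd_sm {q : Cm p × Cm d} (hF : ContDiffAt ℝ ∞ F q) : ContDiffAt ℝ ∞ (fderiv ℝ F) q :=
  hF.fderiv_right (m := ∞) le_rfl

theorem xi_sm {q : Cm p × Cm d} (hF : ContDiffAt ℝ ∞ F q) (j : Fin p) :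
    ContDiffAt ℝ ∞ (fun r => xi j (fderiv ℝ F r)) q :=
  (((fd_sm hF).clm_apply contDiffAt_const).add
    (((fd_sm hF).clm_apply contDiffAt_const).const_smul I)).const_smul _

theorem pb_sm {q : Cm p × Cm d} (hF : ContDiffAt ℝ ∞ F q)
    (hS : ∀ a b, AnalyticAt ℂ (fun y => S y a b) (F q)) (v v' : Cm d) :
    ContDiffAt ℝ ∞ (fun r => pb F S r v v') q := by
  simp only [pb, dotProduct, Matrix.mulVec]
  exact ContDiffAt.sum fun i _ => (contDiffAt_pi.1 ((fd_sm hF).clm_apply contDiffAt_const) i).mul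
    (ContDiffAt.sum fun j _ => (((hS i j).contDiffAt.restrict_scalars ℝ).comp q hF).mul
      (contDiffAt_pi.1 ((fd_sm hF).clm_apply contDiffAt_const) j))

theorem pb_fd {q : Cm p × Cm d} (hF : ContDiffAt ℝ ∞ F q)
    (hS : ∀ a b, AnalyticAt ℂ (fun y => S y a b) (F q)) (v v' : Cm d) :
    ∃ G : Cm p × Cm d →L[ℝ] ℂ, HasFDerivAt (fun r => pb F S r v v') G q ∧ ∀ m, G m =
      fderiv ℝ (fderiv ℝ F) q m (0, v) ⬝ᵥ S (F q) *ᵥ fderiv ℝ F q (0, v') +
      fderiv ℝ F q (0, v) ⬝ᵥ (Matrix.of fun a b => fderiv ℂ (fun y => S y a b) (F q)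
        (fderiv ℝ F q m)) *ᵥ fderiv ℝ F q (0, v') +
      fderiv ℝ F q (0, v) ⬝ᵥ S (F q) *ᵥ fderiv ℝ (fderiv ℝ F) q m (0, v') := by
  have h1 := (hF.differentiableAt (by simp)).hasFDerivAt
  have h2 := ((fd_sm hF).differentiableAt (by simp)).hasFDerivAt
  obtain ⟨G, g1, g2⟩ := tri (A := fun r => S (F r)) (h2.clm_apply (hasFDerivAt_const (0, v) _))
    (h2.clm_apply (hasFDerivAt_const (0, v') _)) fun a b =>
      ((hS a b).differentiableAt.hasFDerivAt.restrictScalars ℝ).comp _ h1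
  refine ⟨G, g1, fun m => (g2 m).trans ?_⟩
  simp only [ContinuousLinearMap.comp_apply, add_apply, ContinuousLinearMap.flip_apply, zero_apply,
    map_zero, zero_add, ContinuousLinearMap.coe_restrictScalars']

theorem rel (hF : ContDiffAt ℝ ∞ F (w, z)) (j : Fin p) {X : Cm d → Cm d}
    (hX : DifferentiableAt ℝ X z)
    (h : ∀ᶠ y in 𝓝 z, fderiv ℝ F (w, y) (0, X y) = xi j (fderiv ℝ F (w, y))) (u : Cm d) :
    fderiv ℝ F (w, z) (0, fderiv ℝ X z u) =
      (2 : ℂ)⁻¹ • (fderiv ℝ (fderiv ℝ F) (w, z) (Pi.single j 1, 0) (0, u) +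
        I • fderiv ℝ (fderiv ℝ F) (w, z) (Pi.single j I, 0) (0, u)) -
      fderiv ℝ (fderiv ℝ F) (w, z) (0, X z) (0, u) := by
  have h2 := ((fd_sm hF).differentiableAt (by simp)).hasFDerivAt
  have sy := (hF.of_le (WithTop.coe_le_coe.2 le_top : (2 : WithTop ℕ∞) ≤ ∞)).isSymmSndFDerivAt
    (by simp)
  have h3 := HasFDerivAt.comp (f := fun y => (w, y)) z h2 (hasFDerivAt_prodMk_right w z)
  have a1 := h3.clm_apply ((hasFDerivAt_const (0 : Cm p) z).prodMk hX.hasFDerivAt)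
  have a2 := ((h3.clm_apply (hasFDerivAt_const (Pi.single j 1, 0) z)).fun_add
    ((h3.clm_apply (hasFDerivAt_const (Pi.single j I, 0) z)).fun_const_smul I)).fun_const_smul
      (2 : ℂ)⁻¹
  have k := congrArg (fun A : Cm d →L[ℝ] Cm D => A u) ((a2.congr_of_eventuallyEq h).unique a1)
  rw [sy (Pi.single j 1, 0), sy (Pi.single j I, 0), sy (0, X z), eq_sub_iff_add_eq]
  simpa using k.symm

theorem lie (hF : ContDiffAt ℝ ∞ F (w, z)) (hS : ∀ a b, AnalyticAt ℂ (fun y => S y a b) (F (w, z)))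
    (j : Fin p) {X : Cm d → Cm d} (hX : DifferentiableAt ℝ X z)
    (h : ∀ᶠ y in 𝓝 z, fderiv ℝ F (w, y) (0, X y) = xi j (fderiv ℝ F (w, y))) (v v' : Cm d) :
    dzb j (fun t => pb F S (t, z) v v') w = fderiv ℝ (fun y => pb F S (w, y) v v') z (X z) +
      pb F S (w, z) (fderiv ℝ X z v) v' + pb F S (w, z) v (fderiv ℝ X z v') := by
  have h0 := h.self_of_nhds
  obtain ⟨G, g1, g2⟩ := pb_fd hF hS v v'
  have e1 : fderiv ℝ (fun t => pb F S (t, z) v v') w = _ :=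
    (HasFDerivAt.comp (f := fun t => (t, z)) w g1 (hasFDerivAt_prodMk_left w z)).fderiv
  have e2 : fderiv ℝ (fun y => pb F S (w, y) v v') z = _ :=
    (HasFDerivAt.comp (f := fun y => (w, y)) z g1 (hasFDerivAt_prodMk_right w z)).fderiv
  have k1 := rel hF j hX h
  rw [dzb, e1, e2]
  simp only [ContinuousLinearMap.comp_apply, ContinuousLinearMap.inl_apply,
    ContinuousLinearMap.inr_apply, g2, pb, k1, h0]
  generalize fderiv ℝ (fderiv ℝ F) (w, z) = H
  generalize fderiv ℝ F (w, z) = L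
  have k2 : (Matrix.of fun a b => fderiv ℂ (fun y => S y a b) (F (w, z)) (xi j L)) =
      (2 : ℂ)⁻¹ • ((Matrix.of fun a b => fderiv ℂ (fun y => S y a b) (F (w, z))
        (L (Pi.single j 1, 0))) + I • Matrix.of fun a b => fderiv ℂ (fun y => S y a b) (F (w, z))
          (L (Pi.single j I, 0))) := by
    ext a b
    simp [xi, mul_add]
  simp only [k2, Matrix.smul_mulVec, Matrix.add_mulVec, Matrix.mulVec_smul, Matrix.mulVec_add,
    Matrix.mulVec_sub, dotProduct_smul, dotProduct_add, dotProduct_sub, smul_dotProduct,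
    add_dotProduct, sub_dotProduct, smul_eq_mul]
  ring

end Vale.Agent.P301Z.Al.Ha
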