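import Vale.Agent.P301Z.Sn.Defs

/-! P301, block ALG: the determinant of a relative two-form. -/

open scoped Manifold ContDiff Topology
open Set Filter Matrix
open Vale.Agent.P272.K
open Vale.Agent.P277Z (Hol at_chart hol_const)
open Vale.Agent.P281Z
open Vale.Agent.P299.D (jacF)

noncomputable section

namespace Vale.Agent.P301Z.Al.Rf

theorem jacF_dfM {d n : ℕ} {Y X : Type} [TopologicalSpace Y] [ChartedSpace (Cm d) Y]
    [IsManifold 𝓘(ℂ, Cm d) ω Y] [TopologicalSpace X] [ChartedSpace (Cm n) X]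
    [IsManifold 𝓘(ℂ, Cm n) ω X] {i : Y → X} {y : Y} {c : Chart d Y} {e : Chart n X}
    (hi : HolA d n i y) (hc : At c y) (he : At e (i y)) : jacF i c e y = dfM i c e y := by
  ext a b
  rw [jacF, of_apply, dz_of_holo (analyticAt_pi_iff.1 (hi.an hc he) a).differentiableAt, dfM_apply,
    df_apply hi hc he]
  rfl

/-- the tangent space of the fibre as a graph -/
def gr {N : ℕ} (l : Fin (N + 1)) (A : Fin (N + 1) → ℂ) : Matrix (Fin (N + 1)) (Fin N) ℂ :=
  of (Fin.insertNth (α := fun _ => Fin N → ℂ) l (fun a => -A (l.succAbove a) / A l)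
    fun a => Pi.single a 1)

theorem gr_mul {N : ℕ} (l : Fin (N + 1)) (A : Fin (N + 1) → ℂ) (hl : A l ≠ 0)
    (J : Matrix (Fin (N + 1)) (Fin N) ℂ) (h : ∀ b, ∑ p, A p * J p b = 0) :
    J = gr l A * J.submatrix l.succAbove id := by
  ext p b
  rw [mul_apply]
  refine Fin.succAboveCases l ?_ (fun a => ?_) p
  · have h1 := h b
    rw [Fin.sum_univ_succAbove _ l] at h1
    simp only [gr, of_apply, Fin.insertNth_apply_same, submatrix_apply, id, div_mul_eq_mul_div,
      ← Finset.sum_div, neg_mul, Finset.sum_neg_distrib]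
    rw [eq_div_iff hl]
    linear_combination h1
  · simp [gr, Pi.single_apply]

theorem det_rel {N : ℕ} {V : Mf (N + 1)} {C : Mf 1} {f : V.X → C.X} (hf : HolM (N + 1) 1 f)
    {x : V.X} (hs : Sbm (N + 1) 1 f x) {e : Chart (N + 1) V.X} (he : At e x)
    {S : Cm (N + 1) → Matrix (Fin (N + 1)) (Fin (N + 1)) ℂ}
    (hS : ∀ a b, AnalyticAt ℂ (fun z => S z a b) (e x)) :
    ∃ (h : Fin N → V.X → ℂ) (γ : V.X → ℂ), (∀ a, Hol (N + 1) (h a) x) ∧ Hol (N + 1) γ x ∧
      ∀ᶠ x' in 𝓝 x, ∀ (Y : Mf N) (i : Y.X → V.X) (t : C.X), Emb N (N + 1) i (f ⁻¹' {t}) →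
        ∀ y, i y = x' → ∀ c, At c y → ((jacF i c e y)ᵀ * S (e x') * jacF i c e y).det =
          γ x' * (Sn.jc (fun a y => h a (i y)) c y).det ^ 2 := by
  have he' := at_chart (n := 1) (f x)
  generalize chartAt (Cm 1) (f x) = χ at he'
  obtain ⟨l, hl⟩ : ∃ l, dfM f e χ x 0 l ≠ 0 := by
    by_contra hc
    push Not at hc
    obtain ⟨v, hv⟩ := hs e χ he he' 1
    have h1 := congrFun hv 0
    rw [← dfM_mulVec] at h1
    simp [mulVec, dotProduct, hc] at h1
  have hA : ∀ p, Hol (N + 1) (fun y => dfM f e χ y 0 p) x := fun p => hol_dfM (hf.at x) he he' 0 p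
  have hg : ∀ p a, Hol (N + 1) (fun y => gr l (dfM f e χ y 0) p a) x := fun p a => by
    refine Fin.succAboveCases l ?_ (fun a' => ?_) p
    · simp only [gr, of_apply, Fin.insertNth_apply_same]
      exact (hA _).neg.div (hA l) hl
    · simp only [gr, of_apply, Fin.insertNth_apply_succAbove]
      exact hol_const _ _
  have hS' : ∀ a b, Hol (N + 1) (fun y => S (e y) a b) x := fun a b =>
    Hol.of_chart he ((hS a b).congr (by
      filter_upwards [he.nhds_target] with z hz
      rw [e.right_inv hz]))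
  refine ⟨fun a y => e y (l.succAbove a),
    fun y => ((gr l (dfM f e χ y 0))ᵀ * S (e y) * gr l (dfM f e χ y 0)).det,
    fun a => hol_chart he _, hol_det fun a b => ?_, ?_⟩
  · simp only [mul_apply, transpose_apply]
    exact Hol.sum _ fun p _ => (Hol.sum _ fun q _ => (hg q a).mul (hS' q p)).mul (hg p b)
  filter_upwards [(hA l).ne_near hl, at_near he, hf.cont.continuousAt.eventually (at_near he')]
    with x' k1 k2 k3
  rintro Y i t hi y rfl c hc
  have h0 : dfM f e χ (i y) * dfM i c e y = 0 := by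
    rw [← dfM_comp (hf.at _) (hi.hol.at y) hc k2 k3, show (fun y => f (i y)) = fun _ => t from
      funext hi.fib, dfM_const]
  have h1 := gr_mul l (dfM f e χ (i y) 0) k1 (jacF i c e y) fun b => by
    rw [jacF_dfM (hi.hol.at y) hc k2]
    exact congrFun (congrFun h0 0) b
  have h2 : Sn.jc (fun a y => e (i y) (l.succAbove a)) c y =
      (jacF i c e y).submatrix l.succAbove id := rfl
  rw [h2]
  generalize (jacF i c e y).submatrix l.succAbove id = J at h1
  rw [h1, transpose_mul, show Jᵀ * (gr l (dfM f e χ (i y) 0))ᵀ * S (e (i y)) *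
    (gr l (dfM f e χ (i y) 0) * J) = Jᵀ * ((gr l (dfM f e χ (i y) 0))ᵀ * S (e (i y)) *
    gr l (dfM f e χ (i y) 0)) * J by simp only [Matrix.mul_assoc], det_mul, det_mul, det_transpose]
  ring

end Vale.Agent.P301Z.Al.Rf
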