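import Vale.Agent.P301Z.Al.Sk
import Vale.Agent.P301Z.Al.Hola0
import Vale.Agent.P301Z.Al.Rf1
import Vale.Agent.P301Z.Hl.Lv
import Vale.Agent.P301Z.Lat.Pk

/-!
# P301, block ALG: the row HOLA
-/

open scoped Manifold ContDiff Topology Matrix
open Set Filter Complex
open Vale.Agent.P272.K Vale.Agent.P299.IX Vale.Agent.P299.IX.Fock
open Vale.Agent.P277Z (trans_an)
open Vale.Agent.P281Z
open Vale.Agent.P281Z.Hg
open Vale.Agent.P299.D (jacF)
open Vale.Agent.P301.H599 (IsHolTwoForm)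
open Vale.Agent.P301Z.Lat
open Vale.Agent.P301Z.Rot (bv trn)

noncomputable section

namespace Vale.Agent.P301Z.Al

namespace Ha

variable {D p d : ℕ} {V : Mf D} {Z : Mf p} {M : Mf d} {f : V.X → Z.X} {W : Set Z.X}
  {Ψ : V.X → M.X} {Θ : Z.X → M.X → V.X} {χ : Chart p Z.X} {e e' : Chart d M.X}
  {E E' : Chart D V.X} {t : Z.X} {x : M.X}

theorem cmp {A B C : Type} [NormedAddCommGroup A] [NormedSpace ℝ A] [NormedAddCommGroup B]
    [NormedSpace ℝ B] [NormedAddCommGroup C] [NormedSpace ℝ C] {g : B → C} {g' : B →L[ℝ] C} {y : B}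
    {f : A → B} {f' : A →L[ℝ] B} {x : A} (hg : HasFDerivAt g g' y) (hf : HasFDerivAt f f' x)
    (h : f x = y) : HasFDerivAt (g ∘ f) (g'.comp f') x := by
  subst h
  exact hg.comp x hf

/-- the trivialisation in coordinates -/
def FF (Θ : Z.X → M.X → V.X) (χ : Chart p Z.X) (e : Chart d M.X) (E : Chart D V.X)
    (q : Cm p × Cm d) : Cm D := E (Θ (χ.symm q.1) (e.symm q.2))

/-- the projection in coordinates -/
def PP (Ψ : V.X → M.X) (E : Chart D V.X) (e : Chart d M.X) (z : Cm D) : Cm d := e (Ψ (E.symm z))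

/-- a point with charts -/
structure Pc (f : V.X → Z.X) (W : Set Z.X) (Ψ : V.X → M.X) (Θ : Z.X → M.X → V.X) (χ : Chart p Z.X)
    (e : Chart d M.X) (E : Chart D V.X) (t : Z.X) (x : M.X) : Prop where
  hf : HolM D p f
  hW : IsOpen W
  tv : Tv f W M Ψ Θ
  ht : t ∈ W
  hχ : At χ t
  he : At e x
  hE : At E (Θ t x)

namespace Pc

variable (h : Pc f W Ψ Θ χ e E t x)
include h

theorem val : FF Θ χ e E (χ t, e x) = E (Θ t x) := by
  simp only [FF, χ.left_inv h.hχ.2, e.left_inv h.he.2]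

theorem sm : ContDiffAt ℝ ∞ (FF Θ χ e E) (χ t, e x) := h.tv.Θs t h.ht x χ e E h.hχ h.he h.hE

theorem fd : HasFDerivAt (FF Θ χ e E) (fderiv ℝ (FF Θ χ e E) (χ t, e x)) (χ t, e x) :=
  (h.sm.differentiableAt (by simp)).hasFDerivAt

theorem psm : ContDiffAt ℝ ∞ (PP Ψ E e) (E (Θ t x)) :=
  h.tv.Ψs _ ((h.tv.h1 t h.ht x).1.symm ▸ h.ht) E e h.hE ((h.tv.h1 t h.ht x).2.symm ▸ h.he)

theorem ev {P : Z.X × M.X → Prop} (k : ∀ᶠ r in 𝓝 (t, x), P r) :
    ∀ᶠ q in 𝓝 (χ t, e x), ∃ t' x', q = (χ t', e x') ∧ Pc f W Ψ Θ χ e E t' x' ∧ P (t', x') := by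
  have a : Tendsto (fun q : Cm p × Cm d => (χ.symm q.1, e.symm q.2)) (𝓝 (χ t, e x)) (𝓝 (t, x)) :=
    ((χ.tendsto_symm h.hχ.2).comp (continuous_fst.tendsto _)).prodMk_nhds
      ((e.tendsto_symm h.he.2).comp (continuous_snd.tendsto _))
  filter_upwards [a.eventually k, a.eventually ((h.tv.Θc t h.ht x).eventually (at_near h.hE)),
    a.eventually (continuousAt_fst.eventually (h.hW.eventually_mem h.ht)),
    continuousAt_fst.eventually (χ.open_target.eventually_mem (χ.map_source h.hχ.2)),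
    continuousAt_snd.eventually (e.open_target.eventually_mem (e.map_source h.he.2))]
    with q k1 k2 k3 k4 k5
  exact ⟨_, _, Prod.ext (χ.right_inv k4).symm (e.right_inv k5).symm, ⟨h.hf, h.hW, h.tv, k3,
    ⟨h.hχ.1, χ.map_target k4⟩, ⟨h.he.1, e.map_target k5⟩, k2⟩, k1⟩

theorem ev0 : ∀ᶠ q in 𝓝 (χ t, e x), ∃ t' x', q = (χ t', e x') ∧ Pc f W Ψ Θ χ e E t' x' :=
  (h.ev (P := fun _ => True) (.of_forall fun _ => trivial)).mono
    fun _ ⟨a, b, k1, k2, _⟩ => ⟨a, b, k1, k2⟩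

theorem ev2 : ∀ᶠ z in 𝓝 (e x), ∃ x', z = e x' ∧ Pc f W Ψ Θ χ e E t x' := by
  filter_upwards [(Continuous.prodMk_right (χ t)).continuousAt.eventually h.ev0]
    with z ⟨t', x', k1, k2⟩
  obtain rfl : t = t' := χ.injOn h.hχ.2 k2.hχ.2 (congrArg Prod.fst k1)
  exact ⟨x', congrArg Prod.snd k1, k2⟩

theorem snd (m : Cm p × Cm d) :
    fderiv ℝ (PP Ψ E e) (E (Θ t x)) (fderiv ℝ (FF Θ χ e E) (χ t, e x) m) = m.2 := by
  have a := cmp (h.psm.differentiableAt (by simp)).hasFDerivAt h.fd h.val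
  refine congrArg (fun A : Cm p × Cm d →L[ℝ] Cm d => A m) (a.unique
    (hasFDerivAt_snd.congr_of_eventuallyEq (h.ev0.mono ?_)))
  rintro _ ⟨t', x', rfl, k⟩
  simp only [Function.comp, k.val, PP, E.left_inv k.hE.2, (k.tv.h1 t' k.ht x').2]

theorem vert (j : Fin p) : fderiv ℝ (FF Θ χ e E) (χ t, e x) (0, fderiv ℝ (PP Ψ E e) (E (Θ t x))
    (xi j (fderiv ℝ (FF Θ χ e E) (χ t, e x)))) = xi j (fderiv ℝ (FF Θ χ e E) (χ t, e x)) := by
  obtain ⟨a1, a2⟩ := h.tv.h1 t h.ht x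
  have b := ((h.hf.at _).an h.hE (a1.symm ▸ h.hχ)).differentiableAt.hasFDerivAt
  generalize fderiv ℂ (fun z => χ (f (E.symm z))) (E (Θ t x)) = B at b
  have b' := b.restrictScalars ℝ
  have k1 : ∀ m, B (fderiv ℝ (FF Θ χ e E) (χ t, e x) m) = m.1 := fun m => by
    refine congrArg (fun A : Cm p × Cm d →L[ℝ] Cm p => A m) ((cmp b' h.fd
      h.val).unique (hasFDerivAt_fst.congr_of_eventuallyEq (h.ev0.mono ?_)))
    rintro _ ⟨t', x', rfl, k⟩
    simp only [Function.comp, k.val, E.left_inv k.hE.2, (k.tv.h1 t' k.ht x').1]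
  have k2 : B (xi j (fderiv ℝ (FF Θ χ e E) (χ t, e x))) = 0 := by
    simp only [xi, map_smul, map_add, k1, Rot.single_I, I_mul_I]
    rw [Pi.single_neg, add_neg_cancel, smul_zero]
  have c := b'.prodMk (h.psm.differentiableAt (by simp)).hasFDerivAt
  have c1 : (χ (f (E.symm (E (Θ t x)))), PP Ψ E e (E (Θ t x))) = (χ t, e x) := by
    simp only [PP, E.left_inv h.hE.2, a1, a2]
  have hw : f (Θ t x) ∈ W := a1.symm ▸ h.ht
  have k3 := (cmp h.fd c c1).unique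
    ((hasFDerivAt_id _).congr_of_eventuallyEq (by
      filter_upwards [E.eventually_right_inverse' h.hE.2,
        at_ev h.hE (h.hf.cont.continuousAt.eventually (h.hW.eventually_mem hw)),
        at_map h.hf.cont.continuousAt h.hE (a1.symm ▸ h.hχ),
        at_map (h.tv.Ψc _ hw) h.hE (a2.symm ▸ h.he)] with z z1 z2 z3 z4
      simp only [Function.comp, FF, PP, χ.left_inv z3.2, e.left_inv z4.2, h.tv.h2 _ z2, z1, id]))
  have k4 := congrArg (fun A : Cm D →L[ℝ] Cm D => A (xi j (fderiv ℝ (FF Θ χ e E) (χ t, e x)))) k3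
  simpa [k2] using k4

theorem chE (h' : At E' (Θ t x)) : ∃ A : Cm D →L[ℂ] Cm D, ∀ m,
    fderiv ℝ (FF Θ χ e E') (χ t, e x) m = A (fderiv ℝ (FF Θ χ e E) (χ t, e x) m) := by
  have b := ((trans_an h' h.hE).differentiableAt.hasFDerivAt).restrictScalars ℝ
  refine ⟨_, fun m => congrArg (fun A : Cm p × Cm d →L[ℝ] Cm D => A m)
    ((cmp b h.fd h.val).congr_of_eventuallyEq (h.ev0.mono ?_)).fderiv⟩
  rintro _ ⟨t', x', rfl, k⟩
  simp only [Function.comp, FF, χ.left_inv k.hχ.2, e.left_inv k.he.2, E.left_inv k.hE.2]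

theorem che (h' : At e' x) (m : Cm p × Cm d) : fderiv ℝ (FF Θ χ e E) (χ t, e x) m =
    fderiv ℝ (FF Θ χ e' E) (χ t, e' x) (m.1, fderiv ℝ (trn e e') (e x) m.2) := by
  have k : Pc f W Ψ Θ χ e' E t x := { h with he := h' }
  have b := hasFDerivAt_fst.prodMk (HasFDerivAt.comp (f := Prod.snd) (χ t, e x)
    ((Rot.at_cd h.he h').differentiableAt (by simp)).hasFDerivAt hasFDerivAt_snd)
  have c : ((χ t, e x).1, (trn e e' ∘ Prod.snd) (χ t, e x)) = (χ t, e' x) :=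
    Prod.ext rfl (Rot.trn_at e' h.he.2)
  refine congrArg (fun A : Cm p × Cm d →L[ℝ] Cm D => A m)
    ((cmp k.fd b c).congr_of_eventuallyEq
      ((h.ev (continuousAt_snd.eventually (at_near h'))).mono ?_)).fderiv
  rintro _ ⟨t', x', rfl, k, k'⟩
  simp only [Function.comp, FF, trn, e.left_inv k.he.2, e'.left_inv k'.2]

end Pc

/-- the vector field -/
def XX (Ψ : V.X → M.X) (Θ : Z.X → M.X → V.X) (χ : Chart p Z.X) (t : Z.X) (j : Fin p)
    (e : Chart d M.X) (z : Cm d) : Cm d :=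
  fderiv ℝ (PP Ψ (chartAt (Cm D) (Θ t (e.symm z))) e)
    (chartAt (Cm D) (Θ t (e.symm z)) (Θ t (e.symm z)))
    (xi j (fderiv ℝ (FF Θ χ e (chartAt (Cm D) (Θ t (e.symm z)))) (χ t, z)))

namespace Pc

variable (h : Pc f W Ψ Θ χ e E t x) (j : Fin p)
include h

theorem spec : fderiv ℝ (FF Θ χ e E) (χ t, e x) (0, XX Ψ Θ χ t j e (e x)) =
    xi j (fderiv ℝ (FF Θ χ e E) (χ t, e x)) := by
  have k : Pc f W Ψ Θ χ e (chartAt (Cm D) (Θ t x)) t x := { h with hE := P277Z.at_chart _ }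
  obtain ⟨A, hA⟩ := k.chE h.hE
  rw [XX, e.left_inv h.he.2, hA, k.vert]
  simp only [xi, hA, map_smul, map_add]

theorem xsm : ContDiffAt ℝ ∞ (XX Ψ Θ χ t j e) (e x) := by
  have a : ContDiffAt ℝ ∞ (fun z : Cm d => (χ t, z)) (e x) := contDiffAt_const.prodMk contDiffAt_id
  have b : ContDiffAt ℝ ∞ (fderiv ℝ (PP Ψ E e)) (FF Θ χ e E (χ t, e x)) :=
    h.val ▸ h.psm.fderiv_right (m := ∞) le_rfl
  refine ((ContDiffAt.comp (e x) (f := fun z => FF Θ χ e E (χ t, z)) b (h.sm.comp _ a)).clm_apply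
    ((xi_sm h.sm j).comp _ a)).congr_of_eventuallyEq (h.ev2.mono ?_)
  rintro _ ⟨x', rfl, k⟩
  have := k.snd (0, XX Ψ Θ χ t j e (e x'))
  rw [k.spec] at this
  simp only [Function.comp, k.val, this]

theorem xch (h' : At e' x) :
    XX Ψ Θ χ t j e' (e' x) = fderiv ℝ (trn e e') (e x) (XX Ψ Θ χ t j e (e x)) := by
  have k : Pc f W Ψ Θ χ e' E t x := { h with he := h' }
  have a := h.spec j
  simp only [xi, h.che h', map_zero] at a
  have b := k.snd (0, fderiv ℝ (trn e e') (e x) (XX Ψ Θ χ t j e (e x)))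
  rw [a, ← xi, ← k.spec, k.snd] at b
  exact b

omit j in
theorem form {Y : Mf d} {i : Y.X → V.X} {s : Fld Y} {v : Fs Y} {ψ : M.X → Y.X} {T : Fs Y → Fs M}
    {S : Cm D → Mx D} (hi : HolM d D i) (hs : IsHolTwoForm s) (hv : Is20 s v)
    (hψ : ∀ z, i (ψ z) = Θ t z) (sψ : Smo d d ψ) (hT : IsPb ψ T)
    (hS : ∀ c : Chart d Y.X, At c (ψ x) → s c (c (ψ x)) =
      (jacF i c E (ψ x))ᵀ * S (E (Θ t x)) * jacF i c E (ψ x)) (a b : Cm d) :
    bv (vl (T v) e (e x)) a b = pb (FF Θ χ e E) S (χ t, e x) a b := by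
  have hc := P277Z.at_chart (n := d) (ψ x)
  generalize chartAt (Cm d) (ψ x) = c at hc
  have hE : At E (i (ψ x)) := (hψ x).symm ▸ h.hE
  have k : ∀ u, fderiv ℝ (FF Θ χ e E) (χ t, e x) (0, u) =
      jacF i c E (ψ x) *ᵥ fderiv ℝ (fun z => c (ψ (e.symm z))) (e x) u := fun u => by
    have a1 := ((hi.at _).an hc hE).differentiableAt.hasFDerivAt.restrictScalars ℝ
    have a2 := ((sψ.sm e c x h.he hc).differentiableAt (by simp)).hasFDerivAt
    have a3 : c (ψ (e.symm (e x))) = c (ψ x) := by rw [e.left_inv h.he.2]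
    rw [Rf.jacF_dfM (hi.at _) hc hE, dfM_mulVec]
    refine congrArg (fun A : Cm d →L[ℝ] Cm D => A u) ((HasFDerivAt.comp (f := fun z => (χ t, z))
      (e x) h.fd (hasFDerivAt_prodMk_right _ _)).unique
        ((cmp a1 a2 a3).congr_of_eventuallyEq ?_))
    filter_upwards [at_map sψ.cont.continuousAt h.he hc] with z hz
    simp only [Function.comp, FF, χ.left_inv h.hχ.2, c.left_inv hz.2, hψ]
  rw [Rot.bv_pb sψ hT v h.he hc, hv c _ hc, Rot.bv_f20 (hs.alt c _ hc), hS c hc, pb, k, k, h.val,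
    ← Matrix.mulVec_mulVec, ← Matrix.mulVec_mulVec, Matrix.dotProduct_mulVec,
    Matrix.vecMul_transpose]

end Pc

end Ha

open Ha in
/-- **HOLA** -/
theorem hola (hC : Hl.CAR) : HOLA := by
  intro n r D p B V Z f W Φ M Ψ Θ u hf hW _ tv hR hu t ht χ hχ
  have cl : ∀ t ∈ W, Cl2 M (u t) := fun t ht => by
    obtain ⟨-, -, v, ψ, T, -, a, -, b, c, e⟩ := hu t ht
    exact e ▸ Rot.cl_pb b c a
  have key : ∀ e x, At e x → ∃ (E : Chart D V.X) (S : Cm D → Mx D), Pc f W Ψ Θ χ e E t x ∧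
      (∀ a b, AnalyticAt ℂ (fun z => S z a b) (FF Θ χ e E (χ t, e x))) ∧
      ∀ᶠ q in 𝓝 (χ t, e x), dg 2 *ᵥ vl (u (χ.symm q.1)) e q.2 = vl (u (χ.symm q.1)) e q.2 ∧
        ∀ a b, bv (vl (u (χ.symm q.1)) e q.2) a b = pb (FF Θ χ e E) S q a b := fun e x he => by
    have h : Pc f W Ψ Θ χ e _ t x := ⟨hf, hW, tv, ht, hχ, he, P277Z.at_chart _⟩
    obtain ⟨S, s1, s2⟩ := hR (Θ t x) ((tv.h1 t ht x).1.symm ▸ ht) _ h.hE
    refine ⟨_, S, h, h.val ▸ s1, (h.ev ((tv.Θc t ht x).eventually s2)).mono ?_⟩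
    rintro _ ⟨t', x', rfl, k, k'⟩
    obtain ⟨a1, a2, v, ψ, T, a3, -, a4, a5, a6, a7⟩ := hu t' k.ht
    simp only [χ.left_inv k.hχ.2]
    exact ⟨Rot.cl_dg (cl t' k.ht) k.he, fun a b => a7 ▸ k.form a1.hol a2 a3 a4 a5 a6
      (k' t' k.ht _ (a4 x')) a b⟩
  have sm : ∀ e x, At e x →
      ContDiffAt ℝ ∞ (fun q : Cm p × Cm (n + n) => vl (u (χ.symm q.1)) e q.2) (χ t, e x) :=
    fun e x he => by
      obtain ⟨E, S, h, s1, s2⟩ := key e x he
      exact Hl.smb _ _ _ _ (s2.mono fun _ k => k.1) fun a b =>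
        (pb_sm h.sm s1 a b).congr_of_eventuallyEq (s2.mono fun _ k => k.2 a b)
  refine ⟨fun e x he I => contDiffAt_pi.1 (sm e x he) I, fun j => ?_⟩
  have pt : ∀ e x, At e x → Pc f W Ψ Θ χ e (chartAt (Cm D) (Θ t x)) t x := fun e x he =>
    ⟨hf, hW, tv, ht, hχ, he, P277Z.at_chart _⟩
  obtain ⟨β, b1, b2⟩ := hC _ M (u t) (XX Ψ Θ χ t j) (cl t ht) (fun e x he => (pt e x he).xsm j)
    fun e e' x he he' => (pt e x he).xch j he'
  refine ⟨β, b1, fun e x he => congrFun (?_ : (fun K => dzb j (fun w => vl (u (χ.symm w)) e (e x) K)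
    (χ t)) = vl β e (e x))⟩
  obtain ⟨E, S, h, s1, s2⟩ := key e x he
  have s3 := (Continuous.prodMk_left (e x)).continuousAt.eventually s2
  have s4 := (Continuous.prodMk_right (χ t)).continuousAt.eventually s2
  simp only [χ.left_inv hχ.2] at s4
  have d1 : DifferentiableAt ℝ (fun w => vl (u (χ.symm w)) e (e x)) (χ t) :=
    ((sm e x he).comp (χ t) (contDiffAt_id.prodMk contDiffAt_const)).differentiableAt (by simp)
  have e1 : (fun K => dzb j (fun w => vl (u (χ.symm w)) e (e x) K) (χ t)) = (2 : ℂ)⁻¹ •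
      (fderiv ℝ (fun w => vl (u (χ.symm w)) e (e x)) (χ t) (Pi.single j 1) +
        I • fderiv ℝ (fun w => vl (u (χ.symm w)) e (e x)) (χ t) (Pi.single j I)) := by
    funext K
    simp [dzb, fderiv_apply d1 K, div_eq_inv_mul]
  have e2 : ∀ (A : Fo (n + n) →L[ℝ] ℂ) τ, A (fderiv ℝ (fun w => vl (u (χ.symm w)) e (e x)) (χ t) τ) =
      fderiv ℝ (fun w => A (vl (u (χ.symm w)) e (e x))) (χ t) τ := fun A τ =>
    (congrArg (fun L : Cm p →L[ℝ] ℂ => L τ) (A.hasFDerivAt.comp _ d1.hasFDerivAt).fderiv).symm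
  refine Rot.bv_ext ?_ (Rot.cl_dg b1.cl he) fun a b => ?_
  · funext K
    rw [dg_mulVec]
    split_ifs with hK
    · rfl
    · rw [C2.dzb_congr j (g := fun _ => 0) (s3.mono fun w k => by
        rw [← k.1, dg_mulVec, if_neg hK])]
      simp [dzb]
  · have e3 : ∀ τ, bv (fderiv ℝ (fun w => vl (u (χ.symm w)) e (e x)) (χ t) τ) a b =
        fderiv ℝ (fun w => pb (FF Θ χ e E) S (w, e x) a b) (χ t) τ := fun τ => by
      have := e2 ((ContinuousLinearMap.apply ℝ ℂ b).comp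
        ((ContinuousLinearMap.apply ℝ _ a).comp (Rot.bLL _))) τ
      refine (Rot.bL_apply _ a b).symm.trans (this.trans ?_)
      exact congrArg (fun L : Cm p →L[ℝ] ℂ => L τ) (EventuallyEq.fderiv_eq
        (s3.mono fun w k => (Rot.bL_apply _ a b).trans (k.2 a b)))
    rw [e1, Rot.bv_smul, Rot.bv_add, Rot.bv_smul, e3, e3, b2 e x he,
      EventuallyEq.fderiv_eq (s4.mono fun z k => k.2 a b), s4.self_of_nhds.2, s4.self_of_nhds.2,
      ← lie h.sm s1 j ((h.xsm j).differentiableAt (by simp)) (h.ev2.mono ?_) a b, dzb,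
      div_eq_inv_mul]
    rintro _ ⟨x', rfl, k⟩
    exact k.spec j

end Vale.Agent.P301Z.Al
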