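import Vale.Agent.P301Z.Al.Top2
import Vale.Agent.P301Z.Al.Ari
import Vale.Agent.P301Z.Al.Hola
import Vale.Agent.P301Z.Hl.Car

/-!
# P301, block ALG: the result
-/

namespace Vale.Agent.P301Z.Al

/-- **ALG** -/
theorem alg (hL : Lat.LAT) : ALG := alg_top2 hL ari (hola Hl.car)

end Vale.Agent.P301Z.Al
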