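import Vale.Agent.P301Z.Al.Sk
import Vale.Agent.P301Z.Rot.R1
import Vale.Agent.P281Z.Mf.Api

/-!
# P301, block ALG: the assembly
-/

open scoped Manifold ContDiff ComplexOrder Topology Matrix
open Set Filter Metric
open Vale.Agent.P272.K
open Vale.Agent.P277Z (Hol at_chart)
open Vale.Agent.P277Z.Slc (dd)
open Vale.Agent.P281Z (Mf HolM Emb)
open Vale.Agent.P299.D (pullM)
open Vale.Agent.P301Z.Lat

noncomputable section

namespace Vale.Agent.P301Z.Al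

namespace Asm

theorem ne {α : Type*} {I : Set α} (hI : ¬ I.Countable) : ∃ x, x ∈ I := by
  by_contra k
  exact hI (countable_empty.mono fun x hx => k ⟨x, hx⟩)

theorem cnt (r : ℕ) : Countable (ZM r) := inferInstanceAs (Countable (Fin r → Fin r → ℤ))

theorem pigeon {α β : Type*} [Countable β] {I : Set α} (hI : ¬ I.Countable) (R : α → β → Prop)
    (h : ∀ x ∈ I, ∃ b, R x b) : ∃ b, ¬ {x | x ∈ I ∧ R x b}.Countable := by
  by_contra k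
  push Not at k
  refine hI ((countable_iUnion k).mono fun x hx => ?_)
  obtain ⟨b, hb⟩ := h x hx
  exact mem_iUnion.2 ⟨b, hx, hb⟩

theorem cond {α X : Type*} [TopologicalSpace X] [SecondCountableTopology X] {I : Set α}
    (hI : ¬ I.Countable) (z : α → X) :
    ∃ x₀ ∈ I, ∀ O ∈ 𝓝 (z x₀), ¬ {x | x ∈ I ∧ z x ∈ O}.Countable := by
  by_contra k
  push Not at k
  choose! O h1 h2 using k
  obtain ⟨T, hT, e⟩ := TopologicalSpace.isOpen_iUnion_countable (fun x : I => interior (O x))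
    fun _ => isOpen_interior
  refine hI ((hT.biUnion fun x _ => h2 x x.2).mono fun x hx => ?_)
  have : z x ∈ ⋃ x : I, interior (O x) :=
    mem_iUnion.2 ⟨⟨x, hx⟩, mem_interior_iff_mem_nhds.2 (h1 x hx)⟩
  rw [← e] at this
  obtain ⟨y, hy, h⟩ := mem_iUnion₂.1 this
  exact mem_iUnion₂.2 ⟨y, hy, hx, interior_subset h⟩

theorem diff {α β : Type*} {I : Set α} (hI : ¬ I.Countable) {u : α → β}
    (hu : Function.Injective u) {C : Set β} (hC : C.Countable) :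
    ¬ {x | x ∈ I ∧ u x ∉ C}.Countable := fun h =>
  hI ((h.union (hC.preimage_of_injOn hu.injOn)).mono fun x hx => by
    by_cases k : u x ∈ C
    exacts [Or.inr k, Or.inl ⟨hx, k⟩])

theorem inj (T : ℝ) : Function.Injective fun x : ℝ => (x : ℂ) + T * Complex.I := fun x y h => by
  simpa using h

theorem opn {d : ℕ} {Z : Mf d} {u : Z.X → ℂ} {o : Z.X} (h : Hol d u o)
    (k : ¬ ∀ᶠ t in 𝓝 o, u t = u o) {O : Set Z.X} (hO : O ∈ 𝓝 o) : u '' O ∈ 𝓝 (u o) := by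
  have he := at_chart (n := d) o
  have l : (chartAt (Cm d) o).symm (chartAt (Cm d) o o) = o := (chartAt (Cm d) o).left_inv he.2
  rcases (h _ he).eventually_constant_or_nhds_le_map_nhds with a | a
  · rw [l] at a
    exact absurd ((P277Z.At.ev he (p := fun t => u t = u o)).1 a) k
  · rw [l] at a
    refine a (mem_map.2 ?_)
    filter_upwards [(P277Z.At.ev he (p := fun t => t ∈ O)).2 hO] with w hw
    exact ⟨_, hw, rfl⟩

variable {n r σ D p : ℕ} {B : BB n r} {F : Fr B} {k : Fin r → ℝ} {c : Fin σ → ℝ}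
  {H : Fin σ → Fin r → ℝ} {T : ℝ}

/-- uncountably many marked points lie on one sheet -/
theorem sheet (hTW : TW) (hP : PER) (hS : SHT) (hC : CVAL) (hp : Pol F k c H)
    {G : PF D p (n + n) c} {J : Set ℝ} (hJ : ¬ J.Countable) (z : ℝ → G.Z.X) (y : ℝ → Fb B G.V)
    (hy : ∀ x ∈ J, MP F H G (z x) (x + T * Complex.I) (y x)) :
    ∃ (S : Sh F H G) (J' : Set ℝ), J' ⊆ J ∧ ¬ J'.Countable ∧ ∀ x ∈ J', z x ∈ S.W ∧
      S.τ (z x) = x + T * Complex.I ∧ Iso (y x).toPt (S.Φ (z x)).toPt ∧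
      dd S.τ (chartAt (Cm p) (z x)) (z x) ≠ 0 := by
  have tw := fun t => hTW n r σ D p B F k c H G t hp
  obtain ⟨x₀, h₀⟩ := ne hJ
  choose S hS' using fun t : G.U => hP n r σ D p B F k c H G hp ⟨_, _, _, hy x₀ h₀⟩ t t.2
  obtain ⟨Q, hQ, e⟩ := TopologicalSpace.isOpen_iUnion_countable (fun t => (S t).W)
    fun t => (S t).opn
  have := hQ.to_subtype
  have := cnt r
  obtain ⟨⟨t, A⟩, h1⟩ := pigeon (β := Q × ZM r) hJ (fun x b => z x ∈ (S b.1).W ∧ IsoP F b.2 ∧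
      Tw b.2 (y x) ((S b.1).Φ (z x))) fun x hx => by
    have : z x ∈ ⋃ t, (S t).W := mem_iUnion.2 ⟨⟨z x, (hy x hx).mem⟩, hS' _⟩
    rw [← e] at this
    obtain ⟨t, ht, h⟩ := mem_iUnion₂.1 this
    obtain ⟨A, a1, a2⟩ := ((tw (z x)).2.1 _ _ _ _ (hy x hx) ((S t).mp _ h)).1
    exact ⟨⟨⟨t, ht⟩, A⟩, h, a1, a2⟩
  obtain ⟨x₁, -, -, hA, -⟩ := ne h1
  have ex : ∀ s, ∃ (τ' : ℂ) (y' : Fb B G.V), s ∈ (S t).W →
      MP F H G s τ' y' ∧ Tw A y' ((S t).Φ s) := fun s => by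
    by_cases hs : s ∈ (S t).W
    · obtain ⟨τ', y', h⟩ := ((tw s).1 _ _ ((S t).mp s hs)).2.2.2 A hA
      exact ⟨τ', y', fun _ => h⟩
    · exact ⟨0, y x₀, fun h => absurd h hs⟩
  choose τ' Φ' h' using ex
  obtain ⟨S', w1, w2, w3⟩ := hS n r σ D p B F k c H G (S t) A (S t).W τ' Φ' hp hA (S t).opn
    subset_rfl h'
  refine ⟨S', _, fun x hx => hx.1.1, diff h1 (inj T) (hC p G.Z S'.W S'.τ S'.opn S'.hol),
    fun x hx => ?_⟩
  obtain ⟨⟨hx, a1, -, a2⟩, a3⟩ := hx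
  obtain ⟨b1, b2⟩ := h' _ a1
  have m := (S t).mp _ a1
  obtain ⟨⟨A', -, c1⟩, -, c2, -⟩ := (tw (z x)).2.1 _ _ _ _ (hy x hx) b1
  have c3 := ((tw (z x)).2.1 _ _ _ _ (hy x hx) m).2.1 _ _
    ((tw (z x)).2.2 _ _ _ _ _ _ _ _ (hy x hx) b1 m c1 b2) a2
  obtain rfl : A' = 1 := hA.unit.mul_right_cancel (c3.trans (one_mul A).symm)
  obtain ⟨d1, d2⟩ := c2 c1
  have d3 : S'.τ (z x) = x + T * Complex.I := by rw [w2, ← d1]
  refine ⟨w1 ▸ a1, d3, w3 ▸ d2, fun h => a3 ⟨z x, ⟨w1 ▸ a1, h⟩, d3⟩⟩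

end Asm

open Asm in
/-- **ALG** -/
theorem alg_of (L : LAT) (hK : KC) (hG : GF) (hB : PBR) (hTW : TW) (hP : PER) (hS : SHT)
    (hL : SLF) (hC : CVAL) (hR : RAYA) : ALG := by
  intro n r B F k T I P hk hT hI h
  obtain ⟨⟨σ, a⟩, h1⟩ := pigeon (β := Σ σ : ℕ, Fin σ → Fin r → ℤ) hI (fun x b => 0 < b.1 ∧
      (∃ c, Pol F k c fun i => (2 * Real.pi) • zr (b.2 i)) ∧
      ∀ i, ∃ w : Fld (P x).Y.V, (P x).Y.Kc w ((2 * Real.pi) • zr (b.2 i))) fun x hx => by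
    obtain ⟨s1, w, lam, l0, hw⟩ := h x hx
    have k1 := Rot.kc_smul L hw (inv_pos.2 l0)
    rw [smul_smul, inv_mul_cancel₀ l0.ne', one_smul] at k1
    obtain ⟨σ, a, c, b1, b2, b3⟩ := hK n r B F (P x).Y (P x).s _ _ k hk
      ⟨s1, k1, hk.2.2.2 ▸ F.epos⟩
    exact ⟨⟨σ, a⟩, b1, ⟨c, b2⟩, b3⟩
  obtain ⟨x₁, -, hσ, ⟨c, hp⟩, -⟩ := ne h1
  have ex : ∀ x, ∃ w : Fin σ → Fld (P x).Y.V, (∀ i, ∃ w : Fld (P x).Y.V,
      (P x).Y.Kc w ((2 * Real.pi) • zr (a i))) → ∀ i, (P x).Y.Kc (w i) ((2 * Real.pi) • zr (a i)) :=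
    fun x => by
      by_cases k : ∀ i, ∃ w : Fld (P x).Y.V, (P x).Y.Kc w ((2 * Real.pi) • zr (a i))
      · choose w hw using k
        exact ⟨w, fun _ => hw⟩
      · exact ⟨fun _ _ _ => 0, fun h => absurd h k⟩
  choose w hw using ex
  obtain ⟨J, p, G, z, j, j1, j2, j3, j4⟩ := hG (n + n) σ ℝ (fun x => (P x).Y.V) w _ c
    (Nat.add_pos_left B.npos n) hσ h1 hp.pos fun x hx => by
      have := (P x).Y.sc
      refine ⟨inferInstance, fun i => ⟨(hw x hx.2.2.2 i).1, ?_⟩⟩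
      obtain ⟨M, ρ, m1, m2⟩ := L.lef (a i) (hw x hx.2.2.2 i).2
      exact ⟨M, ρ, m1.1, m2⟩
  have mp : ∀ x ∈ J, MP F (fun i => (2 * Real.pi) • zr (a i)) G (z x) (x + T * Complex.I)
      ⟨P x, j x⟩ := fun x hx =>
    ⟨(j3 x hx).1, (j3 x hx).2.1, fun i => L.rel.same (hw x (j1 hx).2.2.2 i).2
      (hB.r11 (j3 x hx).2.1.hol (G.r11 i)) ((j3 x hx).2.2 i), (h x (j1 hx).1).1⟩
  obtain ⟨S, J', s1, s2, s3⟩ := sheet hTW hP hS hC hp j2 z (fun x => ⟨P x, j x⟩) mp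
  obtain ⟨x₀, h₀, cd⟩ := cond s2 z
  obtain ⟨a1, a2, -, a4⟩ := s3 x₀ h₀
  cases p with
  | zero => exact absurd (Subsingleton.elim _ _) a4
  | succ b =>
  obtain ⟨κ, δ, k1, k2, k3, k4, k5, k6⟩ := hL n r σ _ b B F k c _ G S hp (z x₀) a1
    (by rw [a2]; simpa using hT) a4
  obtain ⟨Lf, hf⟩ := k6 δ k4 le_rfl
  have hO : κ.source ∩ κ ⁻¹' ball (κ (z x₀)) δ ∈ 𝓝 (z x₀) :=
    inter_mem (κ.open_source.mem_nhds k1) (κ.continuousAt k1 (ball_mem_nhds _ k4))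
  obtain ⟨G', g, o, cv, go, nc⟩ := j4 (z x₀) (S.mp _ a1).mem S.τ (S.hol _ a1) fun h =>
    cd _ h ((countable_singleton x₀).mono fun x hx =>
      inj T ((s3 x hx.1).2.1.symm.trans (hx.2.trans a2)))
  have o1 := opn (u := fun t => S.τ (g t)) (cv.hol.hol (go ▸ S.hol _ a1))
    (by simpa only [go] using nc) (cv.hol.cont.continuousAt.preimage_mem_nhds (go ▸ hO))
  simp only [go] at o1
  have u1 := diff (cd _ (inter_mem hO ((S.hol _ a1).cont.preimage_mem_nhds o1))) (inj T)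
    (cv.fin.image fun t => S.τ (g t)).countable
  have key : ∀ x ∈ {x | x ∈ {x | x ∈ J' ∧ z x ∈ (κ.source ∩ κ ⁻¹' ball (κ (z x₀)) δ) ∩
      S.τ ⁻¹' ((fun t => S.τ (g t)) '' (g ⁻¹' (κ.source ∩ κ ⁻¹' ball (κ (z x₀)) δ)))} ∧
      (x : ℂ) + T * Complex.I ∉ (fun t => S.τ (g t)) '' G'.Uᶜ}, ∃ t y,
      MP F (fun i => (2 * Real.pi) • zr (a i)) G' t (x + T * Complex.I) y ∧
        Conn F k x (P x) y.toPt := by
    rintro x ⟨⟨hx, z1, t, t1, t2⟩, t3⟩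
    obtain ⟨b1, b2, b3, -⟩ := s3 x hx
    have t4 : S.τ (g t) = x + T * Complex.I := t2.trans b2
    have t5 : t ∈ G'.U := by_contra fun h => t3 ⟨t, h, t4⟩
    have m := S.mp _ (k2 t1.1)
    obtain ⟨i', i1, i2⟩ := cv.lift t t5 _ _ m.emb
    refine ⟨t, ⟨(S.Φ (g t)).toPt, i'⟩, ⟨t5, i1, fun i => L.rel.same (m.cls i)
      (hB.r11 i1.hol (G'.r11 i)) (i2 i), t4 ▸ m.sym⟩, .trans _ _ _ (.rel _ _ (Or.inr b3))
      (.rel _ _ (Or.inl ⟨_, _, _, _, _, _, Lf, κ (z x), κ (g t), z1.2, t1.2, ?_, ?_, ?_, ?_⟩))⟩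
    · rw [k3 _ z1.1, b2]; simp
    · rw [k3 _ t1.1, t4]; simp
    · rw [hf, κ.left_inv z1.1]
    · rw [hf, κ.left_inv t1.1]
  obtain ⟨Z, z1, z2⟩ := hR n r σ B F k c _ G' hp cv.fin cv.snc fun h => u1
    ((h.preimage_of_injOn (inj T).injOn).mono fun x hx => by
      obtain ⟨t, y, m, -⟩ := key x hx
      exact ⟨t, y, m⟩)
  obtain ⟨x, hx, hz⟩ := ne (diff u1 Function.injective_id z1)
  obtain ⟨t, y, m, cn⟩ := key x hx
  obtain ⟨R, hR⟩ := z2 x T hz hT t y m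
  exact ⟨x, (j1 (s1 hx.1.1)).1, R, .trans _ _ _ cn (.rel _ _ (Or.inr hR))⟩

end Vale.Agent.P301Z.Al
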