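import Vale.Agent.P301Z.Al.Sk
import Vale.Agent.P301Z.Ry.Grp

/-!
# P301, block ALG: the arithmetic group
-/

open scoped ComplexOrder Matrix
open Set
open Vale.Agent.P301Z.Lat Vale.Agent.P301Z.Ry.Grp

noncomputable section

namespace Vale.Agent.P301Z.Al

namespace Ari2

variable {n r : ℕ} {B : BB n r}

/-- scaling of the first coordinate -/
def dg (a : ℝ) : Matrix (Fin 3) (Fin 3) ℝ := Matrix.diagonal ![a, 1, 1]

theorem dg_mul (a b : ℝ) : dg a * dg b = dg (a * b) := by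
  rw [dg, dg, dg, Matrix.diagonal_mul_diagonal]
  congr 1
  funext i
  fin_cases i <;> simp

theorem dg_one : dg 1 = 1 := by
  rw [dg, ← Matrix.diagonal_one]
  congr 1
  funext i
  fin_cases i <;> simp

theorem ap_dg (a : ℝ) (v : Fin 3 → ℂ) : Ry.ap (dg a) v = ![a * v 0, v 1, v 2] := by
  funext i
  fin_cases i <;> simp [Ry.ap, dg]

variable (F : Fr B)

theorem fr_eq (v : Fin 3 → ℂ) : fr F v = Ry.un F (Ry.ap (dg F.D⁻¹) v) := by
  rw [ap_dg, fr, Ry.un]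
  simp [div_eq_inv_mul]

theorem dg1 : dg F.D * dg F.D⁻¹ = 1 := by rw [dg_mul, mul_inv_cancel₀ F.Dpos.ne', dg_one]

theorem dg2 : dg F.D⁻¹ * dg F.D = 1 := by rw [dg_mul, inv_mul_cancel₀ F.Dpos.ne', dg_one]

theorem sg_eq (τ : ℂ) : Ry.ap (dg F.D⁻¹) (Ry.sg F.e τ) = Ry.sg (Ry.eps F) τ := by
  rw [ap_dg]
  funext i
  fin_cases i <;> simp [Ry.sg, Ry.eps]
  ring

/-- the representation in the scaled frame -/
def rho : Ry.Gp F →* Matrix (Fin 3) (Fin 3) ℝ where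
  toFun g := dg F.D * Ry.rho F g * dg F.D⁻¹
  map_one' := by rw [map_one, mul_one, dg1]
  map_mul' g h := by
    rw [map_mul]
    simp only [mul_assoc]
    rw [← mul_assoc (dg F.D⁻¹) (dg F.D), dg2, one_mul]

theorem rho_apply (g : Ry.Gp F) : rho F g = dg F.D * Ry.rho F g * dg F.D⁻¹ := rfl

theorem qm1 : (dg F.D)ᵀ * Ry.Qm F.e * dg F.D = F.D • Ry.Qm (Ry.eps F) := by
  have := F.Dpos.ne'
  ext i j
  fin_cases i <;> fin_cases j <;>
    simp [dg, Ry.Qm, Ry.eps, Matrix.mul_apply, Matrix.diagonal]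
  field_simp

theorem arith : Ry.Arith F.e (rho F) where
  pos := F.epos
  inj g h e := by
    refine (Ry.arith F).inj ?_
    have e1 := congrArg (fun M => dg F.D⁻¹ * M * dg F.D) e
    simp only [rho_apply, ← mul_assoc, dg2, one_mul] at e1
    simpa only [mul_assoc, dg2, mul_one] using e1
  iso g := by
    have h1 := (Ry.arith F).iso g
    have h2 : (dg F.D⁻¹)ᵀ * (F.D • Ry.Qm (Ry.eps F)) * dg F.D⁻¹ = Ry.Qm F.e := by
      rw [← qm1]
      simp only [← mul_assoc]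
      rw [← Matrix.transpose_mul, dg1, Matrix.transpose_one, one_mul, mul_assoc, dg1, mul_one]
    calc (rho F g)ᵀ * Ry.Qm F.e * rho F g = (dg F.D⁻¹)ᵀ * ((Ry.rho F g)ᵀ *
          ((dg F.D)ᵀ * Ry.Qm F.e * dg F.D) * Ry.rho F g) * dg F.D⁻¹ := by
          simp only [rho_apply, Matrix.transpose_mul, mul_assoc]
      _ = Ry.Qm F.e := by rw [qm1, mul_smul_comm, smul_mul_assoc, h1, h2]
  den := by
    obtain ⟨N, N0, hN⟩ := (Ry.arith F).den
    obtain ⟨d, hd⟩ := qR_int B.q F.l F.m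
    rw [F.lm] at hd
    have d0 : 0 < d := by have := F.Dpos; rw [hd] at this; exact_mod_cast this
    refine ⟨N * d.toNat, Nat.mul_pos N0 (by omega), fun g i j => ?_⟩
    have h1 : ((d.toNat : ℕ) : ℝ) = F.D := by
      rw [hd, ← Int.cast_natCast, Int.toNat_of_nonneg d0.le]
    have hD := F.Dpos.ne'
    obtain ⟨k, hk⟩ := hN g i j
    have h2 : rho F g i j = ![F.D, 1, 1] i * Ry.rho F g i j * ![F.D⁻¹, 1, 1] j := by
      rw [rho_apply, dg, dg, Matrix.mul_diagonal, Matrix.diagonal_mul]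
    have h3 : ∃ a : ℤ, ![F.D, 1, 1] i = a := by
      fin_cases i
      · exact ⟨d, hd⟩
      · exact ⟨1, by simp⟩
      · exact ⟨1, by simp⟩
    have h4 : ∃ b : ℤ, F.D * ![F.D⁻¹, 1, 1] j = b := by
      fin_cases j
      · exact ⟨1, by simp [hD]⟩
      · exact ⟨d, by simpa using hd⟩
      · exact ⟨d, by simpa using hd⟩
    obtain ⟨a, ha⟩ := h3
    obtain ⟨b, hb⟩ := h4
    refine ⟨a * k * b, ?_⟩
    rw [h2, Nat.cast_mul, h1, Int.cast_mul, Int.cast_mul, ← ha, ← hb, ← hk]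
    ring

variable {F}

theorem pp_rc {x : Fin r → ℝ} : Ry.Pp F (rc x) ↔ Perp F x := by
  simp only [Ry.Pp, Perp, Li.qC_rc, Complex.ofReal_eq_zero]

theorem pp_re {k : Fin r → ℂ} (h : Ry.Pp F k) : Perp F (Li.reV k) ∧ Perp F (Li.imV k) := by
  obtain ⟨h1, h2, h3⟩ := h
  rw [Li.qC_eq] at h1 h2 h3
  simp only [Perp, Li.qR_eq]
  exact ⟨⟨(Li.perp_of _ h1).1, (Li.perp_of _ h2).1, (Li.perp_of _ h3).1⟩,
    (Li.perp_of _ h1).2, (Li.perp_of _ h2).2, (Li.perp_of _ h3).2⟩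

end Ari2

open Ari2 in
theorem ari2 : ARI where
  sg F τ := by rw [fr_eq, sg_eq, un_sg]
  inj F v w e := by
    rw [fr_eq, fr_eq] at e
    have e1 := congrArg (fun y => Ry.ap (dg F.D) (Ry.co F y)) e
    simpa only [co_un, ← Ry.Cov.ap_mul, dg1, ap_one] using e1
  smul F c v := by rw [fr_eq, fr_eq, Ry.Cov.ap_smul, un_smul]
  ql F τ := by
    refine ⟨?_, ?_, ?_, fun x hx => inT_iff.1 (inT_p F τ) _ (pp_rc.2 hx)⟩
    · rw [← un_sg, un_l]; simp [Ry.sg]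
    · rw [← un_sg, un_v]; simp [Ry.sg, mul_comm]
    · have h0 := F.Dpos.ne'
      have h1 : ∀ ε : ℝ, Ry.qf ε (Ry.sg ε τ) (star (Ry.sg ε τ)) = ((2 * ε * τ.im ^ 2 : ℝ) : ℂ) := by
        intro ε
        apply Complex.ext <;> simp [Ry.qf, Ry.sg, sq] <;> ring
      rw [← un_sg, ← un_star, qC_un_un, h1, Ry.eps, ← Complex.ofReal_mul]
      congr 1
      field_simp
  per F π h1 h2 h3 := by
    have h4 : Ry.InT F π := inT_iff.2 fun k hk => by
      rw [Li.re_add_im k, Li.qC_eq, map_add, map_smul, ← Li.qC_eq, ← Li.qC_eq, h3 _ (pp_re hk).1,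
        h3 _ (pp_re hk).2]
      simp
    obtain ⟨e1, e2, e3⟩ := (Ry.lin _ (eps_pos F)).1 _
      ((dom_iff h4).2 ⟨h1, (Complex.pos_iff.1 h2).1⟩)
    refine ⟨_, _, e1, e2, ?_⟩
    rw [← un_sg, ← un_smul, ← e3, h4]
  grp F := by
    refine ⟨Ry.Gp F, inferInstance, (Units.coeHom _).comp (Ry.Gp F).subtype, rho F, arith F,
      fun g h e => Subtype.ext (Units.ext e), fun A => ⟨fun h => ?_, ?_⟩, fun g v => ?_⟩
    · obtain ⟨u, rfl⟩ := h.unit
      refine ⟨⟨u, qC_ac h.iso, fun k hk => ?_⟩, rfl⟩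
      rw [Li.re_add_im k, ac_add, ac_smul]
      exact congrArg₂ (fun a b => a + Complex.I • b) (h.fix _ (pp_re hk).1) (h.fix _ (pp_re hk).2)
    · rintro ⟨g, rfl⟩
      exact ⟨g.1.isUnit, iso_of_qC g.2.1, fun x hx => g.2.2 _ (pp_rc.2 hx)⟩
    · rw [fr_eq, fr_eq, rho_apply, ← Ry.Cov.ap_mul, ← mul_assoc, ← mul_assoc, dg2, one_mul,
        Ry.Cov.ap_mul, un_ap]
      rfl

end Vale.Agent.P301Z.Al
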