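import Vale.Agent.P301Z.Al.Sk
import Vale.Agent.P281Z.Mf.Adj
import Vale.Agent.P272.K.Asm.Twisted
import Vale.Agent.P299.H956.D1.Pull

/-!
# P301, block ALG: the canonical bundles of the fibres
-/

open scoped Manifold ContDiff Topology Matrix
open Set Filter
open Vale.Agent.P272.K
open Vale.Agent.P272.K.INT (isClosedForm_canonical exists_diff two_le_inf)
open Vale.Agent.P277Z (at_chart)
open Vale.Agent.P281Z (Mf HolM Emb FibA th sig)
open Vale.Agent.P299.D (pullM jacF)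
open Vale.Agent.P299.H956 (pullM_eq cHess_compR rep_hol nhds_at_map)
open Vale.Agent.P301.H599 (IsHolTwoForm SameClass)
open Vale.Agent.P301Z.Lat

noncomputable section

namespace Vale.Agent.P301Z.Al

namespace Cn

theorem lg {a b : ℂ} (ha : a ≠ 0) (hb : b ≠ 0) :
    Real.log (‖a * b‖ ^ 2) = Real.log (‖a‖ ^ 2) + Real.log (‖b‖ ^ 2) := by
  rw [norm_mul, mul_pow, Real.log_mul (pow_ne_zero _ (norm_ne_zero_iff.2 ha))
    (pow_ne_zero _ (norm_ne_zero_iff.2 hb))]

theorem r11 {d : ℕ} {V : Mf d} {φ : Chart d V.X → Cm d → ℝ} (h : IsCanonicalMetric φ) :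
    R11 (V := V) fun e z => cHess (φ e) z :=
  ⟨isClosedForm_canonical h, fun e x hx => cHess_isHermitian ((h.smooth e x hx).of_le two_le_inf)⟩

variable {n p d : ℕ} {X Y F : Type} [TopologicalSpace X] [ChartedSpace (Cm n) X]
  [TopologicalSpace Y] [ChartedSpace (Cm p) Y] [TopologicalSpace F] [ChartedSpace (Cm d) F]
  [IsManifold 𝓘(ℂ, Cm n) ω X] [IsManifold 𝓘(ℂ, Cm p) ω Y] [IsManifold 𝓘(ℂ, Cm d) ω F]

theorem logdet {w : Chart n X → Cm n → Matrix (Fin n) (Fin n) ℂ} (hw : IsHermitian w) :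
    IsCanonicalMetric fun e z => Real.log (w e z).det.re where
  smooth e x hx := (contDiffAt_re (contDiffAt_det (hw.smooth e x hx))).log (hw.det_re_pos hx).ne'
  change _ _ _ hx hx' := log_det_change hw hx hx'

/-- the metric of a nowhere degenerate holomorphic form -/
theorem two {s : Chart n X → Cm n → Matrix (Fin n) (Fin n) ℂ} (h : IsHolTwoForm s)
    (hn : ∀ e x, At e x → (s e (e x)).det ≠ 0) : ∃ ψ : Chart n X → Cm n → ℝ,
      IsCanonicalMetric ψ ∧ ∀ e x, At e x → cHess (ψ e) (e x) = 0 := by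
  have h1 : ∀ e x, At e x → ContDiffAt ℂ ω (fun z => (s e z).det) (e x) := fun e x hx => by
    simp only [Matrix.det_apply']
    exact ContDiffAt.sum fun σ _ => contDiffAt_const.mul
      (contDiffAt_prod fun i _ => (h.holo e x hx (σ i) i).contDiffAt)
  have h2 : ∀ e x, At e x → ContDiffAt ℝ ∞ (fun z => Real.log (‖(s e z).det‖ ^ 2)) (e x) :=
    fun e x hx => ((((h1 e x hx).of_le le_top).restrict_scalars ℝ).norm_sq ℝ).log
      (pow_ne_zero 2 (norm_ne_zero_iff.2 (hn e x hx)))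
  refine ⟨fun e z => 1 / 2 * Real.log (‖(s e z).det‖ ^ 2), ⟨fun e x hx =>
    contDiffAt_const.mul (h2 e x hx), fun e e' x hx hx' => ?_⟩, fun e x hx => ?_⟩
  · have hJ := (jacM_isUnit hx hx').ne_zero
    rw [h.change e e' x hx hx', Matrix.det_mul, Matrix.det_mul, Matrix.det_transpose,
      lg (mul_ne_zero hJ (hn e' x hx')) hJ, lg hJ (hn e' x hx')]
    ring
  · rw [cHess_const_mul _ ((h2 e x hx).of_le two_le_inf),
      cHess_log_norm_sq (h1 e x hx) (hn e x hx), smul_zero]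

/-- adjunction for metrics -/
theorem fib {Φ : Chart n X → Cm n → ℝ} (hΦ : IsCanonicalMetric Φ) (σ : Fin p ⊕ Fin d ≃ Fin n)
    {f : X → Y} {i : F → X} (hi : HolM d n i) (h : ∀ x, FibA n p d f i x) {e' : Chart p Y}
    (he' : ∀ x, At e' (f (i x))) : ∃ φ : Chart d F → Cm d → ℝ, IsCanonicalMetric φ ∧
      ∀ c x, At c x → cHess (φ c) (c x) = pullM i (fun e z => cHess (Φ e) z) c (c x) := by
  let ψ : Chart d F → Chart n X → F → ℝ := fun c e y =>
    Φ e (e (i y)) + Real.log (‖th σ f i e' c e y‖ ^ 2)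
  have h1 : ∀ c e e₁ y, At c y → At e (i y) → At e₁ (i y) → ψ c e y = ψ c e₁ y :=
    fun c e e₁ y hc he he₁ => by
      simp only [ψ]
      rw [hΦ.change e e₁ _ he he₁, ← (h y).chgX σ hc he he₁ (he' y),
        lg ((h y).ne σ hc he (he' y)) (jacM_isUnit he he₁).ne_zero]
      ring
  have h2 : ∀ c x e, At c x → At e (i x) →
      (fun z => ψ c (chartAt (Cm n) (i (c.symm z))) (c.symm z)) =ᶠ[𝓝 (c x)] fun z =>
        Φ e (e (i (c.symm z))) + Real.log (‖th σ f i e' c e (c.symm z)‖ ^ 2) :=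
    fun c x e hc he => (nhds_at_map (hi x).continuousAt hc he).mono fun z hz =>
      h1 c _ e _ hz.2.1 (at_chart _) hz.2.2
  have h3 : ∀ (c : Chart d F) x e, At c x → At e (i x) →
      ContDiffAt ℝ ∞ (Φ e) (e (i (c.symm (c x)))) := fun c x e hc he => by
    rw [hc.left_inv]
    exact hΦ.smooth e _ he
  have h4 : ∀ (c : Chart d F) x e, At c x → At e (i x) →
      ContDiffAt ℝ ∞ (fun z => Φ e (e (i (c.symm z)))) (c x) := fun c x e hc he =>
    ContDiffAt.comp (f := fun z => e (i (c.symm z))) (c x) (h3 c x e hc he)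
      (((rep_hol (hi x) hc he).of_le le_top).restrict_scalars ℝ)
  have h5 : ∀ c x e, At c x → At e (i x) → th σ f i e' c e (c.symm (c x)) ≠ 0 :=
    fun c x e hc he => by
      rw [hc.left_inv]
      exact (h x).ne σ hc he (he' x)
  have h6 : ∀ c x e, At c x → At e (i x) →
      ContDiffAt ℝ ∞ (fun z => Real.log (‖th σ f i e' c e (c.symm z)‖ ^ 2)) (c x) :=
    fun c x e hc he => (((((h x).hol σ hc he (he' x) c hc).restrictScalars
      (𝕜 := ℝ)).contDiffAt).norm_sq ℝ).log (pow_ne_zero 2 (norm_ne_zero_iff.2 (h5 c x e hc he)))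
  refine ⟨fun c z => ψ c (chartAt (Cm n) (i (c.symm z))) (c.symm z), ⟨fun c x hc => ?_,
    fun c c₁ x hc hc₁ => ?_⟩, fun c x hc => ?_⟩
  · exact ((h4 c x _ hc (at_chart _)).add (h6 c x _ hc (at_chart _))).congr_of_eventuallyEq
      (h2 c x _ hc (at_chart _))
  · simp only [hc.left_inv, hc₁.left_inv, ψ]
    rw [(h x).chgF σ hc hc₁ (at_chart _) (he' x),
      lg (jacM_isUnit hc hc₁).ne_zero ((h x).ne σ hc₁ (at_chart _) (he' x))]
    ring
  · have he := at_chart (n := n) (i x)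
    rw [cHess_congr (h2 c x _ hc he), cHess_add ((h4 c x _ hc he).of_le two_le_inf)
      ((h6 c x _ hc he).of_le two_le_inf), cHess_log_norm_sq
        ((h x).hol σ hc he (he' x) c hc).contDiffAt (h5 c x _ hc he), add_zero,
      cHess_compR ((h3 c x _ hc he).of_le two_le_inf) (rep_hol (hi x) hc he), hc.left_inv,
      pullM_eq (isClosedForm_canonical hΦ).form (hi x) hc he]
    rfl

end Cn

open Cn in
/-- **CAN** -/
theorem can : CAN := by
  rintro D p N G ⟨w, hw⟩
  have hΦ := logdet hw.toIsHermitian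
  refine ⟨_, r11 hΦ, fun t ht Y i hi => ?_⟩
  obtain ⟨φ, h1, h2⟩ := fib hΦ (sig G.dim) hi.hol
    (fun x => hi.fibA G.hol (G.sbm _ ((hi.fib x).symm ▸ ht))) (e' := chartAt (Cm p) t)
    fun x => (hi.fib x).symm ▸ at_chart t
  refine ⟨⟨φ, h1, r11 h1, h2⟩, fun s hs hn => ?_⟩
  obtain ⟨ψ, k1, k2⟩ := two hs hn
  obtain ⟨u, u1, u2⟩ := exists_diff h1 k1
  exact ⟨u, u1, fun e x hx => by rw [← h2 e x hx, u2 e x hx, k2 e x hx]; rfl⟩

end Vale.Agent.P301Z.Al
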