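import Vale.Agent.P301Z.Lat.Defs
import Vale.Agent.P301Z.Sn.Defs

/-!
# P301, block ALG: families of manifolds, relative two-forms
-/

open scoped Manifold ContDiff Topology Matrix
open Set Filter
open Vale.Agent.P272.K
open Vale.Agent.P277Z (Hol)
open Vale.Agent.P281Z
open Vale.Agent.P301.H599 (IsHolTwoForm)
open Vale.Agent.P301Z.Lat (Fld)

noncomputable section

namespace Vale.Agent.P301Z.Al

/-- a holomorphic map which is a submersion over the open set `U`, with its fibres over `U` -/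
structure Fy (D p N : ℕ) : Type 1 where
  V : Mf D
  Z : Mf p
  f : V.X → Z.X
  U : Set Z.X
  Y : Z.X → Mf N
  j : ∀ t, (Y t).X → V.X
  dim : D = p + N
  hol : HolM D p f
  opn : IsOpen U
  sbm : ∀ x, f x ∈ U → Sbm D p f x
  emb : ∀ t ∈ U, Emb N D (j t) (f ⁻¹' {t})

variable {D p N : ℕ}

/-- the two-forms `s t` on the fibres over `W` depend holomorphically on `t` -/
def Fy.Rel (F : Fy D p N) (W : Set F.Z.X) (s : ∀ t, Fld (F.Y t)) : Prop :=
  ∀ x, F.f x ∈ W → ∃ (h : Fin N → F.V.X → ℂ) (σ : F.V.X → Matrix (Fin N) (Fin N) ℂ),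
    (∀ a, Hol D (h a) x) ∧ (∀ a b, Hol D (fun y => σ y a b) x) ∧
    ∀ᶠ x' in 𝓝 x, ∀ t ∈ W, ∀ y, F.j t y = x' → ∀ e, At e y →
      (Sn.jc (fun a y => h a (F.j t y)) e y).det ≠ 0 ∧
      s t e (e y) = (Sn.jc (fun a y => h a (F.j t y)) e y)ᵀ * σ x' *
        Sn.jc (fun a y => h a (F.j t y)) e y

/-- the field `s` is not zero -/
def Nz {V : Mf N} (s : Fld V) : Prop := ∃ e x, At e x ∧ s e (e x) ≠ 0

/-- the holomorphic two-forms are the multiples of the form `s`, which is not zero -/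
def H20 {V : Mf N} (s : Fld V) : Prop :=
  IsHolTwoForm s ∧ Nz s ∧ ∀ s' : Fld V, IsHolTwoForm s' →
    ∃ c : ℂ, ∀ e x, At e x → s' e (e x) = c • s e (e x)

/-- **EXTS**: the holomorphic two-forms of the fibres depend holomorphically on the fibre -/
def EXTS : Prop := ∀ (D p N : ℕ) (F : Fy D p N), (∀ t ∈ F.U, ∃ s : Fld (F.Y t), H20 s) →
  ∀ t₀ ∈ F.U, ∃ (W : Set F.Z.X) (s : ∀ t, Fld (F.Y t)), IsOpen W ∧ t₀ ∈ W ∧ W ⊆ F.U ∧
    (∀ t ∈ W, H20 (s t)) ∧ F.Rel W s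

end Vale.Agent.P301Z.Al
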