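import Vale.Agent.P301Z.Al.Sk
import Vale.Agent.P301Z.Al.Geo

/-!
# P301, block ALG: embeddings by several line bundles, for forms (statements)
-/

open scoped Manifold ContDiff Topology ComplexOrder
open Set
open Vale.Agent.P272.K
open Vale.Agent.P281Z
open Vale.Agent.P299.D (pullM)
open Vale.Agent.P301.H599 (SameClass)
open Vale.Agent.P301Z.Lat

noncomputable section

namespace Vale.Agent.P301Z.Al

/-- **KODF**: the embedding theorem, for forms -/
def KODF : Prop := ∃ (S : ∀ K, PS K) (fs : ∀ K, Fld (S K).P), (∀ K, IsKahler (fs K)) ∧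
  ∀ (N : ℕ) (Y : Mf N) (w : Fld Y), IsKahler w → IsCurv w →
    ∃ (k K : ℕ) (φ : Y.X → (S K).P.X), 0 < k ∧ Emb N K φ (range φ) ∧
      SameClass (d := N) (pullM φ (fs K)) fun e z => ((k : ℝ) : ℂ) • w e z

/-- **MPK**: finite products with their Kähler forms -/
def MPK : Prop := ∀ (r : ℕ) (d : Fin r → ℕ) (V : ∀ a, Mf (d a)), (∀ a, (V a).Prj) →
  (∀ a, ConnectedSpace (V a).X) → ∃ (m : ℕ) (P : Mf m) (π : ∀ a, P.X → (V a).X), P.Prj ∧
    ConnectedSpace P.X ∧ (∀ a, HolM m (d a) (π a)) ∧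
    (∀ (n : ℕ) (W : Mf n) (f : ∀ a, W.X → (V a).X), (∀ a, HolM n (d a) (f a)) →
      ∃ g : W.X → P.X, HolM n m g ∧ ∀ a y, π a (g y) = f a y) ∧
    ∀ (w : ∀ a, Fld (V a)) (c : Fin r → ℝ), (∀ a, IsKahler (w a)) → (∀ a, 0 < c a) →
      IsKahler fun (e : Chart m P.X) z => ∑ a, (c a : ℂ) • pullM (π a) (w a) e z

end Vale.Agent.P301Z.Al
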