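import Vale.Agent.P301Z.Al.Kodf

/-!
# P301, block ALG: embeddings by several line bundles, for forms
-/

open scoped Manifold ContDiff Topology ComplexOrder
open Set Filter
open Vale.Agent.P272.K
open Vale.Agent.P281Z
open Vale.Agent.P299.D (pullM)
open Vale.Agent.P301.H599 (SameClass)
open Vale.Agent.P301Z.Lat

noncomputable section

namespace Vale.Agent.P301Z.Al

namespace Embf

theorem r11_smul {d : ℕ} {V : Mf d} {a : Fld V} (h : R11 a) (c : ℝ) :
    R11 (V := V) fun e z => (c : ℂ) • a e z :=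
  ⟨h.toIsClosedForm.smul c, fun e x he => (h.herm e x he).smul (Complex.conj_ofReal c)⟩

theorem r11_kah {d : ℕ} {V : Mf d} {w : Fld V} (h : IsKahler w) : R11 w :=
  ⟨INT.IsKahler.isClosedForm h, fun e x he => (h.posDef e x he).isHermitian⟩

end Embf

theorem embf_of (hP : PBR) (hM : MPK) : EMBF := by
  intro N σ ι Y w I hσ hI h
  obtain ⟨S, fs, hfs, hK⟩ := kodf
  have one : ∀ i a, ∃ q : ℕ × ℕ, i ∈ I → 0 < q.1 ∧ ∃ φ : (Y i).X → (S q.2).P.X,
      Emb N q.2 φ (range φ) ∧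
        SameClass (d := N) (pullM φ (fs q.2)) fun e z => ((q.1 : ℝ) : ℂ) • w i a e z :=
    fun i a => by
      by_cases hi : i ∈ I
      · obtain ⟨k, K, φ, k1, k2⟩ := hK N (Y i) (w i a) (h i hi a).1 (h i hi a).2
        exact ⟨(k, K), fun _ => ⟨k1, φ, k2⟩⟩
      · exact ⟨0, fun k => (hi k).elim⟩
  choose q hq using one
  obtain ⟨q₀, hJ⟩ : ∃ q₀, ¬ {i | i ∈ I ∧ q i = q₀}.Countable := by
    by_contra! k
    exact hI ((countable_iUnion k).mono fun i hi => mem_iUnion.2 ⟨q i, And.intro hi rfl⟩)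
  obtain ⟨i₀, hi₀⟩ : {i | i ∈ I ∧ q i = q₀}.Nonempty :=
    nonempty_iff_ne_empty.2 fun e => hJ (e ▸ countable_empty)
  have hk : ∀ a, (0 : ℝ) < (q₀ a).1 := fun a => Nat.cast_pos.2 (hi₀.2 ▸ (hq i₀ a hi₀.1).1)
  obtain ⟨m, P, π, p1, p2, p3, p4, p5⟩ := hM σ (fun a => (q₀ a).2) (fun a => (S (q₀ a).2).P)
    (fun a => PS.prj _) fun a => PS.conn _
  have key : ∀ i, ∃ g : (Y i).X → P.X, i ∈ I ∧ q i = q₀ → Emb N m g (range g) ∧
      ∀ a, SameClass (d := N) (pullM g fun (e : Chart m P.X) z =>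
        ((((q₀ a).1 : ℝ)⁻¹ : ℝ) : ℂ) • pullM (π a) (fs (q₀ a).2) e z) (w i a) := by
    intro i
    by_cases hi : i ∈ I ∧ q i = q₀
    swap
    · exact ⟨fun _ => Classical.arbitrary _, fun k => absurd k hi⟩
    obtain ⟨hi, rfl⟩ := hi
    choose φ e1 e2 using fun a => (hq i a hi).2
    obtain ⟨g, g1, g2⟩ := p4 N (Y i) φ fun a => (e1 a).hol
    obtain rfl : φ = fun a y => π a (g y) := funext fun a => funext fun y => (g2 a y).symm
    refine ⟨g, fun _ => ⟨⟨g1, fun y y' e => (e1 ⟨0, hσ⟩).inj (congrArg (π _) e),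
      fun y => .of_comp ((p3 _).at _) (g1.at y) ((e1 ⟨0, hσ⟩).imm y), rfl⟩, fun a => ?_⟩⟩
    obtain ⟨u, u1, u2⟩ := e2 a
    refine ⟨fun y => ((q i a).1 : ℝ)⁻¹ * u y, fun e x he => contDiffAt_const.mul (u1 e x he),
      fun e x he => ?_⟩
    have k1 := u2 e x he
    rw [hP.comp g1 (p3 a) (Embf.r11_kah (hfs _)) e x he] at k1
    have k2 : P301.H599.ddc (fun y => ((q i a).1 : ℝ)⁻¹ * u y) e (e x) =
        ((((q i a).1 : ℝ)⁻¹ : ℝ) : ℂ) • P301.H599.ddc u e (e x) :=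
      cHess_const_mul _ ((u1 e x he).of_le INT.two_le_inf)
    have k3 : ∀ (c : ℂ) (b : Fld P), pullM g (fun (e : Chart m P.X) z => c • b e z) e (e x) =
        c • pullM g b e (e x) := fun c b => by
      simp only [pullM, Matrix.mul_smul, Matrix.smul_mul]
    rw [k3, k1, k2, smul_add, smul_smul, ← Complex.ofReal_mul, inv_mul_cancel₀ (hk a).ne',
      Complex.ofReal_one, one_smul]
  choose g hg using key
  refine ⟨_, m, P, _, g, fun i hi => hi.1, hJ, p1,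
    fun a => Embf.r11_smul (hP.r11 (p3 a) (Embf.r11_kah (hfs _))) _, fun c hc => ?_, hg⟩
  simpa only [smul_smul, ← Complex.ofReal_mul] using p5 (fun a => fs (q₀ a).2)
    (fun a => c a * ((q₀ a).1 : ℝ)⁻¹) (fun a => hfs _) fun a => mul_pos (hc a) (inv_pos.2 (hk a))

end Vale.Agent.P301Z.Al
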