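import Vale.Agent.P281Z.Mf.Prod
import Vale.Agent.P281Z.Rs.Defs

/-!
# P301, block ALG: algebraic families through uncountably many submanifolds (statements)
-/

open scoped Manifold ContDiff Topology
open Set Filter
open Vale.Agent.P272.K
open Vale.Agent.P277Z (Hol)
open Vale.Agent.P277Z.Slc (Ind)
open Vale.Agent.P281Z

noncomputable section

namespace Vale.Agent.P301Z.Al

section prod

variable {p D : ℕ} (Z : Mf p) (M : Mf D) (A : Set (Z.prod M).X) (c : ℕ) (z : (Z.prod M).X)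

/-- `c` holomorphic functions near `z` which are independent along the fibre -/
def FI (h : Fin c → (Z.prod M).X → ℂ) : Prop :=
  (∀ j, Hol (p + D) (h j) z) ∧ Ind D (fun j y => h j (Z.pair M (Z.p1 M z) y)) (Z.p2 M z)

/-- near `z` the set `A` lies in the zero set of `c` functions independent along the fibre -/
def JS : Prop := ∃ h, FI Z M c z h ∧ ∀ᶠ w in 𝓝 z, w ∈ A → ∀ j, h j w = 0

/-- near `z` the set `A` is the zero set of `c` functions independent along the fibre -/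
def RS : Prop := ∃ h, FI Z M c z h ∧ ∀ᶠ w in 𝓝 z, w ∈ A ↔ ∀ j, h j w = 0

end prod

/-- a family over a connected projective manifold, smooth off `B`, through uncountably many of the
`Y i`, at very general points -/
structure Fm {D : ℕ} (M : Mf D) (c : ℕ) {ι : Type} (Y : ι → Set M.X) : Type 1 where
  p : ℕ
  Z : Mf p
  conn : ConnectedSpace Z.X
  prj : Z.Prj
  B : Set Z.X
  thin : Thin p B
  A : Set (Z.prod M).X
  an : An (p + D) A
  rs : ∀ z ∈ A, Z.p1 M z ∉ B → RS Z M A c z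
  J : Set ι
  unc : ¬ J.Countable
  zz : ι → Z.X
  off : ∀ i ∈ J, zz i ∉ B
  fib : ∀ i ∈ J, ∀ y, Z.pair M (zz i) y ∈ A ↔ y ∈ Y i
  gen : ∀ Q, Thin p Q → {i | i ∈ J ∧ zz i ∈ Q}.Countable

/-- **MIN**: the smallest subvariety through uncountably many points -/
def MIN : Prop := ∀ (m : ℕ) (P : Mf m) (ι : Type) (a : ι → P.X) (I : Set ι), P.Prj →
  ¬ I.Countable → ∃ (p : ℕ) (Z : Mf p) (g : Z.X → P.X) (J : Set ι) (zz : ι → Z.X),
    ConnectedSpace Z.X ∧ Z.Prj ∧ HolM p m g ∧ J ⊆ I ∧ ¬ J.Countable ∧ (∀ i ∈ J, g (zz i) = a i) ∧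
      ∀ Q, Thin p Q → {i | i ∈ J ∧ zz i ∈ Q}.Countable

/-- **RKL**: the points where the equations have small rank along the fibre -/
def RKL : Prop := ∀ (p D c : ℕ) (Z : Mf p) (M : Mf D) (A : Set (Z.prod M).X), An (p + D) A →
  An (p + D) {z | z ∈ A ∧ ¬ JS Z M A c z}

/-- **FAM** -/
def FAM : Prop := ∀ (m D N c : ℕ) (P : Mf m) (M : Mf D) (V : Set (P.prod M).X) (ι : Type)
  (a : ι → P.X) (Y : ι → Set M.X) (I : Set ι), P.Prj → An (m + D) V → N + c = D → ¬ I.Countable →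
  (∀ i ∈ I, ∃ (F : Mf N) (j : F.X → M.X), ConnectedSpace F.X ∧ Emb N D j (Y i)) →
  (∀ i ∈ I, ∀ y, P.pair M (a i) y ∈ V ↔ y ∈ Y i) →
  (∀ i ∈ I, ∀ y ∈ Y i, JS P M V c (P.pair M (a i) y)) → ∃ F : Fm M c Y, F.J ⊆ I

/-- **CUR**: a curve through a given point on which a given function is not constant -/
def CUR : Prop := ∀ (p : ℕ) (Z : Mf p) (z : Z.X) (u : Z.X → ℂ), Z.Prj → Hol p u z →
  ¬ (∀ᶠ w in 𝓝 z, u w = u z) → ∃ (C : Mf 1) (g : C.X → Z.X) (o : C.X), ConnectedSpace C.X ∧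
    C.Prj ∧ HolM 1 p g ∧ g o = z ∧ ¬ ∀ᶠ t in 𝓝 o, u (g t) = u z

/-- **FIN1** -/
def FIN1 : Prop := ∀ (C : Mf 1) (S : Set C.X), Thin 1 S → S.Finite

/-- the pull back of a family -/
def pb {p q D : ℕ} {Z : Mf p} {C : Mf q} (M : Mf D) (g : C.X → Z.X) (A : Set (Z.prod M).X) :
    Set (C.prod M).X := {w | Z.pair M (g (C.p1 M w)) (C.p2 M w) ∈ A}

end Vale.Agent.P301Z.Al
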