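import Vale.Agent.P301Z.Al.Sk2

/-!
# P301, block ALG: classes of global forms are constant for flat markings
-/

open scoped Manifold ContDiff Topology
open Set
open Vale.Agent.P272.K
open Vale.Agent.P281Z (Mf HolM Emb)
open Vale.Agent.P281Z.Hg
open Vale.Agent.P299.D (pullM)
open Vale.Agent.P301Z.Lat

noncomputable section

namespace Vale.Agent.P301Z.Al

namespace Flt

variable {d d' d'' : ℕ} {V : Mf d} {V' : Mf d'} {V'' : Mf d''}

theorem atc (x : V.X) : At (chartAt (Cm d) x) x := ⟨chart_mem_atlas _ _, mem_chart_source _ _⟩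

theorem pb_ex {f : V.X → V'.X} (hf : Smo d d' f) : ∃ T : Fs V' → Fs V, IsPb f T :=
  let ⟨T, h⟩ := (pb1T d V.X d' V'.X f hf).1
  ⟨T, h⟩

theorem pb_comp {f : V.X → V'.X} {g : V'.X → V''.X} {h : V.X → V''.X} {T : Fs V' → Fs V}
    {T' : Fs V'' → Fs V'} {S : Fs V'' → Fs V} (hf : Smo d d' f) (hg : Smo d' d'' g)
    (e : ∀ x, g (f x) = h x) (hT : IsPb f T) (hT' : IsPb g T') (hS : IsPb h S) (u) :
    T (T' u) = S u := by
  obtain rfl : g ∘ f = h := funext e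
  have k := (pbc d V.X d' V'.X f1a k1b').2.2 d'' V''.X f g hf hg
  exact congrFun ((pb1T d V.X d'' V''.X _ k.1).2.1 _ _ (k.2 T T' hT hT') hS) u

theorem uniq11 {a : Fld V} {u v : Fs V} (hu : Is11 a u) (hv : Is11 a v) : u = v :=
  (g1T d V.X).ext u v fun x => ⟨_, atc x, (hu _ x (atc x)).trans (hv _ x (atc x)).symm⟩

theorem smo {D p N : ℕ} {V : Mf D} {Z : Mf p} {f : V.X → Z.X} {W : Set Z.X} {M : Mf N}
    {Ψ : V.X → M.X} {Θ : Z.X → M.X → V.X} (h : Tv f W M Ψ Θ) (t) (ht : t ∈ W) :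
    Smo N D (Θ t) := by
  refine ⟨continuous_iff_continuousAt.2 fun z =>
    (h.Θc t ht z).comp (f := fun z => (t, z)) (by fun_prop), fun e e' z he he' => ?_⟩
  have k := (h.Θs t ht z _ e e' (atc t) he he').comp (f := fun w => (chartAt (Cm p) t t, w)) (e z)
    (by fun_prop)
  simpa only [Function.comp_def, (chartAt (Cm p) t).left_inv (mem_chart_source _ t)] using k

end Flt

open Flt in
theorem flt_of (L : LAT) (P : PBR) : FLT where
  symm {n _ _} Y Y' φ hs h := ⟨hs, fun T hT u hu => by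
    obtain ⟨T', hT'⟩ := pb_ex h.1
    rw [← h.2 T' hT' _ ((L.mark.pb hs hT u).1 hu), pb_comp h.1 hs φ.symm_apply_apply hT' hT
      (pbc (n + n) Y.V.X (n + n) Y.V.X f1a k1b').1, id]⟩
  smo := smo
  flat := by
    intro n r D p B V Z f W M Ψ Θ hV hM hW h a v ha t ht t' ht' Y Y' i i' hi hi' m m' hc
    obtain ⟨u, hu⟩ := L.d11.ex ha
    have cu := (L.d11.cl ha hu).1
    choose T hT using fun s : W => pb_ex (smo h s.1 s.2)
    have cT : ∀ s, Cl2 M.V (T s u) := fun s => (L.mark.pb (smo h s.1 s.2) (hT s) u).1 cu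
    have key : ∀ (s : W) (Y : MK B) (i : Y.V.X → V.X), Emb (n + n) D i (f ⁻¹' {s.1}) →
        Y.Mor M (fun z => Ψ (i z)) → ∃ w, Is11 (V := Y.V) (pullM i a) w ∧ Cl2 Y.V w ∧
          Y.m.c w = M.m.c (T s u) := fun s Y i hi m => by
      obtain ⟨S, hS⟩ := pb_ex (P.smo hi.hol)
      obtain ⟨R, hR⟩ := pb_ex m.1
      refine ⟨S u, P.is11 hi.hol hS hu, (L.mark.pb (P.smo hi.hol) hS u).1 cu, ?_⟩
      rw [← m.2 R hR _ (cT s), pb_comp m.1 (smo h s.1 s.2) (fun z => ?_) hR (hT s) hS]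
      have e : f (i z) = s.1 := (hi.rng.le (mem_range_self z) : i z ∈ f ⁻¹' {s.1})
      rw [← e]
      exact h.h2 _ (e ▸ s.2)
    obtain ⟨w, w1, -, w3⟩ := key ⟨t, ht⟩ Y i hi m
    obtain ⟨w', w1', w2', w3'⟩ := key ⟨t', ht'⟩ Y' i' hi' m'
    obtain ⟨-, w₀, a1, -, a3⟩ := hc
    refine ⟨P.r11 hi'.hol ha, w', w1', w2', ?_⟩
    have _ : PreconnectedSpace W := Subtype.preconnectedSpace hW
    have x := L.mark.htpy hM hV (fun s : W => Θ s.1) T (continuous_iff_continuousAt.2 fun q =>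
      (h.Θc q.1.1 q.1.2 q.2).comp (f := fun q : W × M.V.X => (q.1.1, q.2)) (by fun_prop))
      (fun s => smo h s.1 s.2) hT u cu ⟨t', ht'⟩ ⟨t, ht⟩
    have c : Cl2 M.V (T ⟨t', ht'⟩ u - T ⟨t, ht⟩ u) :=
      ⟨by rw [map_sub, (cT _).1, (cT _).1, sub_zero], by rw [map_sub, (cT _).2, (cT _).2]⟩
    rw [w3', ← a3, uniq11 a1 w1, w3, ← sub_eq_zero, ← map_sub]
    exact (M.m.ker _ c).2 x

end Vale.Agent.P301Z.Al
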