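import Vale.Agent.P301Z.Sk
import Vale.Agent.P301Z.Lat.Sk
import Vale.Agent.P301Z.Ry.Defs
import Vale.Agent.P301Z.Al.Defs
import Vale.Agent.P281Z.Rs.Defs

/-!
# P301, block ALG: polarised families, marked points, sheets (definitions, statements)
-/

open scoped Manifold ContDiff ComplexOrder Topology Matrix
open Set Filter Metric
open Vale.Agent.P272.K Vale.Agent.P299.IX Vale.Agent.P299.IX.Fock
open Vale.Agent.P277Z (Hol)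
open Vale.Agent.P277Z.Slc (Snc dd)
open Vale.Agent.P281Z (Mf HolM Emb Thin Sbm)
open Vale.Agent.P281Z.Hg
open Vale.Agent.P299.D (pullM jacF)
open Vale.Agent.P301.H599 (IsHolTwoForm LineBundle IsMetric curvature SameClass)
open Vale.Agent.P301Z.Lat

noncomputable section

namespace Vale.Agent.P301Z.Al

variable {n r σ D p : ℕ} {B : BB n r}

/-! ### The lattice -/

/-- `x` is orthogonal to the frame -/
def Perp (F : Fr B) (x : Fin r → ℝ) : Prop :=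
  qR B.q x (zr F.l) = 0 ∧ qR B.q x (zr F.m) = 0 ∧ qR B.q x (zr F.v) = 0

/-- the classes `H a` span the complement of the frame, `k` is a positive combination -/
structure Pol (F : Fr B) (k : Fin r → ℝ) (c : Fin σ → ℝ) (H : Fin σ → Fin r → ℝ) : Prop where
  inP : F.InP k
  pos : ∀ a, 0 < c a
  sum : k = ∑ a, c a • H a
  perp : ∀ a, Perp F (H a)
  span : ∀ x, Perp F x → x ∈ Submodule.span ℝ (range H)

/-- integral matrices -/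
abbrev ZM (r : ℕ) : Type := Matrix (Fin r) (Fin r) ℤ

/-- integral matrices as complex matrices -/
def zC (A : ZM r) : Matrix (Fin r) (Fin r) ℂ := A.map fun x => (x : ℂ)

/-- integral isometries which fix the complement of the frame -/
structure IsoP (F : Fr B) (A : ZM r) : Prop where
  unit : IsUnit A
  iso : Aᵀ * B.q * A = B.q
  fix : ∀ x, Perp F x → zC A *ᵥ rc x = rc x

/-- coordinates in the frame -/
def fr (F : Fr B) (v : Fin 3 → ℂ) : Fin r → ℂ :=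
  (v 0 / (F.D : ℂ)) • rc (zr F.l) + v 1 • rc (zr F.v) + v 2 • rc (zr F.m)

/-- **ARI**: the arithmetic group -/
structure ARI : Prop where
  sg : ∀ {n r : ℕ} {B : BB n r} (F : Fr B) (τ : ℂ), fr F (Ry.sg F.e τ) = F.p τ
  inj : ∀ {n r : ℕ} {B : BB n r} (F : Fr B), Function.Injective (fr F)
  smul : ∀ {n r : ℕ} {B : BB n r} (F : Fr B) (c : ℂ) v, fr F (c • v) = c • fr F v
  ql : ∀ {n r : ℕ} {B : BB n r} (F : Fr B) (τ : ℂ), qC B.q (F.p τ) (rc (zr F.l)) = F.D ∧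
    qC B.q (F.p τ) (rc (zr F.v)) = F.e * τ ∧
    qC B.q (F.p τ) (star (F.p τ)) = ((2 * F.e * τ.im ^ 2 : ℝ) : ℂ) ∧
    ∀ x, Perp F x → qC B.q (F.p τ) (rc x) = 0
  per : ∀ {n r : ℕ} {B : BB n r} (F : Fr B) (π : Fin r → ℂ), qC B.q π π = 0 →
    0 < qC B.q π (star π) → (∀ x, Perp F x → qC B.q π (rc x) = 0) →
    ∃ (c τ : ℂ), c ≠ 0 ∧ τ.im ≠ 0 ∧ π = c • F.p τ
  grp : ∀ {n r : ℕ} {B : BB n r} (F : Fr B), ∃ (G : Type) (_ : Group G) (ι : G →* ZM r)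
    (ρ : G →* Matrix (Fin 3) (Fin 3) ℝ), Ry.Arith F.e ρ ∧ Function.Injective ι ∧
      (∀ A, IsoP F A ↔ A ∈ range ι) ∧ ∀ g v, zC (ι g) *ᵥ fr F v = fr F (Ry.ap (ρ g) v)

/-- **KC**: integral Kähler classes near a Kähler class -/
def KC : Prop := ∀ (n r : ℕ) (B : BB n r) (F : Fr B) (Y : MK B) (s w : Fld Y.V) (τ : ℂ)
  (k : Fin r → ℝ), F.InP k → Y.HK s w (F.p τ) k → ∃ (σ : ℕ) (h : Fin σ → Fin r → ℤ)
    (c : Fin σ → ℝ), 0 < σ ∧ Pol F k c (fun a => (2 * Real.pi) • zr (h a)) ∧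
      ∀ a, ∃ w' : Fld Y.V, Y.Kc w' ((2 * Real.pi) • zr (h a))

/-! ### Families -/

/-- a family with closed forms `η a` and a Kähler form in the class `∑ c a • η a` on the fibres -/
structure PF (D p N : ℕ) (c : Fin σ → ℝ) : Type 1 extends Fy D p N where
  conn : ConnectedSpace Z.X
  thin : Thin p Uᶜ
  onto : ∀ t ∈ U, ∃ x, f x = t
  W : Fld V
  kah : IsKahler W
  η : Fin σ → Fld V
  r11 : ∀ a, R11 (η a)
  cls : ∀ t ∈ U, ∀ (Y : Mf N) (i : Y.X → V.X), Emb N D i (f ⁻¹' {t}) →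
    SameClass (d := N) (pullM i W) fun e z => ∑ a, (c a : ℂ) • pullM i (η a) e z

/-- the form `w` is the curvature form of a line bundle -/
def IsCurv {N : ℕ} {Y : Mf N} (w : Fld Y) : Prop :=
  ∃ (L : LineBundle N Y.X Y.X) (ρ : Y.X → Y.X → ℝ), IsMetric L ρ ∧
    ∀ e x, At e x → curvature L ρ e (e x) = w e (e x)

/-- **EMBF**: embeddings by several line bundles -/
def EMBF : Prop := ∀ (N σ : ℕ) (ι : Type) (Y : ι → Mf N) (w : ∀ i, Fin σ → Fld (Y i))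
  (I : Set ι), 0 < σ → ¬ I.Countable → (∀ i ∈ I, ∀ a, IsKahler (w i a) ∧ IsCurv (w i a)) →
  ∃ (J : Set ι) (m : ℕ) (P : Mf m) (η : Fin σ → Fld P) (φ : ∀ i, (Y i).X → P.X), J ⊆ I ∧
    ¬ J.Countable ∧ P.Prj ∧ (∀ a, R11 (η a)) ∧
    (∀ c : Fin σ → ℝ, (∀ a, 0 < c a) → IsKahler fun e z => ∑ a, (c a : ℂ) • η a e z) ∧
    ∀ i ∈ J, Emb N m (φ i) (range (φ i)) ∧
      ∀ a, SameClass (d := N) (pullM (φ i) (η a)) (w i a)

/-- the family `G'` over a curve is the pull back of `G` along `g`, with a normal crossing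
divisor over the finite set of the bad points -/
structure Crv {N : ℕ} {c : Fin σ → ℝ} (G : PF D p N c) (G' : PF (N + 1) 1 N c)
    (g : G'.Z.X → G.Z.X) : Prop where
  hol : HolM 1 p g
  fin : G'.Uᶜ.Finite
  snc : ∃ (m : ℕ) (E : Fin m → Set G'.V.X), Snc (N + 1) E ∧ ∀ y, G'.f y ∈ G'.Uᶜ ↔ ∃ l, y ∈ E l
  maps : ∀ t ∈ G'.U, g t ∈ G.U
  lift : ∀ t ∈ G'.U, ∀ (Y : Mf N) (i : Y.X → G.V.X), Emb N D i (G.f ⁻¹' {g t}) →
    ∃ i' : Y.X → G'.V.X, Emb N (N + 1) i' (G'.f ⁻¹' {t}) ∧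
      ∀ a, SameClass (d := N) (pullM i' (G'.η a)) (pullM i (G.η a))

/-- **GF**: the geometric families -/
def GF : Prop := ∀ (N σ : ℕ) (ι : Type) (Y : ι → Mf N) (w : ∀ i, Fin σ → Fld (Y i))
  (I : Set ι) (c : Fin σ → ℝ), 0 < N → 0 < σ → ¬ I.Countable → (∀ a, 0 < c a) →
  (∀ i ∈ I, ConnectedSpace (Y i).X ∧ ∀ a, IsKahler (w i a) ∧ IsCurv (w i a)) →
  ∃ (J : Set ι) (p : ℕ) (G : PF (p + N) p N c) (z : ι → G.Z.X) (j : ∀ i, (Y i).X → G.V.X),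
    J ⊆ I ∧ ¬ J.Countable ∧ (∀ i ∈ J, z i ∈ G.U ∧ Emb N (p + N) (j i) (G.f ⁻¹' {z i}) ∧
      ∀ a, SameClass (d := N) (pullM (j i) (G.η a)) (w i a)) ∧
    ∀ t ∈ G.U, ∀ u : G.Z.X → ℂ, Hol p u t → ¬ (∀ᶠ t' in 𝓝 t, u t' = u t) →
      ∃ (G' : PF (N + 1) 1 N c) (g : G'.Z.X → G.Z.X) (o : G'.Z.X), Crv G G' g ∧ g o = t ∧
        ¬ ∀ᶠ t' in 𝓝 o, u (g t') = u t

/-- a smooth trivialisation over `W` -/
structure Tv {N : ℕ} {V : Mf D} {Z : Mf p} (f : V.X → Z.X) (W : Set Z.X) (M : Mf N)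
    (Ψ : V.X → M.X) (Θ : Z.X → M.X → V.X) : Prop where
  h1 : ∀ t ∈ W, ∀ z, f (Θ t z) = t ∧ Ψ (Θ t z) = z
  h2 : ∀ y, f y ∈ W → Θ (f y) (Ψ y) = y
  Ψc : ∀ y, f y ∈ W → ContinuousAt Ψ y
  Ψs : ∀ y, f y ∈ W → ∀ (e : Chart D V.X) (e' : Chart N M.X), At e y → At e' (Ψ y) →
    ContDiffAt ℝ ∞ (fun z => e' (Ψ (e.symm z))) (e y)
  Θc : ∀ t ∈ W, ∀ z, ContinuousAt (fun q : Z.X × M.X => Θ q.1 q.2) (t, z)
  Θs : ∀ t ∈ W, ∀ z, ∀ (χ : Chart p Z.X) (e' : Chart N M.X) (e : Chart D V.X), At χ t → At e' z →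
    At e (Θ t z) →
    ContDiffAt ℝ ∞ (fun q : Cm p × Cm N => e (Θ (χ.symm q.1) (e'.symm q.2))) (χ t, e' z)

/-- **TRV**: the theorem of Ehresmann -/
def TRV : Prop := ∀ (D p N : ℕ) (G : Fy D p N), G.V.Kah → (∀ t ∈ G.U, ∃ x, G.f x = t) →
  ∀ t₀ ∈ G.U, ∀ (M : Mf N) (i₀ : M.X → G.V.X), Emb N D i₀ (G.f ⁻¹' {t₀}) →
  ∃ (W : Set G.Z.X) (Ψ : G.V.X → M.X) (Θ : G.Z.X → M.X → G.V.X), IsOpen W ∧ t₀ ∈ W ∧ W ⊆ G.U ∧
    IsPreconnected W ∧ Tv G.f W M Ψ Θ ∧ (∀ z, Θ t₀ z = i₀ z) ∧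
    ∀ t ∈ W, ∀ (Y : Mf N) (i : Y.X → G.V.X), Emb N D i (G.f ⁻¹' {t}) →
      ∃ φ : Y.X ≃ₜ M.X, (∀ z, φ z = Ψ (i z)) ∧ Smo N N φ ∧ Smo N N φ.symm ∧ Ori N φ ∧
        Ori N φ.symm

/-- **PBR**: pull backs under holomorphic maps -/
structure PBR : Prop where
  smo : ∀ {d d' : ℕ} {V : Mf d} {V' : Mf d'} {f : V.X → V'.X}, HolM d d' f → Smo d d' f
  r11 : ∀ {d d' : ℕ} {V : Mf d} {V' : Mf d'} {f : V.X → V'.X} {a : Fld V'}, HolM d d' f →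
    R11 a → R11 (V := V) (pullM f a)
  is11 : ∀ {d d' : ℕ} {V : Mf d} {V' : Mf d'} {f : V.X → V'.X} {a : Fld V'} {u : Fs V'}
    {T : Fs V' → Fs V}, HolM d d' f → IsPb f T → Is11 a u → Is11 (V := V) (pullM f a) (T u)
  is20 : ∀ {d d' : ℕ} {V : Mf d} {V' : Mf d'} {f : V.X → V'.X} {s : Fld V'} {u : Fs V'}
    {T : Fs V' → Fs V}, HolM d d' f → IsPb f T → IsHolTwoForm s → Is20 s u →
    ∃ s' : Fld V, IsHolTwoForm s' ∧ Is20 s' (T u) ∧ ∀ e e' x, At e x → At e' (f x) →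
      s' e (e x) = (jacF f e e' x)ᵀ * s e' (e' (f x)) * jacF f e e' x
  comp : ∀ {d d' d'' : ℕ} {V : Mf d} {V' : Mf d'} {V'' : Mf d''} {f : V.X → V'.X}
    {g : V'.X → V''.X} {a : Fld V''}, HolM d d' f → HolM d' d'' g → R11 a →
    ∀ (e : Chart d V.X) x, At e x →
    pullM (fun y => g (f y)) a e (e x) = pullM f (pullM g a : Fld V') e (e x)
  fac : ∀ {d D : ℕ} {Y Y' : Mf d} {V : Mf D} {i : Y.X → V.X} {i' : Y'.X → V.X} {S : Set V.X},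
    Emb d D i S → Emb d D i' S → ∃ φ : Y.X ≃ₜ Y'.X, (∀ z, i' (φ z) = i z) ∧ HolM d d φ ∧
      HolM d d φ.symm ∧ Ori d φ ∧ ∀ (e : Chart d Y.X) (e' : Chart d Y'.X) z, At e z →
        At e' (φ z) → (jacF φ e e' z).det ≠ 0

/-- **CAN**: the canonical bundles of the fibres -/
def CAN : Prop := ∀ (D p N : ℕ) (G : Fy D p N), G.V.Kah → ∃ ric : Fld G.V, R11 ric ∧
  ∀ t ∈ G.U, ∀ (Y : Mf N) (i : Y.X → G.V.X), Emb N D i (G.f ⁻¹' {t}) →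
    (∃ φ : Chart N Y.X → Cm N → ℝ, IsCanonicalMetric φ ∧
      R11 (V := Y) (fun e z => cHess (φ e) z) ∧
      ∀ e x, At e x → cHess (φ e) (e x) = pullM i ric e (e x)) ∧
    ∀ s : Fld Y, IsHolTwoForm s → (∀ e x, At e x → (s e (e x)).det ≠ 0) →
      SameClass (d := N) (pullM i ric) fun _ _ => 0

/-- the forms of the fibres over `W` are locally restrictions of holomorphic forms -/
def RelS {V : Mf D} {Z : Mf p} (f : V.X → Z.X) (W : Set Z.X) (Φ : Z.X → Fb B V) : Prop :=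
  ∀ y, f y ∈ W → ∀ e : Chart D V.X, At e y → ∃ S : Cm D → Mx D,
    (∀ a b, AnalyticAt ℂ (fun z => S z a b) (e y)) ∧ ∀ᶠ y' in 𝓝 y, ∀ t ∈ W, ∀ z,
      (Φ t).i z = y' → ∀ e' : Chart (n + n) (Φ t).Y.V.X, At e' z →
        (Φ t).s e' (e' z) = (jacF (Φ t).i e' e z)ᵀ * S (e y') * jacF (Φ t).i e' e z

/-- the family of forms `u` is smooth at `t₀` and its antiholomorphic derivatives are exact -/
def DbEx {N : ℕ} {M : Mf N} (u : Cm p → Fs M) (t₀ : Cm p) : Prop :=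
  (∀ e x, At e x → ∀ I,
    ContDiffAt ℝ ∞ (fun q : Cm p × Cm N => vl (u q.1) e q.2 I) (t₀, e x)) ∧
  ∀ j, ∃ β, Ex2 M β ∧ ∀ e x, At e x → ∀ I,
    dzb j (fun t => vl (u t) e (e x) I) t₀ = vl β e (e x) I

/-- **HOLA**: the formula of Cartan -/
def HOLA : Prop := ∀ (n r D p : ℕ) (B : BB n r) (V : Mf D) (Z : Mf p) (f : V.X → Z.X)
  (W : Set Z.X) (Φ : Z.X → Fb B V) (M : Mf (n + n)) (Ψ : V.X → M.X) (Θ : Z.X → M.X → V.X)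
  (u : Z.X → Fs M), HolM D p f → IsOpen W → (∀ y, f y ∈ W → Sbm D p f y) → Tv f W M Ψ Θ →
  RelS f W Φ → (∀ t ∈ W, Emb (n + n) D (Φ t).i (f ⁻¹' {t}) ∧ IsHolTwoForm (Φ t).s ∧
    ∃ (v : Fs (Φ t).Y.V) (ψ : M.X → (Φ t).Y.V.X) (T : Fs (Φ t).Y.V → Fs M), Is20 (Φ t).s v ∧
      Cl2 (Φ t).Y.V v ∧ (∀ z, (Φ t).i (ψ z) = Θ t z) ∧ Smo (n + n) (n + n) ψ ∧ IsPb ψ T ∧
      u t = T v) →
  ∀ t ∈ W, ∀ χ : Chart p Z.X, At χ t → DbEx (fun w => u (χ.symm w)) (χ t)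

/-- **HOLB**: the class of such a family is holomorphic -/
def HOLB : Prop := ∀ (n r p : ℕ) (B : BB n r) (M : MK B) (u : Cm p → Fs M.V) (t₀ : Cm p),
  (∀ᶠ t in 𝓝 t₀, Cl2 M.V (u t)) → DbEx u t₀ →
  ∀ i, DifferentiableAt ℂ (fun t => M.m.c (u t) i) t₀

/-! ### Marked points and sheets -/

variable {c : Fin σ → ℝ}

/-- `y` is a marked fibre over `t` with the period `p τ` -/
structure MP (F : Fr B) (H : Fin σ → Fin r → ℝ) (G : PF D p (n + n) c) (t : G.Z.X) (τ : ℂ)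
    (y : Fb B G.V) : Prop where
  mem : t ∈ G.U
  emb : Emb (n + n) D y.i (G.f ⁻¹' {t})
  cls : ∀ a, y.Y.C11 (pullM y.i (G.η a)) (H a)
  sym : y.Y.Sym y.s (F.p τ)

/-- the markings of `y` and `y'` differ by `A` -/
def Tw {V : Mf D} (A : ZM r) (y y' : Fb B V) : Prop :=
  ∃ φ : y.Y.V.X → y'.Y.V.X, (∀ z, y'.i (φ z) = y.i z) ∧ Smo (n + n) (n + n) φ ∧
    ∀ T : Fs y'.Y.V → Fs y.Y.V, IsPb φ T → ∀ u, Cl2 y'.Y.V u →
      y.Y.m.c (T u) = zC A *ᵥ y'.Y.m.c u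

/-- **TWA**: two markings differ by an isometry -/
structure TWA : Prop where
  alg : ∀ {n r : ℕ} (B : BB n r) (A : ZM r) (x : Fin r → ℝ), 0 < qR B.q x x →
    zC A *ᵥ rc x = rc x → (∀ v, qC B.q (zC A *ᵥ v) (zC A *ᵥ v) ^ n = qC B.q v v ^ n) →
    Aᵀ * B.q * A = B.q
  ex : ∀ {d r : ℕ} {V : Mf d} (m m' : Mark V r), ∃ A : ZM r, IsUnit A ∧
    ∀ u, Cl2 V u → m.c u = zC A *ᵥ m'.c u
  tw : ∀ {n r : ℕ} {B : BB n r} (Y : MK B) (A : ZM r), IsUnit A → Aᵀ * B.q * A = B.q →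
    ∃ m : Mark Y.V r, Fuj B m ∧ ∀ u, m.c u = zC A *ᵥ Y.m.c u

/-- **TW**: twists of marked points -/
def TW : Prop := ∀ (n r σ D p : ℕ) (B : BB n r) (F : Fr B) (k : Fin r → ℝ) (c : Fin σ → ℝ)
  (H : Fin σ → Fin r → ℝ) (G : PF D p (n + n) c) (t : G.Z.X), Pol F k c H →
  (∀ τ y, MP F H G t τ y → y.Y.HK y.s (pullM y.i G.W) (F.p τ) k ∧ τ.im ≠ 0 ∧ Tw 1 y y ∧
    ∀ A, IsoP F A → ∃ τ' y', MP F H G t τ' y' ∧ Tw A y' y) ∧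
  (∀ τ y τ' y', MP F H G t τ y → MP F H G t τ' y' → (∃ A, IsoP F A ∧ Tw A y y') ∧
    (∀ A A', Tw A y y' → Tw A' y y' → A = A') ∧
    (Tw 1 y y' → τ = τ' ∧ Iso y.toPt y'.toPt) ∧
    ∀ A, Tw A y y' → ∃ (lam : ℂ) (φ : y.Y.V.X → y'.Y.V.X), lam ≠ 0 ∧
      zC A *ᵥ F.p τ' = lam • F.p τ ∧ HolM (n + n) (n + n) φ ∧ (∀ z, y'.i (φ z) = y.i z) ∧
      ∀ e e' z, At e z → At e' (φ z) →
        lam • y.s e (e z) = (jacF φ e e' z)ᵀ * y'.s e' (e' (φ z)) * jacF φ e e' z) ∧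
  ∀ τ y τ' y' τ'' y'' A A', MP F H G t τ y → MP F H G t τ' y' → MP F H G t τ'' y'' →
    Tw A y y' → Tw A' y' y'' → Tw (A * A') y y''

/-- a flat family of marked points -/
structure Sh (F : Fr B) (H : Fin σ → Fin r → ℝ) (G : PF D p (n + n) c) : Type 1 where
  W : Set G.Z.X
  opn : IsOpen W
  τ : G.Z.X → ℂ
  hol : ∀ t ∈ W, Hol p τ t
  Φ : G.Z.X → Fb B G.V
  mp : ∀ t ∈ W, MP F H G t (τ t) (Φ t)
  M : MK B
  kM : M.V.Kah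
  Ψ : G.V.X → M.V.X
  Θ : G.Z.X → M.V.X → G.V.X
  tv : Tv G.f W M.V Ψ Θ
  mor : ∀ t ∈ W, (Φ t).Y.Mor M fun z => Ψ ((Φ t).i z)
  rel : RelS G.f W Φ

/-- **PER**: sheets exist -/
def PER : Prop := ∀ (n r σ D p : ℕ) (B : BB n r) (F : Fr B) (k : Fin r → ℝ) (c : Fin σ → ℝ)
  (H : Fin σ → Fin r → ℝ) (G : PF D p (n + n) c), Pol F k c H → (∃ t τ y, MP F H G t τ y) →
  ∀ t ∈ G.U, ∃ S : Sh F H G, t ∈ S.W

/-- **LOCU**: the twist of two sheets is locally constant -/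
def LOCU : Prop := ∀ (n r σ D p : ℕ) (B : BB n r) (F : Fr B) (k : Fin r → ℝ) (c : Fin σ → ℝ)
  (H : Fin σ → Fin r → ℝ) (G : PF D p (n + n) c) (S S' : Sh F H G) (A : ZM r), Pol F k c H →
  ∀ t ∈ S.W, t ∈ S'.W → Tw A (S.Φ t) (S'.Φ t) → ∀ᶠ t' in 𝓝 t, Tw A (S.Φ t') (S'.Φ t')

/-- **SHT**: twisting and shrinking a sheet -/
def SHT : Prop := ∀ (n r σ D p : ℕ) (B : BB n r) (F : Fr B) (k : Fin r → ℝ) (c : Fin σ → ℝ)
  (H : Fin σ → Fin r → ℝ) (G : PF D p (n + n) c) (S : Sh F H G) (A : ZM r) (W : Set G.Z.X)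
  (τ : G.Z.X → ℂ) (Φ : G.Z.X → Fb B G.V), Pol F k c H → IsoP F A → IsOpen W → W ⊆ S.W →
  (∀ t ∈ W, MP F H G t (τ t) (Φ t) ∧ Tw A (Φ t) (S.Φ t)) →
  ∃ S' : Sh F H G, S'.W = W ∧ S'.τ = τ ∧ S'.Φ = Φ

/-- **SLF**: a sheet is a local family where the period is a submersion -/
def SLF : Prop := ∀ (n r σ D b : ℕ) (B : BB n r) (F : Fr B) (k : Fin r → ℝ) (c : Fin σ → ℝ)
  (H : Fin σ → Fin r → ℝ) (G : PF D (b + 1) (n + n) c) (S : Sh F H G), Pol F k c H →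
  ∀ t ∈ S.W, 0 < (S.τ t).im → dd S.τ (chartAt (Cm (b + 1)) t) t ≠ 0 →
  ∃ (κ : OpenPartialHomeomorph G.Z.X (Cm (b + 1))) (δ₀ : ℝ), t ∈ κ.source ∧ κ.source ⊆ S.W ∧
    (∀ t' ∈ κ.source, κ t' 0 = S.τ t') ∧ 0 < δ₀ ∧ ball (κ t) δ₀ ⊆ κ.target ∧
    ∀ δ, 0 < δ → δ ≤ δ₀ → ∃ L : LF F k G.W b (κ t) δ, ∀ w, L.Φ w = S.Φ (κ.symm w)

/-- **CVAL**: critical values are countable -/
def CVAL : Prop := ∀ (p : ℕ) (Z : Mf p) (W : Set Z.X) (u : Z.X → ℂ), IsOpen W →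
  (∀ t ∈ W, Hol p u t) → (u '' {t | t ∈ W ∧ dd u (chartAt (Cm p) t) t = 0}).Countable

/-- **RAYA**: the rays of a family over a curve -/
def RAYA : Prop := ∀ (n r σ : ℕ) (B : BB n r) (F : Fr B) (k : Fin r → ℝ) (c : Fin σ → ℝ)
  (H : Fin σ → Fin r → ℝ) (G : PF (n + n + 1) 1 (n + n) c), Pol F k c H → G.Uᶜ.Finite →
  (∃ (m : ℕ) (E : Fin m → Set G.V.X), Snc (n + n + 1) E ∧ ∀ y, G.f y ∈ G.Uᶜ ↔ ∃ l, y ∈ E l) →
  ¬ {τ | ∃ t y, MP F H G t τ y}.Countable →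
  ∃ Z : Set ℝ, Z.Countable ∧ ∀ x T : ℝ, x ∉ Z → 0 < T → ∀ t y,
    MP F H G t (x + T * Complex.I) y → ∃ R : Ray F k x, Iso y.toPt (R.R R.T₁).toPt

end Vale.Agent.P301Z.Al
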