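import Vale.Agent.P301Z.Al.Rz
import Vale.Agent.P301Z.Al.Sk
import Vale.Agent.P301Z.Al.Geo
import Vale.Agent.P301Z.Al.Fam
import Vale.Agent.P301Z.Al.Cur

/-!
# P301, block ALG: the geometric families
-/

open scoped Manifold ContDiff Topology ComplexOrder
open Set Filter Function
open Vale.Agent.P272.K
open Vale.Agent.P277Z (Hol)
open Vale.Agent.P281Z
open Vale.Agent.P299.D (FormM pullM)
open Vale.Agent.P301.H599 (SameClass)
open Vale.Agent.P301Z.Lat

noncomputable section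

namespace Vale.Agent.P301Z.Al

namespace Md

variable {E N p D σ : ℕ} {Z : Mf p} {M : Mf D} {A : Set (Z.prod M).X} {B : Set Z.X}
  (R : Md E N Z M A B) {t : Z.X} {F : Mf N}

theorem lift (ht : t ∉ B) {i : F.X → M.X} (hi : Emb N D i (sl A t)) :
    ∃ i' : F.X → R.V.X, Emb N E i' (R.f ⁻¹' {t}) ∧ (fun y => R.π (i' y)) = i := by
  obtain ⟨g, a, b⟩ := (R.embM t ht).fac hi subset_rfl
  have c := (R.emb t ht).comp a
  rw [← (R.embM t ht).rng, preimage_range, image_univ, (R.emb t ht).rng] at c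
  exact ⟨_, c, funext b⟩

theorem push (ht : t ∉ B) {i : F.X → R.V.X} (hi : Emb N E i (R.f ⁻¹' {t})) :
    Emb N D (fun y => R.π (i y)) (sl A t) := by
  obtain ⟨g, a, b⟩ := (R.emb t ht).fac hi subset_rfl
  have c := (R.embM t ht).comp a
  rw [← (R.emb t ht).rng, preimage_range, image_univ, (R.embM t ht).rng] at c
  simpa only [b] using c

theorem ex (ht : t ∉ B) {y : M.X} (hy : y ∈ sl A t) : ∃ x, R.f x = t :=
  let ⟨u, _⟩ := (R.embM t ht).ex hy; ⟨_, (R.emb t ht).fib u⟩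

theorem surj [ConnectedSpace Z.X] (ht : t ∉ B) {y : M.X} (hy : y ∈ sl A t) : Surjective R.f := by
  obtain ⟨x, rfl⟩ := R.ex ht hy
  exact range_eq_univ.1 ((Ana.remm _ _ _ _ _ R.hf).eq_univ
    ((R.sbm x ht).map_nhds (R.hf.at x) ▸ range_mem_map))

theorem sc {d : ℕ} {F : Mf d} {a b b' : Fld F} (h : SameClass (d := d) a b)
    (k : ∀ e x, At e x → b' e (e x) = b e (e x)) : SameClass (d := d) a b' :=
  let ⟨u, s, l⟩ := h; ⟨u, s, fun e x he => (l e x he).trans (by rw [k e x he])⟩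

theorem sc' {d : ℕ} {F : Mf d} {a a' b : Fld F} (h : SameClass (d := d) a b)
    (k : ∀ e x, At e x → a' e (e x) = a e (e x)) : SameClass (d := d) a' b :=
  let ⟨u, s, l⟩ := h; ⟨u, s, fun e x he => (k e x he).trans (l e x he)⟩

theorem sc0 {d : ℕ} {F : Mf d} (a : Fld F) : SameClass (d := d) a a :=
  ⟨fun _ => 0, fun _ _ _ => contDiffAt_const, fun e x _ => by
    rw [P301.H599.ddc, cHess_const, add_zero]⟩

/-- the polarised family -/
def pf (hP : PBR) (h1 : ConnectedSpace Z.X) (h2 : Thin p B) (h3 : Surjective R.f)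
    {c : Fin σ → ℝ} {η : Fin σ → Fld M} (h4 : ∀ a, R11 (η a))
    (h5 : IsKahler fun e z => ∑ a, (c a : ℂ) • η a e z) : PF E p N c where
  toFy := R.fy
  conn := h1
  thin := (compl_compl B).symm ▸ h2
  onto t _ := h3 t
  W := (R.kah _ h5).choose
  kah := (R.kah _ h5).choose_spec.1
  η a := pullM R.π (η a)
  r11 a := hP.r11 R.hπ (h4 a)
  cls t ht Y i hi := sc ((R.kah _ h5).choose_spec.2 N Y i hi.hol t ht hi.fib) fun e x he => by
    simp only [← fun a => hP.comp hi.hol R.hπ (h4 a) e x he]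
    simp only [pullM, Matrix.mul_sum, Matrix.sum_mul, Matrix.mul_smul, Matrix.smul_mul]

end Md

/-- **GF** -/
theorem gf_of (hE : EMBF) (hP : PBR) (hU : UNIV) (hK : Pb.KODE) : GF := by
  intro N σ ι Y w I c hN hσ hI hc h
  obtain ⟨J, m, P, η, φ, a1, a2, a3, a4, a5, a6⟩ := hE N σ ι Y w I hσ hI fun i hi => (h i hi).2
  have ne : ∀ {J : Set ι}, ¬ J.Countable → J.Nonempty := fun k =>
    nonempty_iff_ne_empty.2 fun c => k (c ▸ countable_empty)
  have hm : N + (m - N) = m := by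
    obtain ⟨i, hi⟩ := ne a2
    obtain ⟨y⟩ := (h i (a1 hi)).1.toNonempty
    exact Nat.add_sub_cancel' ((a6 i hi).1.imm y).le
  obtain ⟨m', P', V, a, I', b1, b2, b3, b4, b5, b6⟩ := hU m N _ P ι (fun i => range (φ i)) J a3 hm
    a2 fun i hi => ⟨(a6 i hi).1.subM, (a6 i hi).1.closed⟩
  obtain ⟨F, hF⟩ := fam_of res m' m N _ P' P V ι a _ I' b1 b2 hm b4
    (fun i hi => ⟨Y i, φ i, (h i (a1 (b3 hi))).1, (a6 i (b3 hi)).1⟩) b5 b6
  obtain ⟨R⟩ := F.md hN hm F.prj.kah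
  have := F.conn
  have s : ∀ i ∈ F.J, sl F.A (F.zz i) = range (φ i) := fun i hi => Set.ext (F.fib i hi)
  have su : Surjective R.f := by
    obtain ⟨i, hi⟩ := ne F.unc
    obtain ⟨y⟩ := (h i (a1 (b3 (hF hi)))).1.toNonempty
    exact R.surj (F.off i hi) ((s i hi).ge (mem_range_self y))
  have k : ∀ i, ∃ j : (Y i).X → R.V.X, i ∈ F.J → Emb N (F.p + N) j (R.f ⁻¹' {F.zz i}) ∧
      (fun y => R.π (j y)) = φ i := fun i => by
    by_cases hi : i ∈ F.J
    · exact (R.lift (F.off i hi) ((s i hi).symm ▸ (a6 i (b3 (hF hi))).1)).imp fun _ k _ => k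
    · exact ⟨fun _ => (su (F.zz i)).choose, fun c => (hi c).elim⟩
  choose j hj using k
  refine ⟨F.J, F.p, R.pf hP this F.thin su a4 (a5 c hc), F.zz, j, fun i hi => a1 (b3 (hF hi)),
    F.unc, fun i hi => ⟨F.off i hi, (hj i hi).1, fun b => Md.sc' ((a6 i (b3 (hF hi))).2 b)
      fun e x he => ?_⟩, fun t ht u hu hn => ?_⟩
  · rw [← (hj i hi).2]
    exact (hP.comp (hj i hi).1.hol R.hπ (a4 b) e x he).symm
  obtain ⟨C, g, o, c1, c2, c3, rfl, c4⟩ := cur_of res hK _ F.Z t u F.prj hu hn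
  have th : Thin 1 (g ⁻¹' F.B) := Thin.pre_of_ex F.thin.an c3 ⟨o, ht⟩
  obtain ⟨R'⟩ := F.md_pb hm c3 c2.kah th.an fun t ht => ht
  obtain ⟨x, hx⟩ := su (g o)
  have su' : Surjective R'.f := R'.surj (t := o) (y := R.π x) ht (by
    have := R.ovr.maps x
    rwa [hx] at this)
  refine ⟨R'.pf hP c1 th su' a4 (a5 c hc), g, o, ⟨c3, (compl_compl (g ⁻¹' F.B)).symm ▸ fin1 C _ th,
    ⟨R'.r, R'.G, R'.snc, fun y => not_not.trans (R'.bad y)⟩, fun t ht => ht,
    fun t ht Y i hi => ?_⟩, rfl, c4⟩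
  obtain ⟨i', d1, d2⟩ := R'.lift ht (R.push ht hi)
  refine ⟨i', d1, fun b => Md.sc' (Md.sc0 _) fun e x he => ?_⟩
  exact ((hP.comp d1.hol R'.hπ (a4 b) e x he).symm.trans (by rw [d2])).trans
    (hP.comp hi.hol R.hπ (a4 b) e x he)

end Vale.Agent.P301Z.Al
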