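import Vale.Agent.P301Z.Al.Embf
import Vale.Agent.P301Z.Al.Mprod

/-!
# P301, block ALG: finite products with their Kähler forms
-/

open scoped Manifold ContDiff Topology ComplexOrder Matrix
open Set Filter
open Vale.Agent.P272.K
open Vale.Agent.P277Z (at_chart)
open Vale.Agent.P281Z
open Vale.Agent.P299.D (pullM jacF)
open Vale.Agent.P301Z.Lat

noncomputable section

namespace Vale.Agent.P301Z.Al

namespace Mpk2

theorem prod (r : ℕ) : ∀ (d : Fin r → ℕ) (V : ∀ a, Mf (d a)), (∀ a, (V a).Prj) →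
    (∀ a, ConnectedSpace (V a).X) → ∃ (m : ℕ) (P : Mf m) (π : ∀ a, P.X → (V a).X), P.Prj ∧
    ConnectedSpace P.X ∧ (∀ a, HolM m (d a) (π a)) ∧
    (∀ (n : ℕ) (W : Mf n) (f : ∀ a, W.X → (V a).X), (∀ a, HolM n (d a) (f a)) →
      ∃ g : W.X → P.X, HolM n m g ∧ ∀ a y, π a (g y) = f a y) ∧
    ∀ x (e : Chart m P.X) ξ, At e x →
      (∀ a, df (π a) e (chartAt (Cm (d a)) (π a x)) x ξ = 0) → ξ = 0 := by
  induction r with
  | zero =>
    intro d V _ _
    refine ⟨0, Rs.Zr.mf Unit, fun a => a.elim0, Rs.Zr.prj _, ?_, fun a => a.elim0,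
      fun n W f _ => ⟨fun _ => (), holM_const _, fun a => a.elim0⟩,
      fun _ _ _ _ _ => Subsingleton.elim _ _⟩
    have : Subsingleton (Rs.Zr.mf Unit).X := inferInstanceAs (Subsingleton Unit)
    have : Nonempty (Rs.Zr.mf Unit).X := inferInstanceAs (Nonempty Unit)
    exact { isPreconnected_univ := Set.subsingleton_univ.isPreconnected, toNonempty := this }
  | succ r ih =>
    intro d V hV hc
    obtain ⟨m, P, π, hP, hPc, hπ, hu, hj⟩ :=
      ih (fun a => d a.succ) (fun a => V a.succ) (fun a => hV _) fun a => hc _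
    have := hc 0
    refine ⟨d 0 + m, (V 0).prod P,
      fun a => Fin.cases (motive := fun a => ((V 0).prod P).X → (V a).X) ((V 0).p1 P)
        (fun a z => π a ((V 0).p2 P z)) a, prjp _ _ _ _ (hV 0) hP, prod_conn, fun a => ?_,
      fun n W f hf => ?_, fun x e ξ he h => ?_⟩
    · refine Fin.cases ?_ (fun a => ?_) a
      · exact hol_p1
      · exact (hπ a).comp hol_p2
    · obtain ⟨g, hg, hg'⟩ := hu n W (fun a => f a.succ) fun a => hf _
      refine ⟨fun y => (V 0).pair P (f 0 y) (g y), (hf 0).pair hg, fun a y => ?_⟩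
      refine Fin.cases ?_ (fun a => ?_) a
      · rfl
      · exact hg' a y
    · refine (imm_pair (hol_p1.at x) (hol_p2.at x) he (at_chart _) (at_chart _)).1 (imm_id x) ξ
        (h 0) (hj _ _ _ (at_chart ((V 0).p2 P x)) fun a => ?_)
      have k : df (fun z => π a ((V 0).p2 P z)) e (chartAt (Cm (d a.succ))
        (π a ((V 0).p2 P x))) x ξ = 0 := h a.succ
      rwa [df_comp ((hπ a).at _) (hol_p2.at x) he (at_chart _) (at_chart _)] at k

theorem r11_sum {d : ℕ} {V : Mf d} {κ : Type} {a : κ → Fld V} (h : ∀ i, R11 (a i))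
    (s : Finset κ) : R11 (V := V) fun e z => ∑ i ∈ s, a i e z := by
  classical
  induction s using Finset.induction_on with
  | empty =>
    exact ⟨⟨fun _ _ _ _ _ => by simpa using contDiffAt_const, fun _ _ _ _ _ => by simp,
      fun _ _ _ _ _ _ => by simp [dz]⟩, fun _ _ _ => by simp⟩
  | insert l s hl ih =>
    simp only [Finset.sum_insert hl]
    exact ⟨(h l).toIsClosedForm.add ih.toIsClosedForm,
      fun e x he => ((h l).herm e x he).add (ih.herm e x he)⟩

theorem quad {a b : ℕ} (J : Matrix (Fin b) (Fin a) ℂ) (W : Matrix (Fin b) (Fin b) ℂ) (v : Cm a) :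
    star v ⬝ᵥ ((Jᵀ * W * J.map (starRingEnd ℂ)) *ᵥ v) =
      star (star (J *ᵥ star v)) ⬝ᵥ (W *ᵥ star (J *ᵥ star v)) := by
  rw [star_star, Matrix.mul_assoc, ← Matrix.mulVec_mulVec, ← Matrix.mulVec_mulVec,
    Matrix.dotProduct_mulVec, Matrix.vecMul_transpose]
  congr 2
  funext i
  simp [Matrix.mulVec, dotProduct]

end Mpk2

theorem mpk_of' (h : PBR) : MPK := by
  intro r d V hV hc
  obtain ⟨m, P, π, p1, p2, p3, p4, p5⟩ := Mpk2.prod r d V hV hc
  refine ⟨m, P, π, p1, p2, p3, p4, fun w c hw h0 => ?_⟩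
  have hR := Mpk2.r11_sum (fun a => Embf.r11_smul (h.r11 (p3 a) (Embf.r11_kah (hw a))) (c a))
    Finset.univ
  refine ⟨⟨hR.smooth, fun e x he => .of_dotProduct_mulVec_pos (hR.herm e x he) fun v hv => ?_,
    hR.form⟩, fun e x he i j k => hR.closed e x he k i j⟩
  obtain ⟨a, ha⟩ := not_forall.1 (mt (p5 x e (star v) he) (star_ne_zero.2 hv))
  simp only [Matrix.sum_mulVec, dotProduct_sum, Matrix.smul_mulVec, dotProduct_smul,
    P299.H726.pullM_at he.2, Mpk2.quad]
  refine Finset.sum_pos' (fun b _ => smul_nonneg (Complex.zero_le_real.2 (h0 b).le)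
    (((hw b).posDef _ _ (at_chart _)).posSemidef.dotProduct_mulVec_nonneg _))
    ⟨a, Finset.mem_univ a, smul_pos (Complex.zero_lt_real.2 (h0 a))
      (((hw a).posDef _ _ (at_chart _)).dotProduct_mulVec_pos (star_ne_zero.2 ?_))⟩
  rw [P299.H726.jacF_mulVec (((p3 a).at x).an he (at_chart _)).differentiableAt]
  exact ha

end Vale.Agent.P301Z.Al
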