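import Vale.Agent.P301Z.Al.Univ
import Vale.Agent.P301Z.Al.Homp
import Vale.Agent.P301Z.Al.Cone
import Vale.Agent.P301Z.Al.Chow
import Vale.Agent.P301Z.Al.Eqm
import Vale.Agent.P301Z.Al.Parm
import Vale.Agent.P301Z.Al.Embf
import Vale.Agent.P301Z.Al.Mpk2
import Vale.Agent.P301Z.Al.Gf

/-!
# P301, block ALG: the geometric families
-/

namespace Vale.Agent.P301Z.Al

theorem chow : CHOW := chow_of cone_an homp

theorem univ' : UNIV := univ_of (eqm_of chow finj) parm zh

theorem gf (h : PBR) : GF := gf_of (embf_of h (mpk_of' h)) h univ' P281Z.Pb.kode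

end Vale.Agent.P301Z.Al
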