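import Vale.Agent.P301Z.Al.Sk2
import Vale.Agent.P301Z.Lat.Pk
import Vale.Agent.P281Z.Mf.Sub

/-!
# P301, block ALG: all fibres of a polarised family are marked points
-/

open scoped Manifold ContDiff ComplexOrder Topology Matrix
open Set Filter Metric
open Vale.Agent.P272.K
open Vale.Agent.P281Z (Mf HolM Emb kah_of_imm)
open Vale.Agent.P281Z.Hg
open Vale.Agent.P299.D (pullM)
open Vale.Agent.P301Z.Lat

noncomputable section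

namespace Vale.Agent.P301Z.Al

namespace Good

variable {n r σ D p : ℕ} {B : BB n r} {c : Fin σ → ℝ}

/-- the classes of the restrictions of the global forms -/
def Cls (H : Fin σ → Fin r → ℝ) (G : PF D p (n + n) c) (ric : Fld G.V) (Y : MK B)
    (i : Y.V.X → G.V.X) : Prop :=
  (∀ a, Y.C11 (pullM i (G.η a)) (H a)) ∧ Y.C11 (pullM i ric) 0

/-- some model of the fibre has the right classes -/
def Gd (B : BB n r) (H : Fin σ → Fin r → ℝ) (G : PF D p (n + n) c) (ric : Fld G.V) (t : G.Z.X) :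
    Prop :=
  ∃ (Y : MK B) (i : Y.V.X → G.V.X), Emb (n + n) D i (G.f ⁻¹' {t}) ∧ Cls H G ric Y i

/-- the given model of the fibre has the right classes -/
def Gs (B : BB n r) (H : Fin σ → Fin r → ℝ) (G : PF D p (n + n) c) (ric : Fld G.V) (t : G.Z.X) :
    Prop :=
  ∃ (sc : SimplyConnectedSpace (G.Y t).X) (m : Mark (G.Y t) r) (h : Fuj B m),
    Cls H G ric ⟨G.Y t, sc, m, h⟩ (G.j t)

theorem key (L : LAT) (T : TRV) (Fl : FLT) {H : Fin σ → Fin r → ℝ} {G : PF D p (n + n) c}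
    {ric : Fld G.V} (hr : R11 ric) {t₀ : G.Z.X} (h₀ : t₀ ∈ G.U) :
    ∃ W : Set G.Z.X, IsOpen W ∧ t₀ ∈ W ∧ W ⊆ G.U ∧
      ∀ t₁ ∈ W, Gd B H G ric t₁ → ∀ t ∈ W, Gs B H G ric t := by
  have e₀ := G.emb t₀ h₀
  obtain ⟨W, Ψ, Θ, hW, m₀, hU, hc, tv, -, hφ⟩ :=
    T D p (n + n) G.toFy ⟨G.W, G.kah⟩ G.onto t₀ h₀ (G.Y t₀) (G.j t₀) e₀
  refine ⟨W, hW, m₀, hU, fun t₁ h₁ ⟨Y₁, i₁, e₁, cl⟩ t ht => ?_⟩
  obtain ⟨φ₁, q₁, s₁, s₁', -, o₁'⟩ := hφ t₁ h₁ Y₁.V i₁ e₁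
  obtain ⟨sc, m, hf, hm⟩ := L.tr Y₁ (G.Y t₀) φ₁.symm s₁' s₁ o₁'
  have hm₁ := Fl.symm ⟨G.Y t₀, sc, m, hf⟩ Y₁ φ₁.symm s₁ hm
  obtain ⟨φ, q, s, s', o, -⟩ := hφ t ht (G.Y t) (G.j t) (G.emb t (hU ht))
  obtain ⟨sc', m', hf', hm'⟩ := L.tr ⟨G.Y t₀, sc, m, hf⟩ (G.Y t) φ s s' o
  have r₁ : (φ₁.symm.symm : Y₁.V.X → (G.Y t₀).X) = fun z => Ψ (i₁ z) := funext q₁
  have r₂ : (φ : (G.Y t).X → (G.Y t₀).X) = fun z => Ψ (G.j t z) := funext q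
  rw [r₁] at hm₁
  have hm₂ : MK.Mor ⟨G.Y t, sc', m', hf'⟩ ⟨G.Y t₀, sc, m, hf⟩ fun z => Ψ (G.j t z) := r₂ ▸ hm'
  have fl := fun a v ha => Fl.flat (M := ⟨G.Y t₀, sc, m, hf⟩) ⟨G.W, G.kah⟩
    ⟨_, kah_of_imm e₀.hol e₀.imm G.kah⟩ hc tv a v ha t₁ h₁ t ht Y₁ ⟨G.Y t, sc', m', hf'⟩ i₁ (G.j t)
    e₁ (G.emb t (hU ht)) hm₁ hm₂
  exact ⟨sc', m', hf', fun a => fl _ _ (G.r11 a) (cl.1 a), fl _ _ hr cl.2⟩

theorem c11_zero (L : LAT) {Y : MK B} {a : Fld Y.V} (ha : R11 a) : Y.C11 (fun _ _ => 0) 0 := by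
  obtain ⟨v, h⟩ := L.rel.c11 Y ha
  simpa using L.rel.add 0 0 h h

theorem c11_sum (L : LAT) {Y : MK B} {a : Fin σ → Fld Y.V} {v : Fin σ → Fin r → ℝ}
    (h0 : Y.C11 (fun _ _ => 0) 0) (h : ∀ i, Y.C11 (a i) (v i)) (s : Finset (Fin σ)) :
    Y.C11 (fun e z => ∑ i ∈ s, (c i : ℂ) • a i e z) (∑ i ∈ s, c i • v i) := by
  induction s using Finset.induction_on with
  | empty => simpa using h0
  | insert i s hi ih => simpa [Finset.sum_insert hi] using L.rel.add (c i) 1 (h i) ih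

theorem sym_smul (L : LAT) {Y : MK B} {s : Fld Y.V} {π : Fin r → ℂ} (h : Y.Sym s π) {a : ℂ}
    (ha : a ≠ 0) : Y.Sym (fun e z => a • s e z) (a • π) := by
  obtain ⟨⟨hs, u, h1, h2, h3⟩, hd⟩ := h
  refine ⟨⟨⟨fun e x hx i j => analyticAt_const.mul (hs.holo e x hx i j), fun e x hx => ?_,
    fun e e' x hx hx' => ?_⟩, a • u, fun e x hx => ?_, h2.smul _, ?_⟩, fun e x hx => ?_⟩
  · rw [Matrix.transpose_smul, hs.alt e x hx, smul_neg]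
  · rw [hs.change e e' x hx hx', Matrix.mul_smul, Matrix.smul_mul]
  · rw [vl_smul, h1 e x hx, L.pwa.f20_smul]
  · rw [map_smul, h3]
  · rw [Matrix.det_smul]
    exact mul_ne_zero (pow_ne_zero _ ha) (hd e x hx)

end Good

open Good in
theorem good_of (L : LAT) (A : ARI) (P : PBR) (T : TRV) (C : CAN) (Fl : FLT) : GOOD := by
  rintro n r σ D p B F k c H G hP ⟨t₁, τ₁, y, hy⟩ t ht
  obtain ⟨ric, hr, hC⟩ := C D p (n + n) G.toFy ⟨G.W, G.kah⟩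
  have g₁ : Gd B H G ric t₁ := by
    have r₁ := P.r11 hy.emb.hol hr
    exact ⟨y.Y, y.i, hy.emb, hy.cls, L.rel.same (c11_zero L r₁) r₁
      ((hC t₁ hy.mem y.Y.V y.i hy.emb).2 y.s hy.sym.1.1 hy.sym.2)⟩
  have sd : ∀ t ∈ G.U, Gs B H G ric t → Gd B H G ric t := fun t ht ⟨sc, m, h, cl⟩ =>
    ⟨⟨G.Y t, sc, m, h⟩, G.j t, G.emb t ht, cl⟩
  have g : Gd B H G ric t := by
    have := G.conn
    have pc : IsPreconnected G.U := compl_compl G.U ▸ G.thin.preconn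
    refine pc.induction₂' (fun a b => Gd B H G ric a → Gd B H G ric b) (fun a ha => ?_)
      (fun _ _ _ _ _ _ h h' => h' ∘ h) hy.mem ht g₁
    obtain ⟨W, hW, m, hU, h⟩ := key (B := B) (H := H) L T Fl hr ha
    filter_upwards [mem_nhdsWithin_of_mem_nhds (hW.mem_nhds m)] with b hb
    exact ⟨fun g => sd b (hU hb) (h a m g b hb), fun g => sd a ha (h b hb g a m)⟩
  obtain ⟨W, -, m, -, h⟩ := key (B := B) (H := H) L T Fl hr ht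
  obtain ⟨sc, mk, hf, cl⟩ := h t m g t m
  have e := G.emb t ht
  have kw := kah_of_imm e.hol e.imm G.kah
  have kc : MK.Kc ⟨G.Y t, sc, mk, hf⟩ (pullM (G.j t) G.W) k := by
    refine ⟨kw, L.rel.same ?_ (R11.kahler kw) (G.cls t ht _ _ e)⟩
    rw [hP.sum]
    exact c11_sum L (c11_zero L cl.2.1) cl.1 _
  obtain ⟨φ, hφ, rφ, eφ⟩ := (hC t ht _ _ e).1
  obtain ⟨-, u, u1, u2, u3⟩ := cl.2
  obtain ⟨s, π, hk⟩ := L.ihs ⟨G.Y t, sc, mk, hf⟩ φ kc (hP.inP.2.2.2.symm ▸ F.epos) hφ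
    ⟨rφ, u, fun e x hx => (u1 e x hx).trans (by rw [← eφ e x hx]), u2, u3⟩
  obtain ⟨c₀, τ, h₀, -, rfl⟩ := A.per F π (L.rel.pp hk.1.1 hk.1.1) (L.rel.ppb hk) fun x hx => by
    refine Submodule.span_induction (p := fun x _ => qC B.q π (rc x) = 0) ?_ ?_ ?_ ?_ (hP.span x hx)
    · rintro _ ⟨a, rfl⟩
      exact L.rel.p11 hk.1.1 (cl.1 a)
    · simp [rc_zero, qC]
    · intro x y _ _ hx hy
      rw [rc_add, qC_add_r, hx, hy, add_zero]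
    · intro a x _ hx
      rw [rc_smul, qC_smul_r, hx, mul_zero]
  have sy := sym_smul L hk.1 (inv_ne_zero h₀)
  rw [inv_smul_smul₀ h₀] at sy
  exact ⟨sc, mk, hf, _, τ, ht, e, cl.1, sy⟩

end Vale.Agent.P301Z.Al
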