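import Vale.Agent.P301Z.Al.Sk

/-!
# P301, block ALG: the homotopy formula at a point (statement)
-/

open scoped ContDiff Topology Matrix
open Vale.Agent.P272.K Vale.Agent.P299.IX Vale.Agent.P299.IX.Fock
open Vale.Agent.P281Z.Hg
open Vale.Agent.P301Z.Lat

noncomputable section

namespace Vale.Agent.P301Z.Al

/-- **CART**: the homotopy formula for holomorphic two-forms, contraction and pull back -/
structure CART : Prop where
  hom : ∀ {p N D : ℕ} {F : Cm p × Cm N → Cm D} {S : Cm D → Mx D} {t₀ : Cm p} {z : Cm N},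
    ContDiffAt ℝ ∞ F (t₀, z) → (∀ a b, AnalyticAt ℂ (fun y => S y a b) (F (t₀, z))) → ∀ j I,
    dzb j (fun t => (lr (jc (fun y => F (t, y)) z) *ᵥ f20 (S (F (t, z)))) I) t₀ =
      (dT (fun y => lr (jc (fun y => F (t₀, y)) y) *ᵥ
        (ctr (fun l => dzb j (fun t => F (t, y) l) t₀) *ᵥ f20 (S (F (t₀, y))))) z +
      lr (jc (fun y => F (t₀, y)) z) *ᵥ (ctr (fun l => dzb j (fun t => F (t, z) l) t₀) *ᵥ
        dT (fun y => f20 (S y)) (F (t₀, z)))) I
  ctr_lr : ∀ {N D : ℕ} {g : Cm N → Cm D} {z : Cm N} (ξ : Cm N), DifferentiableAt ℂ g z →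
    ctr ξ * lr (jc g z) = lr (jc g z) * ctr (fderiv ℂ g z ξ)
  lr20 : ∀ {N D : ℕ} {g : Cm N → Cm D} {z : Cm N} (S : Mx D), DifferentiableAt ℂ g z →
    lr (jc g z) *ᵥ f20 S = f20 ((Matrix.of fun l i => dz i (fun y => g y l) z : Matrix _ _ ℂ)ᵀ * S *
      Matrix.of fun l i => dz i (fun y => g y l) z)
  sm20 : ∀ {D : ℕ} {S : Cm D → Mx D} {y : Cm D}, (∀ a b, AnalyticAt ℂ (fun y => S y a b) y) →
    ContDiffAt ℝ ∞ (fun y => f20 (S y)) y

end Vale.Agent.P301Z.Al
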