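import Vale.Agent.P301Z.Al.Sk

/-!
# P301, block ALG: the class of a family with exact antiholomorphic derivatives is holomorphic
-/

open scoped Manifold ContDiff ComplexOrder Topology Matrix
open Set Filter MeasureTheory
open Vale.Agent.P272.K Vale.Agent.P272.K.C2 Vale.Agent.P299.IX Vale.Agent.P299.IX.Fock
open Vale.Agent.P272.K.INT (part)
open Vale.Agent.P281Z (Mf)
open Vale.Agent.P281Z.Hg
open Vale.Agent.P301Z.Lat

noncomputable section

namespace Vale.Agent.P301Z.Al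

namespace Holb

variable {d p : ℕ} {t₀ : Cm p}

theorem cd_pow (v : Fo d) (k : ℕ) : ∀ I, ContDiff ℂ ∞ fun u : Fo d => ((wg u ^ k) *ᵥ v) I := by
  induction k with
  | zero => exact fun I => by simpa using contDiff_const
  | succ k ih =>
    intro I
    have e : (fun u : Fo d => ((wg u ^ (k + 1)) *ᵥ v) I) = fun u =>
        ∑ J, (∑ K, qz eps (ev J) I K * u K) * ((wg u ^ k) *ᵥ v) J := by
      funext u
      rw [pow_succ', ← Matrix.mulVec_mulVec]
      rfl
    rw [e]
    exact ContDiff.sum fun J _ =>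
      (ContDiff.sum fun K _ => contDiff_const.mul (contDiff_apply ℂ ℂ K)).mul (ih J)

theorem cd_pw : ContDiff ℂ ∞ (pw : Fo d → ℂ) := by
  have e : (pw : Fo d → ℂ) = fun u => tc d * ∑ I, (∑ J, ev ∅ J * hst J I) *
      ((wg u ^ d) *ᵥ ev ∅) I := funext fun u => by rw [pw, Fg3.Bq_sum]
  rw [e]
  exact contDiff_const.mul (ContDiff.sum fun I _ => contDiff_const.mul (cd_pow _ _ I))

theorem dzb_comp {g : Fo d → ℂ} {h : Cm p → Fo d} (hg : DifferentiableAt ℂ g (h t₀))
    (hh : DifferentiableAt ℝ h t₀) (j : Fin p) : dzb j (fun t => g (h t)) t₀ =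
      fderiv ℂ g (h t₀) fun I => dzb j (fun t => h t I) t₀ := by
  have h1 : ∀ v, fderiv ℝ (fun t => g (h t)) t₀ v = fderiv ℂ g (h t₀) (fderiv ℝ h t₀ v) :=
    fun v => by
      have := ((hg.hasFDerivAt.restrictScalars ℝ).comp t₀ hh.hasFDerivAt).fderiv
      exact congrArg (fun A : Cm p →L[ℝ] ℂ => A v) this
  have h4 : ∀ v I, fderiv ℝ (fun t => h t I) t₀ v = fderiv ℝ h t₀ v I := fun v I => by
    rw [fderiv_apply hh I]
    rfl
  simp only [dzb, h1, h4]
  rw [← smul_eq_mul, ← map_smul, ← map_add, div_eq_inv_mul, ← smul_eq_mul, ← map_smul]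
  congr 1
  funext I
  simp [div_eq_inv_mul]

variable {V : Mf d}

/-- smooth families -/
def Sm (u : Cm p → Fs V) (t₀ : Cm p) : Prop := ∀ e x, At e x → ∀ I,
  ContDiffAt ℝ ∞ (fun q : Cm p × Cm d => vl (u q.1) e q.2 I) (t₀, e x)

theorem vol_eq (hv : VOL) (a : Fs V) : Vol a = ∑ i,
    ∫ y in (part d V.X).e i '' tsupport ((part d V.X).ρ i),
      ((part d V.X).ρ i (((part d V.X).e i).symm y) : ℂ) * pw (vl a ((part d V.X).e i) y) := by
  rw [Vol, (g1T d V.X).itg_eq _ (hv.dens a).1 (hv.dens a).2 _ _ _ (part d V.X).mem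
    (part d V.X).cont (part d V.X).supp (part d V.X).sum]
  refine Finset.sum_congr rfl fun i _ => setIntegral_eq_of_subset_of_forall_sdiff_eq_zero
    ((part d V.X).e i).open_target.measurableSet ?_ fun y hy => ?_
  · rintro _ ⟨x, hx, rfl⟩
    exact ((part d V.X).e i).map_source ((part d V.X).supp i hx)
  · rw [image_eq_zero_of_notMem_tsupport fun h => hy.2 ⟨_, h, ((part d V.X).e i).right_inv hy.1⟩,
      Complex.ofReal_zero, zero_mul]

theorem cpt (i) : IsCompact ((part d V.X).e i '' tsupport ((part d V.X).ρ i)) :=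
  (isClosed_tsupport _).isCompact.image_of_continuousOn
    (((part d V.X).e i).continuousOn.mono ((part d V.X).supp i))

theorem vol_d (hv : VOL) {u : Cm p → Fs V} (h : Sm u t₀) :
    DifferentiableAt ℝ (fun t => Vol (u t)) t₀ ∧ ∀ j, dzb j (fun t => Vol (u t)) t₀ = ∑ i,
      ∫ y in (part d V.X).e i '' tsupport ((part d V.X).ρ i),
        ((part d V.X).ρ i (((part d V.X).e i).symm y) : ℂ) *
          dzb j (fun t => pw (vl (u t) ((part d V.X).e i) y)) t₀ := by
  set P := part d V.X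
  have H := fun i => Fg3.par_int (t0 := t₀) (K := P.e i '' tsupport (P.ρ i))
    (f := fun q => pw (vl (u q.1) (P.e i) q.2)) (ρ := fun y => (P.ρ i ((P.e i).symm y) : ℂ))
    (cpt i) (by
      rintro _ ⟨x, hx, rfl⟩
      exact ((cd_pw.restrict_scalars ℝ).contDiffAt.comp (t₀, P.e i x)
        (contDiffAt_pi.2 (h _ x ⟨P.mem i, P.supp i hx⟩))).of_le (by norm_cast))
    (Complex.continuous_ofReal.comp_continuousOn ((P.cont i).comp_continuousOn
      ((P.e i).continuousOn_symm.mono (by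
        rintro _ ⟨x, hx, rfl⟩
        exact (P.e i).map_source (P.supp i hx)))))
  simp only [vol_eq hv]
  refine ⟨DifferentiableAt.fun_sum fun i _ => (H i).1, fun j => ?_⟩
  rw [dzb_sum j _ fun i _ => (H i).1]
  exact Finset.sum_congr rfl fun i _ => (H i).2 j

theorem Sm.df {u : Cm p → Fs V} (h : Sm u t₀) {e x} (hx : At e x) :
    DifferentiableAt ℝ (fun t => vl (u t) e (e x)) t₀ := by
  have := ((contDiffAt_pi.2 (h e x hx)).comp t₀ (f := fun t => (t, e x))
    (contDiffAt_id.prodMk contDiffAt_const)).differentiableAt (by simp)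
  exact this

theorem vol_cmp (hv : VOL) {u u' : Cm p → Fs V} (h : Sm u t₀) (h' : Sm u' t₀) (h0 : u t₀ = u' t₀)
    (j : Fin p) (h1 : ∀ e x, At e x → ∀ I, dzb j (fun t => vl (u t) e (e x) I) t₀ =
      dzb j (fun t => vl (u' t) e (e x) I) t₀) :
    dzb j (fun t => Vol (u t)) t₀ = dzb j (fun t => Vol (u' t)) t₀ := by
  rw [(vol_d hv h).2, (vol_d hv h').2]
  refine Finset.sum_congr rfl fun i _ => setIntegral_congr_fun (cpt i).measurableSet ?_
  rintro _ ⟨x, hx, rfl⟩
  have hx' : At ((part d V.X).e i) x := ⟨(part d V.X).mem i, (part d V.X).supp i hx⟩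
  have hd := fun a => (cd_pw (d := d)).differentiable (by simp) a
  beta_reduce
  rw [dzb_comp (hd _) (h.df hx'), dzb_comp (hd _) (h'.df hx'), h0, funext (h1 _ x hx')]

theorem cd_cj (j : Fin p) (c : ℂ) : ContDiff ℝ ∞ fun t : Cm p => (starRingEnd ℂ) (t j - c) :=
  (Complex.conjCLE : ℂ →L[ℝ] ℂ).contDiff.comp ((contDiff_apply ℝ ℂ j).sub contDiff_const)

theorem dzb_cj (j : Fin p) (c : ℂ) : dzb j (fun t : Cm p => (starRingEnd ℂ) (t j - c)) t₀ = 1 := by
  have h : HasFDerivAt (fun t : Cm p => (starRingEnd ℂ) (t j - c))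
      ((Complex.conjCLE : ℂ →L[ℝ] ℂ).comp (ContinuousLinearMap.proj j)) t₀ :=
    (Complex.conjCLE : ℂ →L[ℝ] ℂ).hasFDerivAt.comp t₀ ((hasFDerivAt_apply j t₀).sub_const c)
  rw [dzb, h.fderiv]
  simp

theorem vol_hol (hv : VOL) {u : Cm p → Fs V} (hc : Cl2 V (u t₀)) (h : DbEx u t₀) :
    DifferentiableAt ℂ (fun t => Vol (u t)) t₀ := by
  refine Fg3.diff_of_dzb (vol_d hv h.1).1 fun j => ?_
  obtain ⟨β, ⟨γ, hγ, hβ⟩, h1⟩ := h.2 j
  have h2 : ∀ c : ℂ, Vol (u t₀ + c • β) = Vol (u t₀) := fun c =>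
    hv.cls hc ⟨c • γ, by rw [map_smul, hγ], by rw [map_smul, hβ]⟩
  rw [vol_cmp hv (u' := fun t => u t₀ + (starRingEnd ℂ) (t j - t₀ j) • β) h.1 ?_ (by simp) j ?_]
  · simp only [h2]
    exact dzb_const j _
  · intro e x hx I
    have a1 := fun w : Fs V => (contDiffAt_pi.1 ((vl_isF w).sm e x hx) I).comp (t₀, e x)
      contDiffAt_snd
    exact (a1 (u t₀)).add (((cd_cj j (t₀ j)).contDiffAt.comp (t₀, e x) contDiffAt_fst).mul (a1 β))
  · intro e x hx I
    have a1 := (cd_cj j (t₀ j)).differentiable (by simp) t₀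
    have a2 := dzb_add j (differentiableAt_const (vl (u t₀) e (e x) I))
      (a1.mul_const (vl β e (e x) I))
    rw [C2.dzb_const, dzb_mul_const j _ a1, dzb_cj, zero_add, one_mul] at a2
    exact (h1 e x hx I).trans a2.symm

theorem dbex_add (a : Fs V) {u : Cm p → Fs V} (h : DbEx u t₀) : DbEx (fun t => a + u t) t₀ := by
  refine ⟨fun e x hx I => ?_, fun j => (h.2 j).imp fun β hβ => ⟨hβ.1, fun e x hx I => ?_⟩⟩
  · have a1 := (contDiffAt_pi.1 ((vl_isF a).sm e x hx) I).comp (t₀, e x) contDiffAt_snd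
    exact a1.add (h.1 e x hx I)
  have a2 := dzb_add j (differentiableAt_const (vl a e (e x) I))
    (differentiableAt_pi.1 (Sm.df h.1 hx) I)
  rw [C2.dzb_const, zero_add] at a2
  exact a2.trans (hβ.2 e x hx I)

/-! ### Algebra -/

variable {n r : ℕ}

theorem qC_eq (q : Matrix (Fin r) (Fin r) ℤ) (x y : Fin r → ℂ) : qC q x y = x ⬝ᵥ (zC q *ᵥ y) := by
  simp only [qC, dotProduct, Matrix.mulVec, zC, Matrix.map_apply, Finset.mul_sum]
  exact Finset.sum_congr rfl fun i _ => Finset.sum_congr rfl fun j _ => by ring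

theorem qC_comm (B : BB n r) (x y : Fin r → ℂ) : qC B.q x y = qC B.q y x := by
  rw [qC, qC, Finset.sum_comm]
  refine Finset.sum_congr rfl fun i _ => Finset.sum_congr rfl fun j _ => ?_
  rw [← congrFun (congrFun B.symm i) j, Matrix.transpose_apply, mul_comm (x j)]

theorem qC_sq (B : BB n r) (x y : Fin r → ℂ) (a b : ℂ) :
    qC B.q (a • x + b • y) (a • x + b • y) =
      a ^ 2 * qC B.q x x + 2 * a * b * qC B.q x y + b ^ 2 * qC B.q y y := by
  have h := qC_comm B y x
  simp only [qC_eq, Matrix.mulVec_add, Matrix.mulVec_smul, add_dotProduct, dotProduct_add,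
    smul_dotProduct, dotProduct_smul, smul_eq_mul] at h ⊢
  rw [h]
  ring

theorem det_ne (B : BB n r) : (zC B.q).det ≠ 0 := by
  have h : (B.q.map fun x => (x : ℝ)).det ≠ 0 := fun h => by
    obtain ⟨v, hv, h0⟩ := Matrix.exists_vecMul_eq_zero_iff.2 h
    have h1 : ∀ y, qR B.q v y = 0 := fun y => by
      have h2 : qR B.q v y = (v ᵥ* B.q.map fun x => (x : ℝ)) ⬝ᵥ y := by
        simp only [qR, dotProduct, Matrix.vecMul, Matrix.map_apply, Finset.sum_mul]
        rw [Finset.sum_comm]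
        exact Finset.sum_congr rfl fun i _ => Finset.sum_congr rfl fun j _ => by ring
      rw [h2, h0, zero_dotProduct]
    obtain ⟨e, -, he⟩ := B.sig
    exact (he v (fun i => h1 _) hv).ne (h1 v)
  have h1 := (Int.castRingHom ℝ).map_det B.q
  have h2 := (Int.castRingHom ℂ).map_det B.q
  intro h3
  have h4 : (B.q.det : ℂ) = 0 := h2.trans h3
  have h5 : (B.q.det : ℝ) = 0 := by exact_mod_cast h4
  exact h (h1.symm.trans h5)

open Polynomial in
theorem coef (N : ℕ) : ∃ c : Fin N → ℂ, ∀ P : ℂ[X], P.natDegree < N →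
    P.derivative.eval 0 = ∑ i : Fin N, P.eval ((i : ℂ) + 1) * c i := by
  have hi : Set.InjOn (fun i : Fin N => (i : ℂ) + 1) (Finset.univ : Finset (Fin N)) :=
    fun a _ b _ h => Fin.ext (by exact_mod_cast add_right_cancel h)
  refine ⟨fun i => (Lagrange.basis Finset.univ (fun i : Fin N => (i : ℂ) + 1) i).derivative.eval 0,
    fun P hP => ?_⟩
  have h := Lagrange.eq_interpolate (f := P) hi (by
    rw [Finset.card_univ, Fintype.card_fin]
    exact degree_le_natDegree.trans_lt (by exact_mod_cast hP))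
  conv_lhs => rw [h, Lagrange.interpolate_apply]
  simp [eval_finsetSum]

open Polynomial in
theorem lin (B : BB n r) {π : Cm p → Fin r → ℂ}
    (h : ∀ x, DifferentiableAt ℂ (fun t => qC B.q (x + π t) (x + π t) ^ n) t₀) {x : Fin r → ℂ}
    (hx : qC B.q x x ≠ 0) : DifferentiableAt ℂ (fun t => qC B.q x (π t)) t₀ := by
  obtain ⟨c, hc⟩ := coef (n * 2 + 1)
  have hn : (n : ℂ) ≠ 0 := Nat.cast_ne_zero.2 B.npos.ne'
  have key : ∀ y, qC B.q x y = ((n : ℂ) * qC B.q x x ^ (n - 1) * 2)⁻¹ *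
      ∑ i : Fin (n * 2 + 1), (((i : ℂ) + 1) ^ 2) ^ n *
        qC B.q (((i : ℂ) + 1)⁻¹ • x + y) (((i : ℂ) + 1)⁻¹ • x + y) ^ n * c i := fun y => by
    have h1 := hc ((C (qC B.q y y) * X ^ 2 + C (2 * qC B.q x y) * X + C (qC B.q x x)) ^ n)
      (Nat.lt_succ_of_le (natDegree_pow_le.trans (Nat.mul_le_mul_left n natDegree_quadratic_le)))
    have h2 : ∀ s : ℂ, s ≠ 0 → (s ^ 2) ^ n * qC B.q (s⁻¹ • x + y) (s⁻¹ • x + y) ^ n =
        (qC B.q y y * s ^ 2 + 2 * qC B.q x y * s + qC B.q x x) ^ n := fun s hs => by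
      have h3 := qC_sq B x y s⁻¹ 1
      rw [one_smul] at h3
      rw [← mul_pow, h3]
      congr 1
      field_simp
      ring
    simp only [h2 _ (Nat.cast_add_one_ne_zero _)]
    simp [derivative_pow] at h1
    rw [← h1]
    field_simp
  rw [funext fun t => key (π t)]
  exact (DifferentiableAt.fun_sum fun i _ => ((h _).const_mul _).mul_const _).const_mul _

theorem alg (B : BB n r) {π : Cm p → Fin r → ℂ}
    (h : ∀ x, DifferentiableAt ℂ (fun t => qC B.q (x + π t) (x + π t) ^ n) t₀) (i : Fin r) :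
    DifferentiableAt ℂ (fun t => π t i) t₀ := by
  obtain ⟨e, he, -⟩ := B.sig
  have h1 : qC B.q (rc (e 0)) (rc (e 0)) = 1 := by
    have := congrArg (fun a : ℝ => (a : ℂ)) (he 0 0)
    simpa [qC, qR, rc] using this
  have h2 : ∀ x, DifferentiableAt ℂ (fun t => qC B.q x (π t)) t₀ := fun x => by
    by_cases hx : qC B.q x x = 0
    · have h3 : ∀ s : ℂ, qC B.q ((1 : ℂ) • x + s • rc (e 0)) ((1 : ℂ) • x + s • rc (e 0)) ≠ 0 →
          DifferentiableAt ℂ (fun t => qC B.q x (π t)) t₀ := fun s hs => by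
        have h4 := (lin B h hs).sub ((lin B h (h1.trans_ne one_ne_zero)).const_mul s)
        refine h4.congr_of_eventuallyEq (Eventually.of_forall fun t => ?_)
        simp [qC_eq]
      by_contra h5
      have a1 := not_not.1 (mt (h3 1) h5)
      have a2 := not_not.1 (mt (h3 (-1)) h5)
      rw [qC_sq, hx, h1] at a1 a2
      have a3 : (2 : ℂ) = 0 := by linear_combination a1 + a2
      exact two_ne_zero a3
    · exact lin B h hx
  refine (h2 (Pi.single i 1 ᵥ* (zC B.q)⁻¹)).congr_of_eventuallyEq (Eventually.of_forall fun t => ?_)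
  beta_reduce
  rw [qC_eq, Matrix.dotProduct_mulVec, Matrix.vecMul_vecMul,
    Matrix.nonsing_inv_mul _ (det_ne B).isUnit, Matrix.vecMul_one, single_one_dotProduct]

end Holb

open Holb in
/-- **HOLB** -/
theorem holb (hL : LAT) : HOLB := by
  intro n r p B M u t₀ hc h
  refine alg B fun x => ?_
  obtain ⟨a, ha, rfl⟩ := M.m.onto x
  have h1 : ∀ {w}, Cl2 M.V w → Cl2 M.V (a + w) := fun hw =>
    ⟨by rw [map_add, ha.1, hw.1, add_zero], by rw [map_add, ha.2, hw.2]⟩
  have h2 : (B.C : ℂ) ≠ 0 := by exact_mod_cast B.Cpos.ne'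
  refine ((vol_hol hL.vol (h1 hc.self_of_nhds) (dbex_add a h)).const_mul
    (B.C : ℂ)⁻¹).congr_of_eventuallyEq (hc.mono fun t ht => ?_)
  beta_reduce
  rw [M.fuj _ (h1 ht), map_add, inv_mul_cancel_left₀ h2]

end Vale.Agent.P301Z.Al
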