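import Vale.Agent.P301Z.Al.Sk
import Vale.Agent.P301Z.Lat.Pk
import Vale.Agent.P301.H450.HI

/-!
# P301, block ALG: integral Kähler classes near a Kähler class
-/

open scoped ComplexOrder Topology Matrix
open Set
open Vale.Agent.P272.K
open Vale.Agent.P301Z.Lat

noncomputable section

namespace Vale.Agent.P301Z.Al

namespace Kc

variable {r : ℕ}

/-- convex cones -/
def Cone (K : Set (Fin r → ℝ)) : Prop :=
  ∀ x y : ℝ, 0 < x → 0 ≤ y → ∀ v ∈ K, ∀ v' ∈ K, x • v + y • v' ∈ K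

variable {K : Set (Fin r → ℝ)} {k : Fin r → ℝ}

theorem seg (hK : Cone K) (hk : k ∈ K) {u : Fin r → ℝ} {t s : ℝ} (h : k + t • u ∈ K) (h0 : 0 ≤ s)
    (h1 : s < t) : k + s • u ∈ K := by
  have ht : 0 < t := h0.trans_lt h1
  have h2 := hK (1 - s / t) (s / t) (sub_pos.2 ((div_lt_one ht).2 h1)) (by positivity) k hk _ h
  rwa [smul_add, smul_smul, div_mul_cancel₀ _ ht.ne', ← add_assoc, ← add_smul, sub_add_cancel,
    one_smul] at h2

theorem line (hK : Cone K) (hk : k ∈ K) {u : Fin r → ℝ}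
    (h : ∀ σ : ℝ, ∃ t : ℝ, 0 < t ∧ k + t • σ • u ∈ K) :
    ∃ ε : ℝ, 0 < ε ∧ ∀ s : ℝ, |s| ≤ ε → k + s • u ∈ K := by
  obtain ⟨t, ht, h1⟩ := h 1
  obtain ⟨t', ht', h2⟩ := h (-1)
  refine ⟨min t t' / 2, by positivity, fun s hs => ?_⟩
  have e1 := min_le_left t t'
  have e2 := min_le_right t t'
  have e3 := abs_le.1 hs
  rcases le_total 0 s with h0 | h0
  · simpa using seg hK hk h1 h0 (by linarith)
  · simpa using seg hK hk h2 (neg_nonneg.2 h0) (by linarith)

theorem box (hK : Cone K) (hk : k ∈ K) {b : Fin r → Fin r → ℝ}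
    (h : ∀ i (σ : ℝ), ∃ t : ℝ, 0 < t ∧ k + t • σ • b i ∈ K) (S : Finset (Fin r)) :
    ∃ ε : ℝ, 0 < ε ∧ ∀ s : Fin r → ℝ, (∀ i, |s i| ≤ ε) → k + ∑ i ∈ S, s i • b i ∈ K := by
  induction S using Finset.induction_on with
  | empty => exact ⟨1, one_pos, fun _ _ => by simpa using hk⟩
  | insert j S hj ih =>
    obtain ⟨ε, hε, h1⟩ := ih
    obtain ⟨ε', hε', h2⟩ := line hK hk (h j)
    refine ⟨min ε ε' / 2, by positivity, fun s hs => ?_⟩
    have e : ∀ i, |2 * s i| ≤ min ε ε' := fun i => by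
      rw [abs_mul, abs_two]
      linarith [hs i]
    have h3 := hK (1 / 2) (1 / 2) (by norm_num) (by norm_num) _
      (h1 (fun i => 2 * s i) fun i => (e i).trans (min_le_left _ _)) _
      (h2 (2 * s j) ((e j).trans (min_le_right _ _)))
    simp only [mul_smul, ← Finset.smul_sum] at h3
    rw [Finset.sum_insert hj]
    refine mem_of_eq_of_mem ?_ h3
    module

theorem pts (hr : 0 < r) (hK : Cone K) (hk : k ∈ K) (b : Fin r → Fin r → ℤ) {κ : Fin r → ℝ}
    (hκ : k = ∑ i, κ i • zr (b i)) (h : ∀ i (σ : ℝ), ∃ t : ℝ, 0 < t ∧ k + t • σ • zr (b i) ∈ K)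
    {α : ℝ} (hα : 0 < α) : ∃ (H : Fin (r + r) → Fin r → ℤ) (c : Fin (r + r) → ℝ),
      (∀ a, 0 < c a) ∧ k = ∑ a, c a • α • zr (H a) ∧ (∀ a, α • zr (H a) ∈ K) ∧
      ∀ i, zr (b i) ∈ Submodule.span ℝ (range fun a => α • zr (H a)) := by
  obtain ⟨ε, hε, h1⟩ := box hK hk h Finset.univ
  obtain ⟨N, hN⟩ := exists_nat_gt ((1 + r) / ε)
  have hr' : (0 : ℝ) < r := by exact_mod_cast hr
  have hN0 : (0 : ℝ) < N := lt_trans (by positivity) hN
  obtain ⟨k', hk'⟩ : ∃ k' : Fin r → ℤ, zr k' =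
      (N : ℝ) • k - ∑ i, Int.fract (N * κ i) • zr (b i) := by
    refine ⟨∑ i, ⌊N * κ i⌋ • b i, funext fun j => ?_⟩
    simp only [hκ, zr, Finset.sum_apply, Pi.smul_apply, Pi.sub_apply, smul_eq_mul, Finset.mul_sum,
      ← Finset.sum_sub_distrib, Int.cast_sum, Int.cast_mul, Int.fract]
    exact Finset.sum_congr rfl fun i _ => by ring
  have hz : ∀ (j : Fin r) (m : ℤ), zr (k' + m • b j) = zr k' + (m : ℝ) • zr (b j) := fun j m =>
    funext fun i => by simp [zr]
  have hm : ∀ (j : Fin r) (m : ℤ), |(m : ℝ)| ≤ r → α • zr (k' + m • b j) ∈ K := fun j m hm => by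
    have h2 := h1 (fun i => ((if i = j then (m : ℝ) else 0) - Int.fract (N * κ i)) / N) fun i => by
      have e1 : |if i = j then (m : ℝ) else 0| ≤ r := by
        split_ifs
        · exact hm
        · simp
      have e2 : |Int.fract (N * κ i)| ≤ 1 := Int.abs_fract.le.trans (Int.fract_lt_one _).le
      rw [abs_div, abs_of_pos hN0, div_le_iff₀ hN0]
      rw [div_lt_iff₀ hε] at hN
      linarith [abs_sub (if i = j then (m : ℝ) else 0) (Int.fract (N * κ i))]
    have h3 := hK (α * N) 0 (by positivity) le_rfl _ h2 _ hk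
    refine mem_of_eq_of_mem ?_ h3
    rw [zero_smul, add_zero, mul_smul, smul_add (N : ℝ), Finset.smul_sum, hz, hk']
    simp only [smul_smul, mul_div_cancel₀ _ hN0.ne', sub_smul, ite_smul, zero_smul,
      Finset.sum_sub_distrib, Finset.sum_ite_eq', Finset.mem_univ, if_true]
    congr 1
    abel
  refine ⟨Fin.append (fun j => k' + (r : ℤ) • b j) fun j => k' + (-(r : ℤ)) • b j,
    Fin.append (fun j => (1 + Int.fract (N * κ j)) / (2 * r * N * α))
      fun j => (1 - Int.fract (N * κ j)) / (2 * r * N * α), fun a => ?_, ?_, fun a => ?_,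
    fun i => ?_⟩
  · induction a using Fin.addCases with
    | left j =>
      have := Int.fract_nonneg (N * κ j)
      rw [Fin.append_left]
      positivity
    | right j =>
      have := sub_pos.2 (Int.fract_lt_one (N * κ j))
      rw [Fin.append_right]
      positivity
  · have e : ∀ j : Fin r, ((1 + Int.fract (N * κ j)) / (2 * r * N * α)) • α •
        (zr k' + ((r : ℤ) : ℝ) • zr (b j)) + ((1 - Int.fract (N * κ j)) / (2 * r * N * α)) • α •
        (zr k' + ((-(r : ℤ) : ℤ) : ℝ) • zr (b j)) =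
        ((r : ℝ) * N)⁻¹ • zr k' + (N : ℝ)⁻¹ • Int.fract (N * κ j) • zr (b j) := fun j => by
      funext i
      simp only [Pi.add_apply, Pi.smul_apply, smul_eq_mul]
      push_cast
      field_simp
      ring
    rw [Fin.sum_univ_add, ← Finset.sum_add_distrib]
    simp only [Fin.append_left, Fin.append_right, hz, e]
    rw [Finset.sum_add_distrib, ← Finset.smul_sum (r := (N : ℝ)⁻¹), Finset.sum_const,
      Finset.card_univ, Fintype.card_fin, ← Nat.cast_smul_eq_nsmul ℝ, smul_smul, mul_inv,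
      mul_inv_cancel_left₀ hr'.ne', ← smul_add, hk', sub_add_cancel, inv_smul_smul₀ hN0.ne']
  · induction a using Fin.addCases with
    | left j =>
      rw [Fin.append_left]
      exact hm j _ (by simp)
    | right j =>
      rw [Fin.append_right]
      exact hm j _ (by simp)
  · have e : zr (b i) = (2 * r * α)⁻¹ • (α • zr (k' + (r : ℤ) • b i) -
        α • zr (k' + (-(r : ℤ)) • b i)) := by
      rw [hz, hz]
      funext j
      simp only [Pi.add_apply, Pi.sub_apply, Pi.smul_apply, smul_eq_mul]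
      push_cast
      field_simp
      ring
    rw [e]
    exact Submodule.smul_mem _ _ (Submodule.sub_mem _
      (Submodule.subset_span ⟨Fin.castAdd r i, by simp only [Fin.append_left]⟩)
      (Submodule.subset_span ⟨Fin.natAdd r i, by simp only [Fin.append_right]⟩))

variable {n : ℕ} {B : BB n r}

theorem perp_add {F : Fr B} (x y : ℝ) {v v' : Fin r → ℝ} (h : Perp F v) (h' : Perp F v') :
    Perp F (x • v + y • v') := by
  simp only [Perp, qR_add_l, qR_smul_l, h.1, h.2.1, h.2.2, h'.1, h'.2.1, h'.2.2, mul_zero,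
    add_zero, and_self]

/-- a multiple of the projection on the complement of the frame -/
def prj (F : Fr B) : (Fin r → ℝ) →ₗ[ℝ] Fin r → ℝ where
  toFun x := (F.D * F.e) • x + (-(F.e * qR B.q x (zr F.m))) • zr F.l +
    (-(F.e * qR B.q x (zr F.l))) • zr F.m + (-(F.D * qR B.q x (zr F.v))) • zr F.v
  map_add' x y := by
    simp only [qR_add_l]
    module
  map_smul' c x := by
    simp only [qR_smul_l, RingHom.id_apply]
    module

theorem perp_prj (F : Fr B) (x : Fin r → ℝ) : Perp F (prj F x) := by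
  have h1 := (qR_comm _ B.symm _ _).trans F.lm
  have h2 := (qR_comm _ B.symm _ _).trans F.lv
  have h3 := (qR_comm _ B.symm _ _).trans F.mv
  simp only [Perp, prj, LinearMap.coe_mk, AddHom.coe_mk, qR_add_l, qR_smul_l, F.ll, F.lm, F.lv,
    F.mm, F.mv, F.vv, h1, h2, h3]
  exact ⟨by ring, by ring, by ring⟩

theorem basis (F : Fr B) : ∃ b : Fin r → Fin r → ℤ, (∀ i, Perp F (zr (b i))) ∧
    ∀ x, Perp F x → ∃ κ : Fin r → ℝ, x = ∑ i, κ i • zr (b i) := by
  obtain ⟨Z, hZ⟩ : ∃ Z : (Fin r → ℤ) → (Fin r → ℤ) → ℤ,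
      ∀ x y, (Z x y : ℝ) = qR B.q (zr x) (zr y) :=
    ⟨fun x y => ∑ i, ∑ j, B.q i j * (x i * y j), fun x y => by simp [qR, zr]⟩
  have h1 : ∀ x : Fin r → ℤ, ∃ y, zr y = prj F (zr x) := fun x =>
    ⟨(Z F.l F.m * Z F.v F.v) • x + (-(Z F.v F.v * Z x F.m)) • F.l +
      (-(Z F.v F.v * Z x F.l)) • F.m + (-(Z F.l F.m * Z x F.v)) • F.v, funext fun j => by
      simp only [prj, LinearMap.coe_mk, AddHom.coe_mk, ← F.lm, ← F.vv, ← hZ]
      simp [zr]⟩
  choose b hb using h1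
  have h2 : ∀ i : Fin r, zr (Pi.single i 1) = Pi.single i 1 := fun i => funext fun j => by
    simp only [zr, Pi.single_apply]
    split_ifs <;> simp
  refine ⟨fun i => b (Pi.single i 1), fun i => hb _ ▸ perp_prj F _, fun x hx =>
    ⟨fun i => (F.D * F.e)⁻¹ * x i, ?_⟩⟩
  have h3 : prj F x = (F.D * F.e) • x := by simp [prj, hx.1, hx.2.1, hx.2.2]
  simp only [hb, h2, mul_smul, ← map_smul, ← map_sum, ← Finset.smul_sum]
  rw [← pi_eq_sum_univ' x, map_smul, h3, inv_smul_smul₀ (mul_pos F.Dpos F.epos).ne']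

end Kc

open Kc

theorem kc (hL : LAT) (hA : ARI) : KC := by
  intro n r B F Y s w τ k hk hY
  have hr : 0 < r := Nat.pos_of_ne_zero fun e => by
    subst e
    exact F.epos.ne (by rw [← F.vv]; simp [qR])
  have hK : Cone {v | Perp F v ∧ ∃ w' : Fld Y.V, Y.Kc w' v} := by
    rintro x y hx hy v ⟨h1, a, ha⟩ v' ⟨h2, a', ha'⟩
    have h3 := hL.rel.add x y ha.2 ha'.2
    refine ⟨perp_add x y h1 h2, _, P301.H450.isKahler_of ⟨h3.1.1, h3.1.2⟩ fun e z hz => ?_, h3⟩
    exact ((ha.1.posDef e z hz).smul (Complex.zero_lt_real.2 hx)).add_posSemidef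
      ((ha'.1.posDef e z hz).posSemidef.smul (Complex.zero_le_real.2 hy))
  have hp : Perp F k := ⟨hk.1, hk.2.1, hk.2.2.1⟩
  obtain ⟨b, hb, hb'⟩ := basis F
  obtain ⟨κ, hκ⟩ := hb' k hp
  obtain ⟨H, c, h1, h2, h3, h4⟩ := pts hr hK ⟨hp, w, hY.2.1⟩ b hκ (fun i σ => by
    have h5 : Perp F (σ • zr (b i)) := by simpa using perp_add σ 0 (hb i) hp
    obtain ⟨a, ha⟩ := hL.hd hY _ ((hA.ql F τ).2.2.2 _ h5)
    obtain ⟨t, ht, h6⟩ := P301.H450.exists_small hY.2.1.1 (⟨ha.1.1, ha.1.2⟩ : P301.H450.IsReal11 a)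
    have h7 := hL.rel.add 1 t hY.2.1.2 ha
    have h8 := perp_add 1 t hp h5
    simp only [Complex.ofReal_one, one_smul] at h7 h8
    exact ⟨t, ht, h8, _, h6, h7⟩) Real.two_pi_pos
  refine ⟨r + r, H, c, by omega, ⟨hk, h1, h2, fun a => (h3 a).1, fun x hx => ?_⟩,
    fun a => (h3 a).2⟩
  obtain ⟨κ', rfl⟩ := hb' x hx
  exact Submodule.sum_mem _ fun i _ => Submodule.smul_mem _ _ (h4 i)

end Vale.Agent.P301Z.Al
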