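import Vale.Agent.P301Z.Al.Ef0
import Vale.Agent.P301Z.Al.Emb
import Vale.Agent.P301Z.Sn.Resv
import Vale.Agent.P301.H599.Iter
import Vale.Agent.P299.H726.Pull

/-!
# P301, block ALG: the embedding theorem, for forms
-/

open scoped Manifold ContDiff Topology ComplexOrder
open Set Filter
open Vale.Agent.P272.K
open Vale.Agent.P277Z (Hol at_chart)
open Vale.Agent.P281Z
open Vale.Agent.P285.H281.FD (Bd IsLB IsMet)
open Vale.Agent.P277.HD (pull)
open Vale.Agent.P299.D (pullM)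
open Vale.Agent.P301.H599 (SameClass)
open Vale.Agent.P301Z.Lat

noncomputable section

namespace Vale.Agent.P301Z.Al

namespace Kodf

theorem fs {K : ℕ} (S : PS K) : ∃ (χ : Fld S.P) (ψ : S.H.ι → S.P.X → ℝ), IsKahler χ ∧
    IsMet K S.H ψ ∧ ∀ i (e : Chart K S.P.X) y, At e y → y ∈ S.H.U i →
      χ e (e y) = cHess (fun z => ψ i (e.symm z)) (e y) := by
  obtain ⟨ψ, h1, h2⟩ := S.pos
  have hL := S.lb
  obtain ⟨χ, hχ, k⟩ := P277Z.Pos.kah K S.P.X S.H.ι S.H.U ψ hL.isOpen hL.cover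
    (fun i y hy e he => ⟨h1.smooth i e y he hy, h2 i e y he hy⟩) fun i j y hi hj e he => by
      have k : (fun z => ψ i (e.symm z) - ψ j (e.symm z)) =ᶠ[𝓝 (e y)]
          fun z => Real.log (‖S.H.g i j (e.symm z)‖ ^ 2) :=
        (at_ev he (((hL.isOpen i).inter (hL.isOpen j)).eventually_mem ⟨hi, hj⟩)).mono fun z hz => by
          simp only [h1.change i j _ hz.1 hz.2, add_sub_cancel_left]
      exact ⟨(h1.smooth i e y he hi).sub (h1.smooth j e y he hj), by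
        rw [cHess_congr k, cHess_log_norm_sq (hL.holo i j e y he hi hj)
          (by rw [he.left_inv]; exact hL.ne_zero i j y hi hj)]⟩
  exact ⟨χ, ψ, hχ, h1, k⟩

theorem lg (a b : ℂ) (ha : a ≠ 0) (hb : b ≠ 0) :
    Real.log (‖a * b‖ ^ 2) = Real.log (‖a‖ ^ 2) + Real.log (‖b‖ ^ 2) := by
  rw [norm_mul, mul_pow, Real.log_mul (pow_ne_zero 2 (norm_ne_zero_iff.2 ha))
    (pow_ne_zero 2 (norm_ne_zero_iff.2 hb))]

end Kodf

theorem kodf : KODF := by
  choose χ ψ h1 h2 h3 using fun K => Kodf.fs (Pb.Ps.ps K)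
  refine ⟨Pb.Ps.ps, χ, h1, fun N Y w hw ⟨L, ρ, hρ, hc⟩ => ?_⟩
  have hL : IsLB N (⟨Y.X, L.U, L.g⟩ : Bd Y.X) := ⟨L.isOpen, L.cover,
    fun i j e x he hi hj => (L.holo i j e x he hi hj).contDiffAt, L.ne_zero, L.cocycle⟩
  have hw' : ∀ i e x, At e x → x ∈ L.U i →
      w e (e x) = cHess (fun z => ρ i (e.symm z)) (e x) := fun i e x he hi =>
    (hc e x he).symm.trans (P301.H599.curvature_eq hρ he hi)
  obtain ⟨⟨k, K⟩, hk, φ, hφ, t, ht⟩ := EmbX.one Y _ hL ⟨ρ, ⟨hρ.smooth, hρ.change⟩,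
    fun i e x he hi => hw' i e x he hi ▸ hw.posDef e x he⟩
  dsimp only at hk φ hφ t ht
  let S := Pb.Ps.ps K
  choose a ha using fun y => S.lb.cover (φ y)
  choose b hb using L.cover
  let U : S.H.ι → Y.X → Y.X → ℝ := fun i j y =>
    ψ K i (φ y) - k * ρ j y - Real.log (‖t i j y‖ ^ 2)
  have hU : ∀ i j y, φ y ∈ S.H.U i → y ∈ L.U j → U (a y) (b y) y = U i j y := fun i j y hi hj => by
    have k1 := congrArg (fun c : ℂ => Real.log (‖c‖ ^ 2)) (ht.chg i (a y) j (b y) y hi (ha y) hj (hb y))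
    have k2 : Real.log (‖L.g j (b y) y ^ k‖ ^ 2) = k * Real.log (‖L.g j (b y) y‖ ^ 2) := by
      rw [norm_pow, ← pow_mul, mul_comm, pow_mul, Real.log_pow]
    change Real.log (‖t i j y * L.g j (b y) y ^ k‖ ^ 2) =
      Real.log (‖S.H.g i (a y) (φ y) * t (a y) (b y) y‖ ^ 2) at k1
    rw [Kodf.lg _ _ (ht.ne i j y hi hj) (pow_ne_zero k (L.ne_zero _ _ y hj (hb y))), k2,
      Kodf.lg _ _ (S.lb.ne_zero _ _ _ hi (ha y)) (ht.ne _ _ y (ha y) (hb y))] at k1
    simp only [U, (h2 K).change i (a y) _ hi (ha y), hρ.change j (b y) y hj (hb y)]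
    linarith
  have key : ∀ (e : Chart N Y.X) x, At e x →
      ContDiffAt ℝ ∞ (fun z => U (a (e.symm z)) (b (e.symm z)) (e.symm z)) (e x) ∧
      pullM φ (χ K) e (e x) = ((k : ℝ) : ℂ) • w e (e x) +
        cHess (fun z => U (a (e.symm z)) (b (e.symm z)) (e.symm z)) (e x) := fun e x he => by
    have e1 : (fun z => U (a (e.symm z)) (b (e.symm z)) (e.symm z)) =ᶠ[𝓝 (e x)]
        fun z => U (a x) (b x) (e.symm z) :=
      (at_ev he ((hφ.hol.cont.continuousAt.eventually ((S.lb.isOpen _).mem_nhds (ha x))).and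
        ((L.isOpen _).mem_nhds (hb x)))).mono fun z hz => hU _ _ _ hz.1 hz.2
    obtain ⟨p1, p2⟩ := Sn.Rv.pull_pot hφ.hol he (at_chart (φ x))
      ((h2 K).smooth (a x) _ _ (at_chart (φ x)) (ha x))
    have p3 := hρ.smooth (b x) e x he (hb x)
    have p4 : ContDiffAt ℂ ω (fun z => t (a x) (b x) (e.symm z)) (e x) :=
      (ht.hol _ _ x (ha x) (hb x) e he).contDiffAt
    have p5 : t (a x) (b x) (e.symm (e x)) ≠ 0 := by
      rw [he.left_inv]; exact ht.ne _ _ x (ha x) (hb x)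
    have p6 : ContDiffAt ℝ ∞ (fun z => Real.log (‖t (a x) (b x) (e.symm z)‖ ^ 2)) (e x) :=
      (((p4.restrict_scalars ℝ).of_le le_top).norm_sq ℂ).log
        (pow_ne_zero 2 (norm_ne_zero_iff.2 p5))
    have p7 : ContDiffAt ℝ ∞ (fun z => (k : ℝ) * ρ (b x) (e.symm z)) (e x) :=
      contDiffAt_const.mul p3
    refine ⟨((p1.sub p7).sub p6).congr_of_eventuallyEq e1, ?_⟩
    rw [cHess_congr e1, P299.H726.pullM_at he.2, h3 K (a x) _ _ (at_chart (φ x)) (ha x), ← p2,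
      hw' (b x) e x he (hb x)]
    simp only [U]
    rw [cHess_sub ((p1.sub p7).of_le INT.two_le_inf) (p6.of_le INT.two_le_inf),
      cHess_sub (p1.of_le INT.two_le_inf) (p7.of_le INT.two_le_inf),
      cHess_const_mul _ (p3.of_le INT.two_le_inf), cHess_log_norm_sq p4 p5]
    abel
  exact ⟨k, K, φ, hk, hφ, fun y => U (a y) (b y) y, fun e x he => (key e x he).1,
    fun e x he => (key e x he).2⟩

end Vale.Agent.P301Z.Al
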