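import Vale.Agent.P301Z.Al.FDefs
import Vale.Agent.P281Z.An.All
import Vale.Agent.P281Z.Mf.Fib

/-!
# P301, block ALG: local lemmas on analytic sets inside submanifolds
-/

open scoped Manifold ContDiff Topology
open Set Filter Function
open Vale.Agent.P272.K
open Vale.Agent.P277Z (Hol at_chart)
open Vale.Agent.P277Z.Slc (Ind dd ind_iff_surj)
open Vale.Agent.P281Z Vale.Agent.P281Z.Ana

set_option linter.unusedSectionVars false

noncomputable section

namespace Vale.Agent.P301Z.Al.L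

variable {n d : ℕ} {X F : Type} [TopologicalSpace X] [ChartedSpace (Cm n) X]
  [IsManifold 𝓘(ℂ, Cm n) ω X] [TopologicalSpace F] [ChartedSpace (Cm d) F]
  [IsManifold 𝓘(ℂ, Cm d) ω F] {α β : Type} [Fintype α] [Fintype β] {A : Set X} {y : X}
  {h : α → X → ℂ}

theorem dd_zero {f : F → X} {x : F} (hf : HolA d n f x) {a : X → ℂ} (ha : Hol n a (f x)) {t : ℂ}
    (k : ∀ᶠ z in 𝓝 x, a (f z) = t) {c : Chart d F} {e : Chart n X} (hc : At c x) (he : At e (f x))
    (w : Cm d) : dd a e (f x) (df f c e x w) = 0 := by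
  rw [← ContinuousLinearMap.comp_apply, ← dd_comp ha hf hc he, P277Z.Slc.dd_congr k hc]
  simp [dd]

theorem dim_le {f : F → X} {x : F} (hf : HolA d n f x) (hi : Imm d n f x) (h1 : Ind n h (f x))
    (k : ∀ᶠ z in 𝓝 x, ∀ a, h a (f z) = 0) : Fintype.card α + d ≤ n := by
  have he := at_chart (n := n) (f x)
  have hc := at_chart (n := d) x
  have k0 := (ContinuousLinearMap.pi fun a => dd (h a) (chartAt (Cm n) (f x))
    (f x)).toLinearMap.finrank_range_add_finrank_ker
  rw [LinearMap.range_eq_top.2 ((ind_iff_surj _).1 (h1.2 _ he)), finrank_top] at k0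
  have k1 := Submodule.finrank_mono (show (df f (chartAt (Cm d) x) (chartAt (Cm n) (f x))
      x).toLinearMap.range ≤ (ContinuousLinearMap.pi fun a => dd (h a) (chartAt (Cm n) (f x))
      (f x)).toLinearMap.ker from by
    rintro _ ⟨w, rfl⟩
    exact funext fun a => dd_zero hf (h1.1 a) (k.mono fun z hz => hz a) hc he w)
  rw [LinearMap.finrank_range_of_inj (hi _ _ hc he)] at k1
  simp only [Module.finrank_fintype_fun_eq_card, Fintype.card_fin] at k0 k1
  omega

/-- a parametrization of the zero set -/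
theorem par (h1 : Ind n h y) (h0 : ∀ a, h a y = 0) (hd : Fintype.card α + d = n) :
    ∃ (σ : Cm d → X) (ρ : X → Cm d), σ (ρ y) = y ∧ HolA d n σ (ρ y) ∧ Imm d n σ (ρ y) ∧
      ContinuousAt ρ y ∧ (∀ᶠ v in 𝓝 (ρ y), ∀ a, h a (σ v) = 0) ∧
      ∀ᶠ z in 𝓝 y, (∀ a, h a z = 0) → σ (ρ z) = z := by
  obtain ⟨Θ, t1, t2, -, t4⟩ := exists_co h1 hd univ_mem
  have t0 : ∀ z ∈ Θ.source, (∀ a, h a z = 0) → (0, (Θ z).2) = Θ z := fun z hz k =>
    Prod.ext ((t4 _ hz).trans (funext k)).symm rfl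
  have t5 := t0 y t2 h0
  have t6 : (0, (Θ y).2) ∈ Θ.target := t5 ▸ Θ.map_source t2
  have t8 : AnV d (fun s : Cm d => ((0 : α → ℂ), s)) (Θ y).2 :=
    (anV_const _ _).prod (anV_chart (at_chart _))
  have s1 := t1.holA t8 t6
  refine ⟨fun s => Θ.symm (0, s), fun z => (Θ z).2, by simp only [t5, Θ.left_inv t2], s1, ?_,
    continuous_snd.continuousAt.comp (Θ.continuousAt t2), ?_, ?_⟩
  · refine .of_chart s1 (at_chart _) (at_chart _) ?_
    have m3 : HasFDerivAt (fun s' => chartAt (Cm n) (Θ.symm (0, (Θ y).2)) (Θ.symm (0, s')))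
        _ (Θ y).2 := (t1.inv _ t6 _ (at_chart _)).differentiableAt.hasFDerivAt.comp _
      (hasFDerivAt_prodMk_right 0 _)
    refine (congrArg (fun L : Cm _ →L[ℂ] Cm n => Injective L) m3.fderiv).mpr ?_
    exact (t1.inj t6 (at_chart _)).comp (Prod.mk_right_injective 0)
  · filter_upwards [t8.cont.eventually (Θ.open_target.mem_nhds t6)] with s a l
    exact congrFun ((t4 _ (Θ.map_target a)).symm.trans (congrArg Prod.fst (Θ.right_inv a))) l
  · filter_upwards [Θ.open_source.mem_nhds t2] with z hz k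
    simp only [t0 z hz k, Θ.left_inv hz]

/-- a submanifold contained in another one has the larger codimension -/
theorem codim_le (h1 : Ind n h y) (h0 : ∀ a, h a y = 0) {g : β → X → ℂ} (g1 : Ind n g y)
    (k : ∀ᶠ z in 𝓝 y, (∀ a, h a z = 0) → ∀ b, g b z = 0) : Fintype.card β ≤ Fintype.card α := by
  obtain ⟨σ, ρ, s1, s2, s3, -, s5, -⟩ := par h1 h0 (Nat.add_sub_cancel' (ind_le h1))
  rw [← s1] at k g1
  have := dim_le s2 s3 g1 ((s5.and (s2.cont.eventually k)).mono fun v hv => hv.2 hv.1)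
  have := ind_le h1
  omega

/-- the identity theorem on the zero set -/
theorem idw (hA : AnAt n A y) (h1 : Ind n h y) (h0 : ∀ a, h a y = 0)
    (k : ∃ᶠ q in 𝓝 y, (∀ a, h a q = 0) ∧ ∀ᶠ z in 𝓝 q, (∀ a, h a z = 0) → z ∈ A) :
    ∀ᶠ z in 𝓝 y, (∀ a, h a z = 0) → z ∈ A := by
  obtain ⟨σ, ρ, s1, s2, -, s4, s5, s6⟩ := par h1 h0 (Nat.add_sub_cancel' (ind_le h1))
  obtain ⟨m, g, g1, g2⟩ := hA
  have a1 : AnAt (n - Fintype.card α) (σ ⁻¹' A) (ρ y) :=
    ⟨m, fun i v => g i (σ v), fun i => s2.hol (s1.symm ▸ g1 i), s2.cont.eventually (s1.symm ▸ g2)⟩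
  have a2 := a1.near_interior (mem_closure_iff_frequently.2 (Tendsto.frequently s4 (by
    refine (k.and_eventually (s6.and (s4.eventually (s2.near.and s5.eventually_nhds)))).mono ?_
    rintro q ⟨⟨q1, q2⟩, q3, q4, q5⟩
    refine mem_interior_iff_mem_nhds.2 ?_
    filter_upwards [q5, q4.cont.eventually ((q3 q1).symm ▸ q2)] with v a b using b a)))
  filter_upwards [s6, s4.eventually (mem_interior_iff_mem_nhds.1 a2)] with z a b c
  exact a c ▸ b

variable {c : ℕ} {g : Fin c → X → ℂ}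

/-- the bad set -/
def T (n : ℕ) [ChartedSpace (Cm n) X] (A : Set X) (c : ℕ) : Set X :=
  closure (A \ Rg.Z n A (c + 1))

theorem an_T (hA : An n A) (c : ℕ) : An n (T n A c) := hA.clo (Rg.an_Z hA _)

theorem T_sub (hA : An n A) (c : ℕ) : T n A c ⊆ A := closure_minimal sdiff_subset hA.isClosed

theorem sub_man (hA : AnAt n A y) (hy : y ∈ A) (a : Ind n g y)
    (b : ∀ᶠ z in 𝓝 y, z ∈ A → ∀ a, g a z = 0) (h2 : y ∉ T n A c) :
    ∀ᶠ z in 𝓝 y, (∀ a, g a z = 0) → z ∈ A := by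
  have he := at_chart (n := n) y
  set e := chartAt (Cm n) y
  have := ind_le a
  exact ev_of_symm he (P := fun z => (∀ i, g i z = 0) → z ∈ A) (Rg.sub_of (d := n - c)
    (hA.chart he) (by rwa [mem_preimage, e.left_inv he.2]) (fun i => a.1 i e he) (a.2 e he)
    (fun i => ev_symm he (b.mono fun z k l => k l i)) (by simp at this; omega) (by
      filter_upwards [ev_symm he ((isClosed_closure.isOpen_compl.eventually_mem h2).and
        (at_near he)), e.open_target.mem_nhds (e.map_source he.2)] with z i j k l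
      rw [← e.right_inv j, ← Rg.r_iff i.2] at l
      exact i.1 (subset_closure ⟨k, fun k' => k'.2 l⟩)))

theorem not_T (a : Ind n g y) (b : ∀ᶠ z in 𝓝 y, z ∈ A ↔ ∀ a, g a z = 0) : y ∉ T n A c := by
  refine fun k => (mem_closure_iff_frequently.1 k) ?_
  filter_upwards [a.near, b.eventually_nhds] with z z1 z2 ⟨z3, z4⟩
  refine z4 ⟨z3, fun ⟨g', r1, r2⟩ => ?_⟩
  have := codim_le z1 (z2.self_of_nhds.1 z3) r1
    ((z2.and (eventually_all.2 r2)).mono fun w i j b => i.2 b (i.1.2 j))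
  simp at this

/-- the bad set is open in the set of the points where `A` is in a submanifold -/
theorem T_near (hA : An n A) (a : Ind n g y) (b : ∀ᶠ z in 𝓝 y, z ∈ A → ∀ a, g a z = 0)
    (hy : y ∈ T n A c) : ∀ᶠ z in 𝓝 y, z ∈ A → z ∈ T n A c := by
  by_contra k
  refine not_T a ((b.and (idw (hA y) a (b.self_of_nhds (T_sub hA c hy)) ?_)).mono
    fun z i => ⟨i.1, i.2⟩) hy
  refine ((not_eventually.1 k).and_eventually (a.near.and b.eventually_nhds)).mono ?_
  rintro q ⟨q1, q2, q3⟩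
  obtain ⟨q4, q5⟩ := Classical.not_imp.1 q1
  exact ⟨q3.self_of_nhds q4, sub_man (hA q) q4 q2 q3 q5⟩

end Vale.Agent.P301Z.Al.L
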