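import Vale.Agent.P301Z.Al.Sk

/-!
# P301, block ALG: the twist of two sheets is locally constant
-/

open scoped Manifold ContDiff ComplexOrder Topology Matrix
open Set Filter
open Vale.Agent.P272.K Vale.Agent.P299.IX Vale.Agent.P299.IX.Fock
open Vale.Agent.P281Z (Mf)
open Vale.Agent.P281Z.Hg
open Vale.Agent.P301Z.Lat

noncomputable section

namespace Vale.Agent.P301Z.Al

namespace LocuH

variable {D p N : ℕ} {V : Mf D} {Z : Mf p} {f : V.X → Z.X} {W W' : Set Z.X} {M M' : Mf N}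
  {Ψ : V.X → M.X} {Θ : Z.X → M.X → V.X} {Ψ' : V.X → M'.X} {Θ' : Z.X → M'.X → V.X} {t : Z.X}

theorem cont (h : Tv f W M Ψ Θ) (h' : Tv f W' M' Ψ' Θ') (ht : t ∈ W) (ht' : t ∈ W') (z : M.X) :
    ContinuousAt (fun q : Z.X × M.X => Ψ' (Θ q.1 q.2)) (t, z) :=
  ContinuousAt.comp (f := fun q : Z.X × M.X => Θ q.1 q.2)
    (h'.Ψc _ (by rwa [(h.h1 t ht z).1])) (h.Θc t ht z)

theorem smo (h : Tv f W M Ψ Θ) (h' : Tv f W' M' Ψ' Θ') (ht : t ∈ W) (ht' : t ∈ W') :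
    Smo N N fun z => Ψ' (Θ t z) := by
  refine ⟨continuous_iff_continuousAt.2 fun z => ContinuousAt.comp (f := fun z => (t, z))
    (cont h h' ht ht' z) (Continuous.prodMk_right t).continuousAt, fun e e' x he he' => ?_⟩
  have aE : At (chartAt (Cm D) (Θ t x)) (Θ t x) := ⟨chart_mem_atlas _ _, mem_chart_source _ _⟩
  have aχ : At (chartAt (Cm p) t) t := ⟨chart_mem_atlas _ _, mem_chart_source _ _⟩
  set E := chartAt (Cm D) (Θ t x)
  have k1 : ContDiffAt ℝ ∞ (fun z => E (Θ t (e.symm z))) (e x) := by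
    have := (h.Θs t ht x _ e E aχ he aE).comp (f := fun z => (chartAt (Cm p) t t, z)) (e x)
      (contDiffAt_const.prodMk contDiffAt_id)
    simpa only [Function.comp_def, OpenPartialHomeomorph.left_inv _ aχ.2] using this
  have k2 := h'.Ψs (Θ t x) (by rwa [(h.h1 t ht x).1]) E e' aE he'
  rw [show E (Θ t x) = E (Θ t (e.symm (e x))) by rw [e.left_inv he.2]] at k2
  refine (k2.comp (f := fun z => E (Θ t (e.symm z))) (e x) k1).congr_of_eventuallyEq ?_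
  have k3 : ContinuousAt (Θ t) x := ContinuousAt.comp (f := fun z => (t, z))
    (h.Θc t ht x) (Continuous.prodMk_right t).continuousAt
  filter_upwards [(k3.tendsto.comp (e.tendsto_symm he.2)).eventually
    (E.open_source.mem_nhds aE.2)] with z hz
  exact congrArg (fun y => e' (Ψ' y)) (E.left_inv hz).symm

variable {n r σ : ℕ} {B : BB n r} {F : Fr B} {c : Fin σ → ℝ} {H : Fin σ → Fin r → ℝ}
  {G : PF D p (n + n) c}

/-- the twist read on the central fibres -/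
theorem read (hL : LAT) (S S' : Sh F H G) {t : G.Z.X} (ht : t ∈ S.W) (ht' : t ∈ S'.W) {A : ZM r}
    (h : Tw A (S.Φ t) (S'.Φ t)) {T : Fs S'.M.V → Fs S.M.V}
    (hT : IsPb (fun z => S'.Ψ (S.Θ t z)) T) (u : Fs S'.M.V) (hu : Cl2 S'.M.V u) :
    S.M.m.c (T u) = zC A *ᵥ S'.M.m.c u := by
  obtain ⟨φ, h1, h2, h3⟩ := h
  obtain ⟨a1, a2⟩ := S.mor t ht
  obtain ⟨b1, b2⟩ := S'.mor t ht'
  have hs := smo S.tv S'.tv ht ht'
  obtain ⟨Ta, hTa⟩ := (pb1T _ _ _ _ _ a1).1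
  obtain ⟨Tb, hTb⟩ := (pb1T _ _ _ _ _ b1).1
  obtain ⟨Tφ, hTφ⟩ := (pb1T _ _ _ _ _ h2).1
  obtain ⟨c1, c2⟩ := (pbc _ _ _ _ f1a k1b').2.2 _ _ _ _ a1 hs
  have d2 := ((pbc _ _ _ _ f1a k1b').2.2 _ _ _ _ h2 b1).2 _ _ hTφ hTb
  have e : (fun z => S'.Ψ ((S'.Φ t).i z)) ∘ φ =
      (fun z => S'.Ψ (S.Θ t z)) ∘ fun z => S.Ψ ((S.Φ t).i z) := by
    funext z
    have k : G.f ((S.Φ t).i z) = t := by
      have := mem_range_self (f := (S.Φ t).i) z
      rwa [(S.mp t ht).emb.rng] at this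
    have k' := S.tv.h2 ((S.Φ t).i z) (by rwa [k])
    rw [k] at k'
    simp only [Function.comp, h1, k']
  rw [e] at d2
  have k := congrFun ((pb1T _ _ _ _ _ c1).2.1 _ _ (c2 _ _ hTa hT) d2) u
  rw [← a2 _ hTa _ ((hL.mark.pb hs hT u).1 hu), ← b2 _ hTb u hu,
    ← h3 _ hTφ _ ((hL.mark.pb b1 hTb u).1 hu)]
  exact congrArg _ k

theorem zC_inj {A A' : ZM r} (h : ∀ x, zC A *ᵥ x = zC A' *ᵥ x) : A = A' := by
  ext i j
  simpa [zC] using congrFun (h (Pi.single j 1)) i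

end LocuH

open LocuH

theorem locu (hL : LAT) (hT : TW) : LOCU := by
  intro n r σ D p B F k c H G S S' A hP t ht ht' hA
  have := ChartedSpace.locallyConnectedSpace (Cm p) G.Z.X
  have hO : ∀ q : connectedComponentIn (S.W ∩ S'.W) t, q.1 ∈ S.W ∧ q.1 ∈ S'.W :=
    fun q => connectedComponentIn_subset (S.W ∩ S'.W) t q.2
  have := Subtype.preconnectedSpace (isPreconnected_connectedComponentIn (x := t) (F := S.W ∩ S'.W))
  have hs := fun q => smo S.tv S'.tv (hO q).1 (hO q).2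
  choose T hT' using fun q => (pb1T _ _ _ _ _ (hs q)).1
  have hh := hL.mark.htpy S.kM S'.kM (P := connectedComponentIn (S.W ∩ S'.W) t)
    (fun q z => S'.Ψ (S.Θ q.1 z)) (fun q => T q)
    (continuous_iff_continuousAt.2 fun q => ContinuousAt.comp
      (f := fun q : connectedComponentIn (S.W ∩ S'.W) t × S.M.V.X => (q.1.1, q.2))
      (cont S.tv S'.tv (hO q.1).1 (hO q.1).2 q.2)
      ((continuous_subtype_val.comp continuous_fst).prodMk continuous_snd).continuousAt) hs hT'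
  filter_upwards [connectedComponentIn_mem_nhds ((S.opn.inter S'.opn).mem_nhds ⟨ht, ht'⟩)]
    with t' h
  obtain ⟨h1, h2⟩ := hO ⟨t', h⟩
  obtain ⟨A', -, hA'⟩ := ((hT n r σ D p B F k c H G t' hP).2.1 _ _ _ _ (S.mp t' h1) (S'.mp t' h2)).1
  obtain rfl : A = A' := zC_inj fun x => by
    obtain ⟨u, hu, rfl⟩ := S'.M.m.onto x
    have q₀ := mem_connectedComponentIn (F := S.W ∩ S'.W) ⟨ht, ht'⟩
    have c1 := (hL.mark.pb (hs ⟨t, q₀⟩) (hT' _) u).1 hu
    have c2 := (hL.mark.pb (hs ⟨t', h⟩) (hT' _) u).1 hu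
    rw [← read hL S S' ht ht' hA (hT' ⟨t, q₀⟩) u hu, ← read hL S S' h1 h2 hA' (hT' ⟨t', h⟩) u hu,
      ← sub_eq_zero, ← map_sub]
    exact (S.M.m.ker _ ⟨by rw [map_sub, c1.1, c2.1, sub_zero], by rw [map_sub, c1.2, c2.2]⟩).2
      (hh u hu _ _)
  exact hA'

end Vale.Agent.P301Z.Al
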