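import Vale.Agent.P301Z.Al.Ef0
import Vale.Agent.P301Z.Al.Mprod

/-!
# P301, block ALG: finite products with their Kähler forms (MPK)
-/

open scoped Manifold ContDiff Topology ComplexOrder
open Set Matrix
open Vale.Agent.P272.K
open Vale.Agent.P272.K.INT (IsClosedForm)
open Vale.Agent.P277Z (at_chart)
open Vale.Agent.P281Z
open Vale.Agent.P299.D (pullM jacF)
open Vale.Agent.P301Z.Lat

noncomputable section

namespace Vale.Agent.P301Z.Al

namespace MpkA

theorem jac_mulVec {a b : ℕ} {N X : Type} [TopologicalSpace N] [TopologicalSpace X] {f : N → X}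
    {e : Chart a N} {e' : Chart b X} {q : N}
    (h : DifferentiableAt ℂ (fun z => e' (f (e.symm z))) (e q)) (u : Cm a) :
    (jacF f e e' q).mulVec u = df f e e' q u := by
  have key : ∀ p i, jacF f e e' q p i = df f e e' q (Pi.single i 1) p := fun p i => by
    have h1 : DifferentiableAt ℂ (fun z => e' (f (e.symm z)) p) (e q) :=
      (differentiableAt_pi.1 h) p
    have h2 : HasFDerivAt (fun z => e' (f (e.symm z)) p)
        ((ContinuousLinearMap.proj p).comp (fderiv ℂ (fun z => e' (f (e.symm z))) (e q))) (e q) :=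
      (ContinuousLinearMap.proj (R := ℂ) (φ := fun _ : Fin b => ℂ) p).hasFDerivAt.comp (e q)
        h.hasFDerivAt
    rw [jacF, Matrix.of_apply, dz_of_holo h1, h2.fderiv]
    rfl
  funext p
  conv_rhs => rw [pi_eq_sum_univ' u]
  rw [map_sum, Finset.sum_apply]
  simp only [Matrix.mulVec, dotProduct]
  refine Finset.sum_congr rfl fun i _ => ?_
  rw [map_smul, Pi.smul_apply, key, smul_eq_mul, mul_comm]

theorem quad {a b : ℕ} (J : Matrix (Fin b) (Fin a) ℂ) (M : Matrix (Fin b) (Fin b) ℂ) (u : Cm a) :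
    star u ⬝ᵥ (Jᵀ * M * J.map (starRingEnd ℂ)) *ᵥ u =
      star (star (J *ᵥ star u)) ⬝ᵥ M *ᵥ star (J *ᵥ star u) := by
  rw [star_star, ← mulVec_mulVec, ← mulVec_mulVec, dotProduct_mulVec, vecMul_transpose]
  congr 2
  funext i
  simp [Matrix.mulVec, dotProduct]

theorem closed_sum {m : ℕ} {P : Mf m} {ι : Type} (s : Finset ι) (b : ι → Fld P)
    (h : ∀ a, IsClosedForm (b a)) :
    IsClosedForm fun (e : Chart m P.X) z => ∑ a ∈ s, b a e z := by
  classical
  induction s using Finset.induction_on with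
  | empty =>
    exact ⟨fun _ _ _ _ _ => by simpa using contDiffAt_const, fun _ _ _ _ _ => by simp,
      fun _ _ _ _ _ _ => by simp [dz]⟩
  | insert a s ha ih =>
    simp only [Finset.sum_insert ha]
    exact (h a).add ih

/-- the differentials of the `π a` are jointly injective -/
def JI {r m : ℕ} {d : Fin r → ℕ} {V : ∀ a, Mf (d a)} {P : Mf m} (π : ∀ a, P.X → (V a).X) : Prop :=
  ∀ x (e : Chart m P.X) ξ, At e x → (∀ a, df (π a) e (chartAt (Cm (d a)) (π a x)) x ξ = 0) → ξ = 0

theorem kah (h : PBR) {r m : ℕ} {d : Fin r → ℕ} {V : ∀ a, Mf (d a)} {P : Mf m}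
    {π : ∀ a, P.X → (V a).X} (hπ : ∀ a, HolM m (d a) (π a)) (hj : JI π) (w : ∀ a, Fld (V a))
    (c : Fin r → ℝ) (hw : ∀ a, IsKahler (w a)) (hc : ∀ a, 0 < c a) :
    IsKahler fun (e : Chart m P.X) z => ∑ a, (c a : ℂ) • pullM (π a) (w a) e z := by
  have h1 : ∀ a, R11 (V := P) (pullM (π a) (w a)) := fun a => h.r11 (hπ a)
    ⟨INT.IsKahler.isClosedForm (hw a), fun e x he => ((hw a).posDef e x he).isHermitian⟩
  have h2 := closed_sum Finset.univ (fun a (e : Chart m P.X) z => (c a : ℂ) • pullM (π a) (w a) e z)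
    fun a => (h1 a).toIsClosedForm.smul _
  refine ⟨⟨h2.smooth, fun e x he => ?_, h2.form⟩, fun e x he i j k => h2.closed e x he k i j⟩
  refine Matrix.PosDef.of_dotProduct_mulVec_pos ?_ fun u hu => ?_
  · refine (conjTranspose_sum _ _).trans (Finset.sum_congr rfl fun a _ => ?_)
    exact ((h1 a).herm e x he).smul (Complex.conj_ofReal _)
  · have e1 : ∀ a, star u ⬝ᵥ ((c a : ℂ) • pullM (π a) (w a) e (e x)) *ᵥ u = (c a : ℂ) *
        (star (star (df (π a) e (chartAt (Cm (d a)) (π a x)) x (star u))) ⬝ᵥ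
          w a (chartAt (Cm (d a)) (π a x)) (chartAt (Cm (d a)) (π a x) (π a x)) *ᵥ
            star (df (π a) e (chartAt (Cm (d a)) (π a x)) x (star u))) := fun a => by
      rw [smul_mulVec, dotProduct_smul, smul_eq_mul, pullM, he.left_inv, quad,
        jac_mulVec (((hπ a).at x).an he (at_chart _)).differentiableAt]
    rw [Matrix.sum_mulVec, dotProduct_sum]
    simp only [e1]
    have hc' : ∀ a, (0 : ℂ) < c a := fun a => Complex.zero_lt_real.2 (hc a)
    obtain ⟨a, ha⟩ : ∃ a, df (π a) e (chartAt (Cm (d a)) (π a x)) x (star u) ≠ 0 := by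
      by_contra k
      push Not at k
      exact star_ne_zero.2 hu (hj x e _ he k)
    refine Finset.sum_pos' (fun b _ => mul_nonneg (hc' b).le
      (((hw b).posDef _ _ (at_chart _)).posSemidef.dotProduct_mulVec_nonneg _))
      ⟨a, Finset.mem_univ a, mul_pos (hc' a)
        (((hw a).posDef _ _ (at_chart _)).dotProduct_mulVec_pos (star_ne_zero.2 ha))⟩

theorem ex (r : ℕ) : ∀ (d : Fin r → ℕ) (V : ∀ a, Mf (d a)), (∀ a, (V a).Prj) →
    (∀ a, ConnectedSpace (V a).X) → ∃ (m : ℕ) (P : Mf m) (π : ∀ a, P.X → (V a).X), P.Prj ∧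
      ConnectedSpace P.X ∧ (∀ a, HolM m (d a) (π a)) ∧
      (∀ (n : ℕ) (W : Mf n) (f : ∀ a, W.X → (V a).X), (∀ a, HolM n (d a) (f a)) →
        ∃ g : W.X → P.X, HolM n m g ∧ ∀ a y, π a (g y) = f a y) ∧ JI π := by
  induction r with
  | zero =>
    intro d V _ _
    refine ⟨0, Rs.Zr.mf Unit, fun a => a.elim0, Rs.Zr.prj _, ?_, fun a => a.elim0,
      fun n W f _ => ⟨fun _ => (), holM_const _, fun a => a.elim0⟩,
      fun _ _ _ _ _ => Subsingleton.elim _ _⟩
    have : Subsingleton (Rs.Zr.mf Unit).X := inferInstanceAs (Subsingleton Unit)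
    have : Nonempty (Rs.Zr.mf Unit).X := inferInstanceAs (Nonempty Unit)
    exact { isPreconnected_univ := Set.subsingleton_univ.isPreconnected, toNonempty := this }
  | succ r ih =>
    intro d V hV hc
    obtain ⟨m, P, π, hP, hPc, hπ, hu, hj⟩ :=
      ih (fun a => d a.succ) (fun a => V a.succ) (fun a => hV _) fun a => hc _
    have := hc 0
    refine ⟨d 0 + m, (V 0).prod P,
      fun a => Fin.cases (motive := fun a => ((V 0).prod P).X → (V a).X) ((V 0).p1 P)
        (fun a z => π a ((V 0).p2 P z)) a, prjp _ _ _ _ (hV 0) hP, prod_conn, fun a => ?_,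
      fun n W f hf => ?_, fun x e ξ he k => ?_⟩
    · refine Fin.cases ?_ (fun a => ?_) a
      · exact hol_p1
      · exact (hπ a).comp hol_p2
    · obtain ⟨g, hg, hg'⟩ := hu n W (fun a => f a.succ) fun a => hf _
      refine ⟨fun y => (V 0).pair P (f 0 y) (g y), (hf 0).pair hg, fun a y => ?_⟩
      refine Fin.cases ?_ (fun a => ?_) a
      · rfl
      · exact hg' a y
    · refine (imm_pair (hol_p1.at x) (hol_p2.at x) he (at_chart _) (at_chart _)).1 (imm_id x) ξ
        (k 0) (hj ((V 0).p2 P x) _ _ (at_chart _) fun a => ?_)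
      have k1 : df (fun z => π a ((V 0).p2 P z)) e
          (chartAt (Cm (d a.succ)) (π a ((V 0).p2 P x))) x ξ = 0 := k a.succ
      rw [df_comp ((hπ a).at _) (hol_p2.at x) he (at_chart _) (at_chart _)] at k1
      exact k1

end MpkA

/-- **MPK** -/
theorem mpk_of (h : PBR) : MPK := fun r d V hV hc => by
  obtain ⟨m, P, π, h1, h2, h3, h4, h5⟩ := MpkA.ex r d V hV hc
  exact ⟨m, P, π, h1, h2, h3, h4, fun w c hw hc => MpkA.kah h h3 h5 w c hw hc⟩

end Vale.Agent.P301Z.Al
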