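import Vale.Agent.P301Z.Al.Sk
import Vale.Agent.P299.H956.D1.Pull2
import Vale.Agent.P281Z.Mf.Loc

/-!
# P301, block ALG: pull backs under holomorphic maps
-/

open scoped Manifold ContDiff ComplexOrder Topology Matrix
open Set Filter
open Vale.Agent.P272.K Vale.Agent.P299.IX Vale.Agent.P299.IX.Fock
open Vale.Agent.P281Z (Mf HolM Emb)
open Vale.Agent.P281Z.Hg
open Vale.Agent.P299.D (pullM jacF)
open Vale.Agent.P299.H956
open Vale.Agent.P301.H599 (IsHolTwoForm)
open Vale.Agent.P301Z.Lat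

noncomputable section

namespace Vale.Agent.P301Z.Al

namespace PbrX

theorem lr20 (hP : PWA) {a b : ℕ} {ψ : Cm a → Cm b} {z : Cm a} (h : DifferentiableAt ℂ ψ z)
    (S : Mx b) : lr (jc ψ z) *ᵥ f20 S = f20 ((jmR ψ z)ᵀ * S * jmR ψ z) := by
  have h' := h.restrictScalars ℝ
  have k : jc ψ z = Matrix.reindex finSumFinEquiv finSumFinEquiv
      (Matrix.fromBlocks (jmR ψ z)ᵀ 0 0 ((jmR ψ z)ᵀ.map star)) := by
    refine Kb.ext4 (fun i j => ?_) (fun i j => ?_) (fun i j => ?_) fun i j => ?_
    · rw [Kb.jc_hh]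
      simp only [hl, Matrix.reindex_apply, Matrix.submatrix_apply,
        finSumFinEquiv_symm_apply_castAdd, Matrix.fromBlocks_apply₁₁]
      rfl
    · rw [Kb.jc_ha h', Kb.dzb_hol (differentiableAt_pi.1 h j), star_zero]
      simp only [hl, ah, Matrix.reindex_apply, Matrix.submatrix_apply,
        finSumFinEquiv_symm_apply_castAdd, finSumFinEquiv_symm_apply_natAdd,
        Matrix.fromBlocks_apply₁₂, Matrix.zero_apply]
    · rw [Kb.jc_ah, Kb.dzb_hol (differentiableAt_pi.1 h j)]
      simp only [hl, ah, Matrix.reindex_apply, Matrix.submatrix_apply,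
        finSumFinEquiv_symm_apply_castAdd, finSumFinEquiv_symm_apply_natAdd,
        Matrix.fromBlocks_apply₂₁, Matrix.zero_apply]
    · rw [Kb.jc_aa h']
      simp only [ah, Matrix.reindex_apply, Matrix.submatrix_apply,
        finSumFinEquiv_symm_apply_natAdd, Matrix.fromBlocks_apply₂₂]
      rfl
  rw [f20, hP.lr_tw, f20, k]
  simp [blk, Matrix.fromBlocks_multiply, Matrix.fromBlocks_transpose]

variable {d d' : ℕ} {V : Mf d} {V' : Mf d'} {f : V.X → V'.X}

theorem smo (hf : HolM d d' f) : Smo d d' f := ⟨hf.cont, fun _ _ x h h' =>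
  ((rep_hol (hf x) h h').restrict_scalars ℝ).of_le le_top⟩

theorem r11 {a : Fld V'} (hf : HolM d d' f) (ha : R11 a) : R11 (V := V) (pullM f a) := by
  refine ⟨⟨fun e y h i j => smooth_pullM ha.form ha.smooth (hf y) h i j,
    isForm_pullM ha.form hf, fun e y h k i j => ?_⟩, fun e y h => ?_⟩
  · have hc := at_chartAt (n := d') (f y)
    set c := chartAt (Cm d') (f y)
    have h1 := pullM_eventually ha.form (hf y) h hc
    have e1 : ∀ i j, (fun z => pullM f a e z i j) =ᶠ[𝓝 (e y)] fun z =>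
        (((jmR (fun z => c (f (e.symm z))) z)ᵀ * a c (c (f (e.symm z))) *
          (jmR (fun z => c (f (e.symm z))) z).map (starRingEnd ℂ)) i j) := fun i j =>
      h1.mono fun z hz => congrFun (congrFun hz i) j
    rw [dz_congr (e1 i j), dz_congr (e1 k j)]
    have hy : c (f (e.symm (e y))) = c (f y) := by rw [h.left_inv]
    refine closed_comp (τ := fun z => c (f (e.symm z))) (b := fun z => a c z)
      (rep_hol (hf y) h hc) (fun i j => ?_) (fun i j k => ?_) i j k
    · simp only [hy]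
      exact (ha.smooth c (f y) hc i j).differentiableAt (by simp)
    · simp only [hy]
      exact ha.closed c (f y) hc k i j
  · have hc := at_chartAt (n := d') (f y)
    rw [pullM_eq ha.form (hf y) h hc]
    have h1 := Matrix.isHermitian_conjTranspose_mul_mul
      ((jacF f e (chartAt (Cm d') (f y)) y).map (starRingEnd ℂ)) (ha.herm _ _ hc)
    rwa [show ((jacF f e (chartAt (Cm d') (f y)) y).map (starRingEnd ℂ))ᴴ =
      (jacF f e (chartAt (Cm d') (f y)) y)ᵀ by
        ext i j
        simp [Matrix.conjTranspose_apply]] at h1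

theorem is11 {a : Fld V'} {u : Fs V'} {T : Fs V' → Fs V} (hf : HolM d d' f) (hT : IsPb f T)
    (hu : Is11 a u) : Is11 (V := V) (pullM f a) (T u) := fun e x hx => by
  have hc := at_chartAt (n := d') (f x)
  rw [hT u e _ x hx hc, hu _ _ hc, Matrix.mulVec_mulVec, FibH.lr_Lw (rep_diff (hf x) hx hc),
    ← Matrix.mulVec_mulVec, F1aH.lr_ev]
  unfold pullM
  rw [hx.left_inv]
  rfl

/-- the pull back of a holomorphic two-form -/
def p20 (f : V.X → V'.X) (s : Fld V') : Fld V := fun e z =>
  (jacF f e (chartAt (Cm d') (f (e.symm z))) (e.symm z))ᵀ *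
    s (chartAt (Cm d') (f (e.symm z))) (chartAt (Cm d') (f (e.symm z)) (f (e.symm z))) *
    jacF f e (chartAt (Cm d') (f (e.symm z))) (e.symm z)

theorem p20_eq {s : Fld V'} (hf : HolM d d' f) (hs : IsHolTwoForm s) {e : Chart d V.X}
    {e' : Chart d' V'.X} {x : V.X} (h : At e x) (h' : At e' (f x)) :
    p20 f s e (e x) = (jacF f e e' x)ᵀ * s e' (e' (f x)) * jacF f e e' x := by
  unfold p20
  rw [h.left_inv]
  have hc := at_chartAt (n := d') (f x)
  rw [jacF_right (hf x) h h' hc, hs.change e' (chartAt (Cm d') (f x)) (f x) h' hc,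
    Matrix.transpose_mul]
  simp only [Matrix.mul_assoc]

theorem p20_hol {s : Fld V'} (hf : HolM d d' f) (hs : IsHolTwoForm s) :
    IsHolTwoForm (p20 f s) := by
  refine ⟨fun e x h i j => ?_, fun e x h => ?_, fun e e' x h h' => ?_⟩
  · have hc := at_chartAt (n := d') (f x)
    set c := chartAt (Cm d') (f x)
    have hτ := rep_hol (hf x) h hc
    have hJ := fun p i => (jmR_holo hτ p i).analyticAt
    have h3 : AnalyticAt ℂ (fun z => (((jmR (fun z => c (f (e.symm z))) z)ᵀ *
        s c (c (f (e.symm z))) * jmR (fun z => c (f (e.symm z))) z) i j : ℂ)) (e x) := by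
      simp only [Matrix.mul_apply, Matrix.transpose_apply]
      refine Finset.analyticAt_fun_sum _ fun q _ => AnalyticAt.fun_mul
        (Finset.analyticAt_fun_sum _ fun p _ => (hJ p i).fun_mul ?_) (hJ q j)
      exact AnalyticAt.comp_of_eq' (hs.holo c (f x) hc p q) hτ.analyticAt (by rw [h.left_inv])
    refine h3.congr ?_
    filter_upwards [nhds_at_map hf.cont.continuousAt h hc] with z hz
    have := p20_eq hf hs hz.2.1 hz.2.2
    rw [e.right_inv hz.1] at this
    rw [this, jacF_target hz.2.1.1 hz.1]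
  · have hc := at_chartAt (n := d') (f x)
    rw [p20_eq hf hs h hc, Matrix.transpose_mul, Matrix.transpose_mul, hs.alt _ _ hc,
      Matrix.transpose_transpose, Matrix.neg_mul, Matrix.mul_neg, Matrix.mul_assoc]
  · have hc := at_chartAt (n := d') (f x)
    rw [p20_eq hf hs h hc, p20_eq hf hs h' hc, jacF_left (hf x) h h' hc, Matrix.transpose_mul]
    simp only [Matrix.mul_assoc]

theorem det_ne {V' : Mf d} {φ : V.X → V'.X} {ψ : V'.X → V.X} (h1 : HolM d d φ) (h2 : HolM d d ψ)
    (h3 : ∀ z, ψ (φ z) = z) {e : Chart d V.X} {e' : Chart d V'.X} {z : V.X} (h : At e z)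
    (h' : At e' (φ z)) : (jacF φ e e' z).det ≠ 0 := by
  have k := jacF_comp (e'' := e) (h1 z) (h2 (φ z)) h h' (by rwa [h3])
  rw [funext h3, jacF_id, jacM_self h] at k
  exact Matrix.det_ne_zero_of_left_inverse k.symm

end PbrX

open PbrX

theorem pbr_of (hP : PWA) : PBR where
  smo := smo
  r11 := r11
  is11 := is11
  is20 {d d' V V' f s u T} hf hT hs hu := by
    refine ⟨p20 f s, p20_hol hf hs, fun e x hx => ?_, fun _ _ _ => p20_eq hf hs⟩
    have hc := at_chartAt (n := d') (f x)
    rw [hT u e _ x hx hc, hu _ _ hc, lr20 hP (rep_diff (hf x) hx hc), p20_eq hf hs hx hc]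
    rfl
  comp hf hg ha _ _ h := (pullM_comp ha.form hf hg h).symm
  fac {d D Y Y' V i i' S} h h' := by
    obtain ⟨φ, a1, a2⟩ := h'.lift h.hol h.mem
    obtain ⟨ψ, b1, b2⟩ := h.lift h'.hol h'.mem
    have k1 : ∀ z, ψ (φ z) = z := fun z => h.inj (by rw [b2, a2])
    have k2 : ∀ z, φ (ψ z) = z := fun z => h'.inj (by rw [a2, b2])
    refine ⟨⟨⟨φ, ψ, k1, k2⟩, a1.cont, b1.cont⟩, a2, a1, b1, fun x => ?_,
      fun e e' z => det_ne a1 b1 k1⟩
    have hc := at_chartAt (n := d) x
    have hc' := at_chartAt (n := d) (φ x)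
    refine ⟨_, _, hc, hc', lt_of_lt_of_eq ?_ (INT.det_fderiv_real (rep_diff (a1 x) hc hc')).symm⟩
    exact pow_pos (norm_pos_iff.2 (det_ne a1 b1 k1 hc hc')) 2

theorem pbr (hL : LAT) : PBR := pbr_of hL.pwa

end Vale.Agent.P301Z.Al
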