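import Vale.Agent.P301Z.Al.Sk2
import Vale.Agent.P301Z.Lat.Pk

/-!
# P301, block ALG: sheets exist
-/

open scoped Manifold ContDiff ComplexOrder Topology Matrix
open Set Filter
open Vale.Agent.P272.K
open Vale.Agent.P277Z (Hol hol_const hol_comp)
open Vale.Agent.P277Z.Slc (dd)
open Vale.Agent.P281Z
open Vale.Agent.P281Z.Hg
open Vale.Agent.P299.D (pullM jacF)
open Vale.Agent.P301.H599 (IsHolTwoForm)
open Vale.Agent.P301Z.Lat

noncomputable section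

namespace Vale.Agent.P301Z.Al

namespace PerH

variable {n r σ D p N : ℕ} {B : BB n r} {V : Mf D} {Z : Mf p} {f : V.X → Z.X} {W W' : Set Z.X}

theorem jc_comp {Y : Mf N} {j : Y.X → V.X} {κ : Type} {h : κ → V.X → ℂ} {y : Y.X}
    {e' : Chart N Y.X} {e : Chart D V.X} (hj : HolA N D j y) (hh : ∀ a, Hol D (h a) (j y))
    (he' : At e' y) (he : At e (j y)) :
    Sn.jc (fun a y => h a (j y)) e' y = Sn.jc h e (j y) * jacF j e' e y := by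
  ext a b
  have k := dd_comp (hh a) hj he' he
  have k' : ∀ k, jacF j e' e y k b = df j e' e y (Pi.single b 1) k := fun k =>
    (dz_of_holo (hj.hol (hol_chart he k) e' he').differentiableAt).trans
      (df_apply hj he' he _ k).symm
  simp only [Sn.jc, Matrix.mul_apply, Matrix.of_apply, k',
    dz_of_holo (hh a e he).differentiableAt, dz_of_holo (hj.hol (hh a) e' he').differentiableAt]
  refine (congrArg (fun T : Cm N →L[ℂ] ℂ => T (Pi.single b 1)) k).trans ?_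
  change dd (h a) e (j y) (df j e' e y (Pi.single b 1)) =
    ∑ k, dd (h a) e (j y) (Pi.single k 1) * df j e' e y (Pi.single b 1) k
  generalize df j e' e y (Pi.single b 1) = v
  conv_lhs => rw [pi_eq_sum_univ' v]
  simp only [map_sum, map_smul, smul_eq_mul, mul_comm]

theorem hol_jc {κ : Type} {h : κ → V.X → ℂ} {y : V.X} {e : Chart D V.X}
    (hh : ∀ a, Hol D (h a) y) (he : At e y) (a : κ) (b : Fin D) :
    Hol D (fun y => Sn.jc h e y a b) y := by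
  refine hol_comp he (f := fun z => dz b (fun z => h a (e.symm z)) z) (AnalyticAt.congr
    (((ContinuousLinearMap.apply ℂ ℂ (Pi.single b (1 : ℂ) : Cm D)).analyticAt _).fun_comp
      (hh a e he).fderiv) ?_)
  filter_upwards [(hh a e he).eventually_analyticAt] with z hz
  exact (dz_of_holo hz.differentiableAt).symm

theorem relS {G : Fy D p (n + n)} {W W' : Set G.Z.X} {s : ∀ t, Fld (G.Y t)} (h : G.Rel W' s)
    (hW : W ⊆ W') (hU : W ⊆ G.U) {Φ : G.Z.X → Fb B G.V}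
    (hΦ : ∀ t ∈ W, ∃ sc m k, Φ t = ⟨⟨⟨G.Y t, sc, m, k⟩, s t⟩, G.j t⟩) : RelS G.f W Φ := by
  intro y hy e he
  obtain ⟨g, S, h1, h2, h3⟩ := h y (hW hy)
  refine ⟨fun z => (Sn.jc g e (e.symm z))ᵀ * S (e.symm z) * Sn.jc g e (e.symm z), fun a b => ?_, ?_⟩
  · refine (?_ : Hol D (fun y => ((Sn.jc g e y)ᵀ * S y * Sn.jc g e y) a b) y) e he
    simp only [Matrix.mul_apply, Matrix.transpose_apply]
    exact Hol.sum _ fun k _ => (Hol.sum _ fun l _ => (hol_jc h1 he l a).mul (h2 l k)).mul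
      (hol_jc h1 he k b)
  filter_upwards [h3, at_near he, eventually_all.2 fun a => (h1 a).near] with y' k1 k2 k3 t ht
  obtain ⟨sc, m, k, hk⟩ := hΦ t ht
  rw [hk]
  rintro z rfl e' he'
  refine (k1 t (hW ht) z rfl e' he').2.trans ?_
  rw [jc_comp ((G.emb t (hU ht)).hol.at z) k3 he' k2, e.left_inv k2.2, Matrix.transpose_mul]
  simp only [Matrix.mul_assoc]

/-- the two-form is multiplied by `a` -/
def scl (y : Fb B V) (a : ℂ) : Fb B V := ⟨⟨y.Y, fun e z => a • y.s e z⟩, y.i⟩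

theorem fib {Y : Mf N} {i : Y.X → V.X} {t : Z.X} (h : Emb N D i (f ⁻¹' {t})) (z : Y.X) :
    f (i z) = t := (h.rng ▸ mem_range_self z : i z ∈ f ⁻¹' {t})

theorem relS_scl {Φ : Z.X → Fb B V} (h : RelS f W Φ) (hf : HolM D p f) {a : Z.X → ℂ}
    (ha : ∀ t ∈ W, Hol p a t) (hi : ∀ t ∈ W, Emb (n + n) D (Φ t).i (f ⁻¹' {t})) :
    RelS f W fun t => scl (Φ t) (a t) := by
  intro y hy e he
  obtain ⟨S, h1, h2⟩ := h y hy e he
  refine ⟨fun z => a (f (e.symm z)) • S z, fun k l => (hf.hol (ha _ hy) e he).mul (h1 k l), ?_⟩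
  filter_upwards [h2, at_near he] with y' k1 k2 t ht z hz e' he'
  refine (congrArg (fun M => a t • M) (k1 t ht z hz e' he')).trans ?_
  have k3 : f y' = t := hz ▸ fib (hi t ht) z
  simp only [e.left_inv k2.2, k3, Matrix.mul_smul, Matrix.smul_mul]
  rfl

theorem sym_scl (L : LAT) {Y : MK B} {s : Fld Y.V} {π : Fin r → ℂ} (h : Y.Sym s π) {a : ℂ}
    (ha : a ≠ 0) : Y.Sym (fun e z => a • s e z) (a • π) := by
  obtain ⟨⟨h1, u, h2, h3, h4⟩, h5⟩ := h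
  refine ⟨⟨⟨fun e x he i j => analyticAt_const.mul (h1.holo e x he i j), fun e x he => ?_,
    fun e e' x he he' => ?_⟩, a • u, fun e x he => ?_, h3.smul a, by rw [map_smul, h4]⟩,
    fun e x he => ?_⟩
  · rw [Matrix.transpose_smul, h1.alt e x he, smul_neg]
  · rw [h1.change e e' x he he', Matrix.mul_smul, Matrix.smul_mul]
  · rw [vl_smul, h2 e x he, L.pwa.f20_smul]
  · rw [Matrix.det_smul]
    exact mul_ne_zero (pow_ne_zero _ ha) (h5 e x he)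

theorem tv_mono {M : Mf N} {Ψ : V.X → M.X} {Θ : Z.X → M.X → V.X} (h : Tv f W' M Ψ Θ)
    (k : W ⊆ W') : Tv f W M Ψ Θ :=
  ⟨fun t ht => h.h1 t (k ht), fun y hy => h.h2 y (k hy), fun y hy => h.Ψc y (k hy),
    fun y hy => h.Ψs y (k hy), fun t ht => h.Θc t (k ht), fun t ht => h.Θs t (k ht)⟩

theorem exu (L : LAT) (Fl : FLT) {M : MK B} {Ψ : V.X → M.V.X} {Θ : Z.X → M.V.X → V.X}
    (tv : Tv f W M.V Ψ Θ) {t : Z.X} (ht : t ∈ W) {y : Fb B V}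
    (hi : Emb (n + n) D y.i (f ⁻¹' {t})) {φ : y.Y.V.X ≃ₜ M.V.X} (hφ : ∀ z, φ z = Ψ (y.i z))
    (hs : Smo (n + n) (n + n) φ.symm) (hm : y.Y.Mor M φ) {π : Fin r → ℂ} (hp : y.Y.Per y.s π) :
    ∃ u : Fs M.V, Cl2 M.V u ∧ M.m.c u = π ∧
      ∃ (v : Fs y.Y.V) (ψ : M.V.X → y.Y.V.X) (T : Fs y.Y.V → Fs M.V), Is20 y.s v ∧
        Cl2 y.Y.V v ∧ (∀ z, y.i (ψ z) = Θ t z) ∧ Smo (n + n) (n + n) ψ ∧ IsPb ψ T ∧ u = T v := by
  obtain ⟨-, v, h1, h2, h3⟩ := hp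
  obtain ⟨T, hT⟩ := (pb1T _ _ _ _ _ hs).1
  refine ⟨T v, (L.mark.pb hs hT v).1 h2, ((Fl.symm _ _ φ hs hm).2 _ hT v h2).trans h3,
    v, φ.symm, T, h1, h2, fun z => ?_, hs, hT, rfl⟩
  have k := tv.h2 (y.i (φ.symm z)) (by rwa [fib hi])
  rw [fib hi, ← hφ, φ.apply_symm_apply] at k
  exact k.symm

theorem hol_q {π : Z.X → Fin r → ℂ} {t : Z.X} (h : ∀ i, Hol p (fun t => π t i) t)
    (x : Fin r → ℂ) : Hol p (fun t => qC B.q (π t) x) t :=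
  Hol.sum _ fun i _ => Hol.sum _ fun _ _ => (hol_const _ _).mul ((h i).mul (hol_const _ _))

theorem perp (L : LAT) {F : Fr B} {k : Fin r → ℝ} {c : Fin σ → ℝ} {H : Fin σ → Fin r → ℝ}
    (hP : Pol F k c H) {Y : MK B} {s : Fld Y.V} {π : Fin r → ℂ} (h : Y.Per s π)
    {a : Fin σ → Fld Y.V} (ha : ∀ i, Y.C11 (a i) (H i)) (x : Fin r → ℝ) (hx : Perp F x) :
    qC B.q π (rc x) = 0 := by
  refine Submodule.span_induction (p := fun x _ => qC B.q π (rc x) = 0) ?_ ?_ ?_ ?_ (hP.span x hx)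
  · rintro _ ⟨i, rfl⟩
    exact L.rel.p11 h (ha i)
  · simp [rc_zero, qC]
  · intro x y _ _ h1 h2
    rw [rc_add, qC_add_r, h1, h2, add_zero]
  · intro a x _ h1
    rw [rc_smul, qC_smul_r, h1, mul_zero]

theorem good (L : LAT) (Tw : TW) {F : Fr B} {k : Fin r → ℝ} {c : Fin σ → ℝ}
    {H : Fin σ → Fin r → ℝ} {G : PF D p (n + n) c} (hP : Pol F k c H) {t : G.Z.X} {τ : ℂ}
    {y : Fb B G.V} (h : MP F H G t τ y) : H20 y.s ∧ y.Y.Mor y.Y id ∧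
      y.Y.HK y.s (pullM y.i G.W) (F.p τ) k := by
  obtain ⟨h1, -, ⟨φ, h2, h3, h4⟩, -⟩ := (Tw n r σ D p B F k c H G t hP).1 τ y h
  obtain rfl : φ = id := funext fun z => h.emb.inj (h2 z)
  have h5 := L.rel.sym h1
  have := y.Y.sc
  obtain ⟨x⟩ : Nonempty y.Y.V.X := inferInstance
  have : Nonempty (Fin (n + n)) := ⟨⟨0, Nat.add_pos_left B.npos n⟩⟩
  refine ⟨⟨h5.form, ⟨_, x, Lat.at_chart x, fun h0 => h5.nondeg _ x (Lat.at_chart x) ?_⟩,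
    h5.unique⟩, ⟨h3, fun T hT u hu => ?_⟩, h1⟩
  · rw [h0]
    exact Matrix.det_zero
  · rw [h4 T hT u hu, zC, Matrix.map_one _ Int.cast_zero Int.cast_one, Matrix.one_mulVec]

end PerH

open PerH

theorem per_of (L : Lat.LAT) (A : ARI) (_P : PBR) (T : TRV) (Fl : FLT) (Go : GOOD) (Tw : TW)
    (HA : HOLA) (HB : HOLB) (E : EXTS) : PER := by
  intro n r σ D p B F k c H G hP hM t₀ ht₀
  have kV : G.V.Kah := ⟨G.W, G.kah⟩
  choose sc m fj s₀ τ₀ hg using Go n r σ D p B F k c H G hP hM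
  obtain ⟨W₁, s, o1, m1, -, h20, rel⟩ :=
    E D p (n + n) G.toFy (fun t ht => ⟨s₀ t ht, (good L Tw hP (hg t ht)).1⟩) t₀ ht₀
  obtain ⟨W₀, Ψ, Θ, o0, m0, u0, pc, tv, hΘ, hφ⟩ :=
    T D p (n + n) G.toFy kV G.onto t₀ ht₀ (G.Y t₀) (G.j t₀) (G.emb t₀ ht₀)
  obtain ⟨-, mor0, hk0⟩ := good L Tw hP (hg t₀ ht₀)
  let M : MK B := ⟨G.Y t₀, sc t₀ ht₀, m t₀ ht₀, fj t₀ ht₀⟩
  have kM : M.V.Kah := (G.emb t₀ ht₀).kah kV
  have mor0' : M.Mor M fun z => Ψ (G.j t₀ z) := by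
    rw [show (fun z => Ψ (G.j t₀ z)) = id from funext fun z => hΘ z ▸ (tv.h1 t₀ m0 z).2]
    exact mor0
  have key : ∀ t ∈ W₀ ∩ W₁, ∃ (y : Fb B G.V) (u : Fs M.V),
      (∃ sc m k, y = ⟨⟨⟨G.Y t, sc, m, k⟩, s t⟩, G.j t⟩) ∧ Emb (n + n) D y.i (G.f ⁻¹' {t}) ∧
      (∀ a, y.Y.C11 (pullM y.i (G.η a)) (H a)) ∧ y.Y.HK y.s (pullM y.i G.W) (M.m.c u) k ∧
      y.Y.Mor M (fun z => Ψ (y.i z)) ∧ Cl2 M.V u ∧
      ∃ (v : Fs y.Y.V) (ψ : M.V.X → y.Y.V.X) (T : Fs y.Y.V → Fs M.V), Is20 y.s v ∧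
        Cl2 y.Y.V v ∧ (∀ z, y.i (ψ z) = Θ t z) ∧ Smo (n + n) (n + n) ψ ∧ IsPb ψ T ∧ u = T v := by
    intro t ht
    have hi := G.emb t (u0 ht.1)
    obtain ⟨φ, p1, p2, p3, p4, -⟩ := hφ t ht.1 (G.Y t) (G.j t) hi
    obtain ⟨sc', m', fj', mor⟩ := L.tr M (G.Y t) φ p2 p3 p4
    let Y : MK B := ⟨G.Y t, sc', m', fj'⟩
    have mor' : Y.Mor M fun z => Ψ (G.j t z) := (funext p1 : ⇑φ = _) ▸ mor
    have fl := fun a v ha => Fl.flat kV kM pc tv a v ha t₀ m0 t ht.1 M Y _ _ (G.emb t₀ ht₀) hi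
      mor0' mor'
    obtain ⟨π, hπ⟩ := L.rel.per Y (hi.kah kV) (h20 t ht.2).1
    obtain ⟨u, q1, rfl, q3⟩ := exu L Fl (M := M) tv ht.1 (y := ⟨⟨Y, s t⟩, G.j t⟩) hi p1 p3 mor hπ
    refine ⟨⟨⟨Y, s t⟩, G.j t⟩, u, ⟨sc', m', fj', rfl⟩, hi,
      fun a => fl _ _ (G.r11 a) ((hg t₀ ht₀).cls a), ⟨⟨hπ, fun e x he h0 => ?_⟩,
      ⟨kah_of_imm hi.hol hi.imm G.kah, fl _ _ (R11.kahler G.kah) hk0.2.1.2⟩, hk0.2.2⟩,
      mor', q1, q3⟩
    obtain ⟨a, ha⟩ := (h20 t ht.2).2.2 _ (hg t (u0 ht.1)).sym.1.1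
    refine (hg t (u0 ht.1)).sym.2 e x he ((congrArg Matrix.det (ha e x he)).trans ?_)
    rw [Matrix.det_smul]
    exact mul_eq_zero_of_right _ h0
  have : Nonempty (Fb B G.V) := ⟨⟨⟨M, s t₀⟩, G.j t₀⟩⟩
  choose! Φ u k1 k2 k3 k4 k5 k6 k7 using key
  have oW := o0.inter o1
  have uW : W₀ ∩ W₁ ⊆ G.U := inter_subset_left.trans u0
  have tv' := tv_mono tv (inter_subset_left (t := W₁))
  have rel' := relS rel inter_subset_right uW k1
  have db := HA n r D p B G.V G.Z G.f _ Φ M.V Ψ Θ u G.hol oW (fun y hy => G.sbm y (uW hy)) tv' rel'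
    fun t ht => ⟨k2 t ht, (k4 t ht).1.1.1, k7 t ht⟩
  have hπ : ∀ t ∈ W₀ ∩ W₁, ∀ i, Hol p (fun t => M.m.c (u t) i) t := by
    intro t ht i χ hχ
    have d1 : ∀ᶠ t' in 𝓝 t, DifferentiableAt ℂ (fun w => M.m.c (u (χ.symm w)) i) (χ t') := by
      filter_upwards [oW.mem_nhds ht, at_near hχ] with t' h1 h2
      exact HB n r p B M _ _ (at_ev h2 (P := fun t => Cl2 M.V (u t))
        (mem_of_superset (oW.mem_nhds h1) k6)) (db t' h1 χ h2) i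
    obtain ⟨U, h1, h2, h3⟩ := eventually_nhds_iff.1 ((at_ev hχ d1).and (P277Z.At.right hχ))
    exact P268.analyticAt_of_differentiableOn h2
      (fun w hw => ((h1 w hw).2 ▸ (h1 w hw).1).differentiableWithinAt) h3
  let lam := fun t => qC B.q (M.m.c (u t)) (rc (zr F.l)) / F.D
  let τ := fun t => qC B.q (M.m.c (u t)) (rc (zr F.v)) / F.e / lam t
  have hD : (F.D : ℂ) ≠ 0 := Complex.ofReal_ne_zero.2 F.Dpos.ne'
  have he : (F.e : ℂ) ≠ 0 := Complex.ofReal_ne_zero.2 F.epos.ne'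
  have hl : ∀ t ∈ W₀ ∩ W₁, lam t ≠ 0 ∧ (lam t)⁻¹ • M.m.c (u t) = F.p (τ t) := by
    intro t ht
    obtain ⟨a, b, ha, -, h⟩ := A.per F _ (L.rel.pp (k4 t ht).1.1 (k4 t ht).1.1)
      (L.rel.ppb (k4 t ht)) (perp L hP (k4 t ht).1.1 (k3 t ht))
    have e1 : lam t = a := by
      simp only [lam, h, qC_smul_l, (A.ql F b).1]
      exact mul_div_cancel_right₀ _ hD
    have e2 : τ t = b := by
      simp only [τ, e1, h, qC_smul_l, (A.ql F b).2.1]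
      field_simp
    rw [e1, e2, h, inv_smul_smul₀ ha]
    exact ⟨ha, rfl⟩
  have hol : ∀ t ∈ W₀ ∩ W₁, Hol p lam t := fun t ht =>
    (hol_q (hπ t ht) _).div (hol_const _ _) hD
  exact ⟨⟨W₀ ∩ W₁, oW, τ, fun t ht => ((hol_q (hπ t ht) _).div (hol_const _ _) he).div (hol t ht)
    (hl t ht).1, fun t => scl (Φ t) (lam t)⁻¹, fun t ht => ⟨uW ht, k2 t ht, k3 t ht,
      (hl t ht).2 ▸ sym_scl L (k4 t ht).1 (inv_ne_zero (hl t ht).1)⟩, M, kM, Ψ, Θ, tv', k5,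
    relS_scl rel' G.hol (fun t ht => (hol t ht).inv (hl t ht).1) k2⟩, m0, m1⟩

end Vale.Agent.P301Z.Al
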