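import Vale.Agent.P301Z.Al.Raya1

/-!
# P301, block ALG: the rays of a family over a curve
-/

open scoped Manifold ContDiff ComplexOrder Topology Matrix
open Set Filter Metric
open Vale.Agent.P272.K
open Vale.Agent.P277Z (Hol)
open Vale.Agent.P277Z.Slc (Snc LEq dd)
open Vale.Agent.P281Z
open Vale.Agent.P301Z.Lat

noncomputable section

namespace Vale.Agent.P301Z.Al

namespace Ra.Dat

variable {n r σ : ℕ} {B : BB n r} {c : Fin σ → ℝ} {F : Fr B} {k : Fin r → ℝ}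
  {H : Fin σ → Fin r → ℝ} {G : PF (n + n + 1) 1 (n + n) c} (X : Dat F H G)

/-- the local family at a point of the ray -/
theorem loc (hA : ARI) (hT : TW) (hS : SHT) (hF : SLF) (hp : Pol F k c H)
    (hP : Ry.Per F.e X.ρ G.Uᶜ (ch G.Z) X.U X.g X.s) {x T₀ : ℝ} (h0 : 0 < T₀) {t : ℝ → G.Z.X}
    {μ : G.U → ℝ → X.Γ}
    (hM : Ry.Marked F.e X.ρ G.Uᶜ X.U X.g X.s (Ici T₀) t μ fun T => x + T * Complex.I)
    (a₀ : G.U) {T : ℝ} (hT₀ : T₀ ≤ T) {a : G.U} (ha : t T ∈ X.U a)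
    {Φ : OpenPartialHomeomorph G.Z.X ℂ} (h1 : t T ∈ Φ.source)
    (h2 : EqOn (fun t' => Ry.tau (Ry.ap (X.ρ (μ a T)) (X.s a t'))) Φ Φ.source) :
    ∃ (δ : ℝ) (L : LF F k G.W 0 (fun _ => x + T * Complex.I) δ),
      ∀ T', T₀ ≤ T' → |T' - T| < δ → L.Φ (fun _ => x + T' * Complex.I) = X.pnt a₀ t μ T' := by
  obtain ⟨S', s1, s2, s3⟩ := X.sheet hA hT hS hp a (μ a T)
  have e0 : S'.τ (t T) = x + T * Complex.I := by
    rw [s2]; exact hM.tau_eq hT₀ ha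
  have e1 : dd S'.τ (chartAt (Cm 1) (t T)) (t T) ≠ 0 := by
    refine dd_ne (S'.opn.inter Φ.open_source) (fun t' ht' => S'.hol t' ht'.1) ?_ ⟨s1 ▸ ha, h1⟩
    intro y hy y' hy' e
    rw [s2] at e
    exact Φ.injOn hy.2 hy'.2 ((h2 hy.2).symm.trans (e.trans (h2 hy'.2)))
  obtain ⟨κ, δ₀, k1, -, k3, k4, -, k6⟩ := hF n r σ _ 0 B F k c H G S' hp (t T) (s1 ▸ ha)
    (by rw [e0, Ry.Cov.im_ray]; exact h0.trans_le hT₀) e1
  have e2 : κ (t T) = fun _ => x + T * Complex.I := by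
    rw [← cst (κ (t T)), k3 _ k1, e0]
  have e3 := (hM.eq_symm hP hT₀ ha h1 h2).and
    ((hM.cont T hT₀).eventually (κ.open_source.mem_nhds k1))
  obtain ⟨δ₁, d1, d2⟩ := Metric.mem_nhdsWithin_iff.1 e3
  rw [e2] at k6
  obtain ⟨L, hL⟩ := k6 (min δ₀ δ₁) (lt_min k4 d1) (min_le_left _ _)
  refine ⟨_, L, fun T' t1 t2 => ?_⟩
  obtain ⟨⟨m1, -, m3, -, -⟩, m6⟩ := d2 ⟨show dist T' T < δ₁ from t2.trans_le (min_le_right _ _), t1⟩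
  have e4 : κ (t T') = fun _ => x + T' * Complex.I := by
    rw [← cst (κ (t T')), k3 _ m6, s2, ← m3]
    exact congrArg (fun w (_ : Fin 1) => w) (hM.tau_eq t1 m1)
  rw [hL, ← e4, κ.left_inv m6, s3, X.pnt_eq hM a₀ t1 m1, m3]

end Ra.Dat

open Ra in
theorem raya_of (hA : ARI) (hT : TW) (hP : PER) (hL : LOCU) (hS : SHT) (hF : SLF) (hR : RAYF) :
    RAYA := by
  intro n r σ B F k c H G hp fin ⟨m, E, snc, bad⟩ hu
  have h0 : ∃ t τ y, MP F H G t τ y := by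
    by_contra h
    refine hu (countable_empty.mono ?_)
    rintro τ ⟨t, y, hy⟩
    exact h ⟨t, τ, y, hy⟩
  obtain ⟨X⟩ := exists_dat hA hT hP hp h0
  have hper := X.per hA hT hL hp fin hu
  have := G.conn
  obtain ⟨Z, hZ, hray⟩ := Ry.ray2 F.e X.Γ X.ρ G.Z.X G.Uᶜ (ch G.Z) G.U X.U X.g X.s X.ari hper ∅
    countable_empty
  refine ⟨Z, hZ, fun x T hx hT0 t₀ y₀ hy₀ => ?_⟩
  have ha₀ : t₀ ∈ X.U ⟨t₀, hy₀.mem⟩ := X.mem ⟨t₀, hy₀.mem⟩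
  generalize (⟨t₀, hy₀.mem⟩ : G.U) = a₀ at ha₀
  obtain ⟨g₀, hg₀⟩ := X.tw_ex hT hp hy₀ ((X.S a₀).mp t₀ ha₀)
  obtain ⟨lam₀, -, hl₀⟩ := X.tw_ap hA hT hp hy₀ ((X.S a₀).mp t₀ ha₀) hg₀
  obtain ⟨t, μ, t1, t2, hM, hch, o, ρ, h, lam, b, T₁, ν, P, f, γ, ζ, o1, r0, r1, -, hN, h1, l1, l2,
    n1, -, p1, p2, T1, -, z2, lim, z3⟩ := hray x T hx hT0 a₀ t₀ g₀ ha₀ ⟨lam₀, hl₀⟩
  have hmp : ∀ T', T ≤ T' → MP F H G (t T') (x + T' * Complex.I) (X.pnt a₀ t μ T') :=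
    fun T' h => X.pnt_mp hA hT hp hM a₀ h
  have hz : ∀ y : G.Z.X, ∃ z, y ∈ Ry.pt (ch G.Z) o ρ '' Ry.Hp →
      z ∈ Ry.Hp ∧ Ry.pt (ch G.Z) o ρ z = y := by
    intro y
    by_cases hy : y ∈ Ry.pt (ch G.Z) o ρ '' Ry.Hp
    · obtain ⟨z, hz⟩ := hy
      exact ⟨z, fun _ => hz⟩
    · exact ⟨0, fun h => absurd h hy⟩
  choose zz hzz using hz
  have hcov : ∀ z ∈ Ry.Hp, ∃ a, Ry.pt (ch G.Z) o ρ z ∈ X.U a := fun z hz =>
    hper.cov _ (hN.off z hz)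
  obtain ⟨Q, q1, q2⟩ := hR n r σ B F k c H G fin m E snc bad o o1 _ (leq o1 fin)
    (Ry.pt (ch G.Z) o ρ '' Ry.Hp) (fun y => P (zz y))
    (fun y => X.pnt a₀ (Ry.pt (ch G.Z) o ρ) ν (zz y)) hp (Ry.Dsc.isOpen_img r0 r1)
    (fun y hy => by
      have e := X.pnt_mp hA hT hp hN a₀ (hzz y hy).1
      rwa [(hzz y hy).2] at e)
    (by
      rintro _ ⟨z₀, hz₀, rfl⟩
      obtain ⟨a, ha⟩ := hcov z₀ hz₀
      obtain ⟨S', s1, s2, s3⟩ := X.sheet hA hT hS hp a (ν a z₀)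
      refine ⟨S', s1 ▸ ha, Ry.Dsc.nhds_le r0 r1 hz₀ ?_⟩
      have hn := Ry.Cov.isOpen_Hp.mem_nhds hz₀
      have e1 := hN.loc a z₀ hz₀ ha
      rw [nhdsWithin_eq_nhds.2 hn] at e1
      rw [mem_map]
      filter_upwards [hn, e1,
        (hN.cont.continuousAt hn).eventually ((X.S a).opn.mem_nhds ha)] with z' y1 y2 y3
      obtain ⟨w1, w2⟩ := hzz _ ⟨z', y1, rfl⟩
      obtain ⟨δ, l, d1, d2, d3⟩ := Ry.Dsc.deck r0 r1 l1 l2 n1 p1 w1 y1 w2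
      have y4 : Ry.pt (ch G.Z) o ρ (zz (Ry.pt (ch G.Z) o ρ z')) ∈ X.U a := w2.symm ▸ y3
      refine ⟨X.ι δ, l, d1, ?_, ?_⟩
      · rw [X.pnt_eq hN a₀ w1 y4, d2 a y4, y2, w2, s3]
        exact X.ya_tw hA hT hp _ _ y3
      · rw [s2, ← y2, show Ry.Cov.ph X.ρ X.s a (ν a z') (Ry.pt (ch G.Z) o ρ z') = P z' from
          hN.tau_eq y1 y3]
        exact X.zc_of hA d3)
  refine ⟨{
    A := G.fam fin snc bad o1 (leq o1 fin)
    W := G.W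
    kah := G.kah
    T₁ := T
    pos := hT0
    R := X.pnt a₀ t μ
    t := t
    off := fun T' h => hM.off T' h
    emb := fun T' h => (hmp T' h).emb
    sym := fun T' h => (hmp T' h).sym
    kc := fun T' h => ((hT n r σ _ _ B F k c H G _ hp).1 _ _ (hmp T' h)).1.2.1
    loc := fun T' h => ?_
    cont := hM.cont
    lim := lim
    grow := ⟨2 * Real.pi / h, |Real.log ρ| + 2 * Real.pi / h * b,
      by have := Real.pi_pos; positivity, ?_⟩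
    U := Ry.pt (ch G.Z) o ρ '' Ry.Hp
    Q := Q
    opn := Ry.Dsc.isOpen_img r0 r1
    disj := ?_
    vol := ⟨B.C * (4 * F.e * (h + |b|) ^ 2) ^ n, 2 * n, ?_⟩
    cmp := ?_ }, ?_⟩
  · obtain ⟨a, ha⟩ := hper.cov _ (hM.off T' h)
    obtain ⟨Φ, f1, f2⟩ := (hch T' h).2 a ha
    exact X.loc hA hT hS hF hp hper hT0 hM a₀ h ha f1 f2
  · filter_upwards [eventually_ge_atTop T₁, z2.eventually (eventually_ge_atTop 1)] with T' e1 e2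
    obtain ⟨-, y2, y3, -⟩ := z3 T' e1
    have e3 := Ry.Dsc.grow r0 r1 h1 p2 e2
    rw [y2, y3, Ry.Cov.im_ray] at e3
    exact e3
  · rw [disjoint_left]
    rintro _ ⟨z, hz, rfl⟩
    exact hN.off z hz
  · filter_upwards [Ry.Dsc.im_le (ch_mem o) r0 r1 h1 p2] with y ⟨y1, y2⟩
    refine ⟨y1, _, ?_, q1 y y1⟩
    have e1 := y2 _ (hzz y y1).1 (hzz y y1).2
    have e2 : (P (zz y)).im ^ 2 ≤ ((h + |b|) * |Real.log ‖ch G.Z o y - ch G.Z o o‖|) ^ 2 := by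
      rw [← sq_abs]
      exact pow_le_pow_left₀ (abs_nonneg _) e1 2
    have e3 := F.epos
    show _ ≤ _ * |Real.log ‖ch G.Z o y - ch G.Z o o‖| ^ (2 * n)
    rw [mul_assoc B.C, pow_mul, ← mul_pow]
    refine mul_le_mul_of_nonneg_left (pow_le_pow_left₀ (by positivity) ?_ n) B.Cpos.le
    rw [mul_assoc (4 * F.e), ← mul_pow]
    exact mul_le_mul_of_nonneg_left e2 (by positivity)
  · filter_upwards [eventually_ge_atTop T₁] with T' e1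
    obtain ⟨y1, y2, y3, y4⟩ := z3 T' e1
    have y5 : t T' ∈ Ry.pt (ch G.Z) o ρ '' Ry.Hp := ⟨_, y1, y2⟩
    obtain ⟨w1, w2⟩ := hzz _ y5
    obtain ⟨a, ha⟩ := hper.cov _ (hM.off T' (T1.trans e1))
    obtain ⟨δ, l, d1, d2, d3⟩ := Ry.Dsc.deck r0 r1 l1 l2 n1 p1 y1 w1 (y2.trans w2.symm)
    refine q2 _ y5 _ _ (X.ι δ) l (hmp T' (T1.trans e1)) d1 ?_ ?_
    · rw [X.pnt_eq hM a₀ (T1.trans e1) ha, X.pnt_eq hN a₀ w1 (w2.symm ▸ ha), w2, ← y4 a ha,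
        d2 a (y2.symm ▸ ha)]
      exact X.ya_tw hA hT hp _ _ ha
    · rw [← y3]
      exact X.zc_of hA d3
  · have e1 := hmp T le_rfl
    have e2 := X.pnt_eq hM a₀ (p := T) self_mem_Ici (a := a₀) (t1.symm ▸ ha₀)
    rw [t1] at e1
    rw [t1, t2] at e2
    have e3 := X.tw_div hT hp hy₀ e1 ((X.S a₀).mp t₀ ha₀) (h := 1) (h' := g₀)
      (by rw [one_mul]; exact hg₀) (by rw [e2]; exact (X.ya hA hT hp g₀ ha₀).2)
    rw [map_one] at e3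
    exact (((hT n r σ _ _ B F k c H G t₀ hp).2.1 _ _ _ _ hy₀ e1).2.2.1 e3).2

end Vale.Agent.P301Z.Al
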