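import Vale.Agent.P301Z.Al.Sk

/-!
# P301, block ALG: the forms `det s` near the puncture (statement)
-/

open scoped Manifold ContDiff ComplexOrder Topology Matrix
open Set Filter Metric
open Vale.Agent.P272.K
open Vale.Agent.P277Z.Slc (Snc LEq)
open Vale.Agent.P281Z (Mf HolM)
open Vale.Agent.P299.D (jacF)
open Vale.Agent.P301Z.Lat

noncomputable section

namespace Vale.Agent.P301Z.Al

/-- a polarised family over a curve near the bad point `o` -/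
def PF.fam {σ N : ℕ} {c : Fin σ → ℝ} (G : PF (N + 1) 1 N c) (fin : G.Uᶜ.Finite) {m : ℕ}
    {E : Fin m → Set G.V.X} (snc : Snc (N + 1) E) (bad : ∀ y, G.f y ∈ G.Uᶜ ↔ ∃ l, y ∈ E l)
    {o : G.Z.X} (mem : o ∈ G.Uᶜ) {ξ : G.Z.X → ℂ} (leq : LEq 1 G.Uᶜ o ξ) : Sn.Fam N :=
  ⟨G.V, G.Z, G.f, G.hol, m, E, snc, G.Uᶜ, fin, bad, o, mem, ξ, leq⟩

/-- **RAYF**: marked points which are flat up to twists with the factor `± 1` -/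
def RAYF : Prop := ∀ (n r σ : ℕ) (B : BB n r) (F : Fr B) (k : Fin r → ℝ) (c : Fin σ → ℝ)
  (H : Fin σ → Fin r → ℝ) (G : PF (n + n + 1) 1 (n + n) c) (fin : G.Uᶜ.Finite) (m : ℕ)
  (E : Fin m → Set G.V.X) (snc : Snc (n + n + 1) E) (bad : ∀ y, G.f y ∈ G.Uᶜ ↔ ∃ l, y ∈ E l)
  (o : G.Z.X) (mem : o ∈ G.Uᶜ) (ξ : G.Z.X → ℂ) (leq : LEq 1 G.Uᶜ o ξ) (U' : Set G.Z.X)
  (τ : G.Z.X → ℂ) (y : G.Z.X → Fb B G.V), Pol F k c H → IsOpen U' →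
  (∀ t ∈ U', MP F H G t (τ t) (y t)) →
  (∀ t₀ ∈ U', ∃ S : Sh F H G, t₀ ∈ S.W ∧ ∀ᶠ t in 𝓝 t₀, ∃ (A : ZM r) (lam : ℂ), lam ^ 2 = 1 ∧
    Tw A (y t) (S.Φ t) ∧ zC A *ᵥ F.p (S.τ t) = lam • F.p (τ t)) →
  ∃ Q : Sn.Frm (G.fam fin snc bad mem leq) U' 2,
    (∀ t ∈ U', IsIntegral (fun (e : Chart (n + n) (Q.Y t).X) z => ‖Q.u t e z‖)
      (B.C * (4 * F.e * (τ t).im ^ 2) ^ n)) ∧
    ∀ t ∈ U', ∀ (τ' : ℂ) (y' : Fb B G.V) (A : ZM r) (lam : ℂ), MP F H G t τ' y' → lam ^ 2 = 1 →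
      Tw A y' (y t) → zC A *ᵥ F.p (τ t) = lam • F.p τ' →
      ∃ j : y'.Y.V.X → (Q.Y t).X, HolM (n + n) (n + n) j ∧ (∀ z, Q.i t (j z) = y'.i z) ∧
        ∀ (e : Chart (n + n) y'.Y.V.X) (e' : Chart (n + n) (Q.Y t).X) z, At e z → At e' (j z) →
          (y'.s e (e z)).det = (jacF j e e' z).det ^ 2 * Q.u t e' (e' (j z))

end Vale.Agent.P301Z.Al
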