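import Vale.Agent.P301Z.Al.Raya0
import Vale.Agent.P301Z.Ry.All
import Vale.Agent.P301Z.Ry.Dsc
import Vale.Agent.P281Z.Mf.Api

/-!
# P301, block ALG: the period data of a family over a curve
-/

open scoped Manifold ContDiff ComplexOrder Topology Matrix
open Set Filter Metric
open Vale.Agent.P272.K
open Vale.Agent.P277Z (Hol)
open Vale.Agent.P277Z.Slc (Snc LEq dd)
open Vale.Agent.P281Z
open Vale.Agent.P301Z.Lat

noncomputable section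

namespace Vale.Agent.P301Z.Al.Ra

/-- the coordinate at a point of a curve -/
def ch (Z : Mf 1) (o : Z.X) : OpenPartialHomeomorph Z.X ℂ :=
  (chartAt (Cm 1) o).transHomeomorph (Homeomorph.funUnique (Fin 1) ℂ)

variable {Z : Mf 1}

theorem ch_mem (o : Z.X) : o ∈ (ch Z o).source := mem_chart_source (Cm 1) o

theorem ch_at {o t : Z.X} (h : t ∈ (ch Z o).source) : At (chartAt (Cm 1) o) t :=
  ⟨chart_mem_atlas _ _, h⟩

theorem ch_apply (o t : Z.X) : ch Z o t = chartAt (Cm 1) o t 0 := rfl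

theorem ch_symm (o : Z.X) (w : ℂ) : (ch Z o).symm w = (chartAt (Cm 1) o).symm fun _ => w := rfl

theorem cst (z : Cm 1) : (fun _ => z 0) = z := funext fun i => by rw [Subsingleton.elim i 0]

theorem hol_diff {u : Z.X → ℂ} {o t : Z.X} (h : t ∈ (ch Z o).source) (hu : Hol 1 u t) :
    HasFDerivAt (fun w => u ((ch Z o).symm w)) ((dd u (chartAt (Cm 1) o) t).comp
      (ContinuousLinearMap.pi fun _ : Fin 1 => ContinuousLinearMap.id ℂ ℂ)) (ch Z o t) := by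
  have h1 := (hu _ (ch_at h)).differentiableAt.hasFDerivAt
  rw [← cst (chartAt (Cm 1) o t)] at h1
  have h2 := h1.comp (ch Z o t)
    (ContinuousLinearMap.pi fun _ : Fin 1 => ContinuousLinearMap.id ℂ ℂ).hasFDerivAt
  rw [cst] at h2
  exact h2

/-- a locally injective holomorphic function has a nonzero differential -/
theorem dd_ne {u : Z.X → ℂ} {W : Set Z.X} (hW : IsOpen W) (hu : ∀ t ∈ W, Hol 1 u t)
    (hi : InjOn u W) {t : Z.X} (ht : t ∈ W) : dd u (chartAt (Cm 1) t) t ≠ 0 := by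
  intro h0
  have h1 : IsOpen ((ch Z t).target ∩ (ch Z t).symm ⁻¹' W) := (ch Z t).isOpen_inter_preimage_symm hW
  have h2 : DifferentiableOn ℂ (fun w => u ((ch Z t).symm w))
      ((ch Z t).target ∩ (ch Z t).symm ⁻¹' W) := by
    intro w hw
    have h3 := (hol_diff ((ch Z t).map_target hw.1) (hu _ hw.2)).differentiableAt
    rw [(ch Z t).right_inv hw.1] at h3
    exact h3.differentiableWithinAt
  have h4 : ch Z t t ∈ (ch Z t).target ∩ (ch Z t).symm ⁻¹' W :=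
    ⟨(ch Z t).map_source (ch_mem t), by
      show (ch Z t).symm (ch Z t t) ∈ W
      rw [(ch Z t).left_inv (ch_mem t)]; exact ht⟩
  refine Vale.Agent.P273.H599.injOn_deriv_ne_zero h1 h2
    (fun w hw w' hw' e => (ch Z t).symm.injOn hw.1 hw'.1 (hi hw.2 hw'.2 e)) h4 ?_
  have h5 := (hol_diff (ch_mem t) (hu t ht)).hasDerivAt.deriv
  rw [h5, h0]
  rfl

theorem leq {S : Set Z.X} {o : Z.X} (ho : o ∈ S) (hS : S.Finite) :
    LEq 1 S o fun y => ch Z o y - ch Z o o := by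
  refine ⟨?_, fun e he => ⟨(hol_chart (ch_at (ch_mem o)) 0 e he).sub analyticAt_const, fun _ h => ?_⟩⟩
  · filter_upwards [(ch Z o).open_source.mem_nhds (ch_mem o),
      (hS.sdiff (t := {o})).isClosed.isOpen_compl.mem_nhds fun h => h.2 rfl] with y y1 y2
    refine ⟨fun h => ?_, fun h => ?_⟩
    · rw [(ch Z o).injOn y1 (ch_mem o) (sub_eq_zero.1 h)]; exact ho
    · have h1 : y = o := by
        by_contra hne
        exact y2 ⟨h, hne⟩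
      rw [h1, sub_self]
  · rw [fderiv_sub_const] at h
    exact ((ind_chart (ch_at (ch_mem o))).2 e he).ne_zero 0 h

theorem countable_img {u : Z.X → ℂ} {W : Set Z.X} (hW : IsOpen W)
    (h : ∀ t ∈ W, ∀ᶠ t' in 𝓝 t, u t' = u t) : (u '' W).Countable := by
  refine Set.PairwiseDisjoint.countable_of_isOpen (s := fun v => W ∩ u ⁻¹' {v}) ?_ ?_ ?_
  · intro v _ v' _ hne
    exact disjoint_left.2 fun t h1 h2 => hne (h1.2.symm.trans h2.2)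
  · intro v _
    refine isOpen_iff_mem_nhds.2 fun t ht => ?_
    filter_upwards [hW.mem_nhds ht.1, h t ht.1] with t' h1 h2 using ⟨h1, h2.trans ht.2⟩
  · rintro _ ⟨t, ht, rfl⟩
    exact ⟨t, ht, rfl⟩

variable {n r σ : ℕ} {B : BB n r} {c : Fin σ → ℝ}

/-- the choices: the group, the sheets, the cocycle, the twisted points -/
structure Dat (F : Fr B) (H : Fin σ → Fin r → ℝ) (G : PF (n + n + 1) 1 (n + n) c) : Type 1 where
  Γ : Type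
  [grp : Group Γ]
  ι : Γ →* ZM r
  ρ : Γ →* Matrix (Fin 3) (Fin 3) ℝ
  ari : Ry.Arith F.e ρ
  inj : Function.Injective ι
  iso : ∀ A, IsoP F A ↔ A ∈ range ι
  frm : ∀ g v, zC (ι g) *ᵥ fr F v = fr F (Ry.ap (ρ g) v)
  S : G.U → Sh F H G
  mem : ∀ a, a.1 ∈ (S a).W
  g : G.U → G.U → G.Z.X → Γ
  tw : ∀ a b t, t ∈ (S a).W → t ∈ (S b).W → Tw (ι (g a b t)) ((S a).Φ t) ((S b).Φ t)
  Y : G.U → Γ → Fb B G.V
  hY : ∀ a h, (∃ τ, MP F H G a.1 τ (Y a h)) ∧ Tw (ι h) (Y a h) ((S a).Φ a.1)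

attribute [instance] Dat.grp

variable {F : Fr B} {k : Fin r → ℝ} {H : Fin σ → Fin r → ℝ} {G : PF (n + n + 1) 1 (n + n) c}

theorem exists_dat (hA : ARI) (hT : TW) (hP : PER) (hp : Pol F k c H)
    (h0 : ∃ t τ y, MP F H G t τ y) : Nonempty (Dat F H G) := by
  obtain ⟨Γ, _, ι, ρ, h1, h2, h3, h4⟩ := hA.grp F
  choose S hS using fun a : G.U => hP n r σ _ _ B F k c H G hp h0 a.1 a.2
  have e1 : ∀ (a b : G.U) t, ∃ h : Γ, t ∈ (S a).W → t ∈ (S b).W →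
      Tw (ι h) ((S a).Φ t) ((S b).Φ t) := by
    intro a b t
    by_cases h : t ∈ (S a).W ∧ t ∈ (S b).W
    · obtain ⟨A, a1, a2⟩ := ((hT n r σ _ _ B F k c H G t hp).2.1 _ _ _ _ ((S a).mp t h.1)
        ((S b).mp t h.2)).1
      obtain ⟨g, rfl⟩ := (h3 A).1 a1
      exact ⟨g, fun _ _ => a2⟩
    · exact ⟨1, fun ha hb => absurd ⟨ha, hb⟩ h⟩
  choose g hg using e1
  have e2 : ∀ (a : G.U) (h : Γ), ∃ y : Fb B G.V, (∃ τ, MP F H G a.1 τ y) ∧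
      Tw (ι h) y ((S a).Φ a.1) := by
    intro a h
    obtain ⟨τ, y, y1, y2⟩ := ((hT n r σ _ _ B F k c H G a.1 hp).1 _ _ ((S a).mp _ (hS a))).2.2.2
      (ι h) ((h3 _).2 ⟨h, rfl⟩)
    exact ⟨y, ⟨τ, y1⟩, y2⟩
  choose Y hY using e2
  exact ⟨⟨Γ, ι, ρ, h1, h2, h3, h4, S, hS, g, hg, Y, hY⟩⟩

namespace Dat

variable (X : Dat F H G)

/-- the cover -/
def U (a : G.U) : Set G.Z.X := (X.S a).W

/-- the periods -/
def s (a : G.U) (t : G.Z.X) : Fin 3 → ℂ := Ry.sg F.e ((X.S a).τ t)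

theorem zc_of (hA : ARI) {h : X.Γ} {τ τ' lam : ℂ}
    (e : Ry.ap (X.ρ h) (Ry.sg F.e τ') = lam • Ry.sg F.e τ) :
    zC (X.ι h) *ᵥ F.p τ' = lam • F.p τ := by
  rw [← hA.sg, X.frm, e, hA.smul, hA.sg]

variable {t : G.Z.X} {τ τ' τ'' : ℂ} {y y' y'' : Fb B G.V}

theorem tw_ap (hA : ARI) (hT : TW) (hp : Pol F k c H) (h1 : MP F H G t τ y)
    (h2 : MP F H G t τ' y') {h : X.Γ} (e : Tw (X.ι h) y y') :
    ∃ lam : ℂ, lam ≠ 0 ∧ Ry.ap (X.ρ h) (Ry.sg F.e τ') = lam • Ry.sg F.e τ := by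
  obtain ⟨lam, -, l1, l2, -⟩ := ((hT n r σ _ _ B F k c H G t hp).2.1 _ _ _ _ h1 h2).2.2.2 _ e
  refine ⟨lam, l1, hA.inj F ?_⟩
  rw [← X.frm, hA.smul, hA.sg, hA.sg, l2]

theorem tw_ex (hT : TW) (hp : Pol F k c H) (h1 : MP F H G t τ y) (h2 : MP F H G t τ' y') :
    ∃ h : X.Γ, Tw (X.ι h) y y' := by
  obtain ⟨A, a1, a2⟩ := ((hT n r σ _ _ B F k c H G t hp).2.1 _ _ _ _ h1 h2).1
  obtain ⟨g, rfl⟩ := (X.iso A).1 a1
  exact ⟨g, a2⟩

theorem tw_uniq (hT : TW) (hp : Pol F k c H) (h1 : MP F H G t τ y) (h2 : MP F H G t τ' y')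
    {h h' : X.Γ} (e : Tw (X.ι h) y y') (e' : Tw (X.ι h') y y') : h = h' :=
  X.inj (((hT n r σ _ _ B F k c H G t hp).2.1 _ _ _ _ h1 h2).2.1 _ _ e e')

theorem tw_mul (hT : TW) (hp : Pol F k c H) (h1 : MP F H G t τ y) (h2 : MP F H G t τ' y')
    (h3 : MP F H G t τ'' y'') {h h' : X.Γ} (e : Tw (X.ι h) y y') (e' : Tw (X.ι h') y' y'') :
    Tw (X.ι (h * h')) y y'' := by
  rw [map_mul]
  exact (hT n r σ _ _ B F k c H G t hp).2.2 _ _ _ _ _ _ _ _ h1 h2 h3 e e'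

theorem tw_div (hT : TW) (hp : Pol F k c H) (h1 : MP F H G t τ y) (h2 : MP F H G t τ' y')
    (h3 : MP F H G t τ'' y'') {h h' : X.Γ} (e : Tw (X.ι (h * h')) y y'')
    (e' : Tw (X.ι h') y' y'') : Tw (X.ι h) y y' := by
  obtain ⟨δ, hδ⟩ := X.tw_ex hT hp h1 h2
  rw [← mul_right_cancel (X.tw_uniq hT hp h1 h3 (X.tw_mul hT hp h1 h2 h3 hδ e') e)]
  exact hδ

theorem ncst (hA : ARI) (hT : TW) (hp : Pol F k c H)
    (hu : ¬ {τ | ∃ t y, MP F H G t τ y}.Countable) :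
    ∃ a t, t ∈ X.U a ∧ ¬ ∀ᶠ t' in 𝓝 t, ∃ k : ℂ, X.s a t' = k • X.s a t := by
  by_contra! h
  refine hu ?_
  have := (Ry.disc Ry.lin F.e X.Γ X.ρ X.ari).1
  obtain ⟨T, hT', hc⟩ := TopologicalSpace.isOpen_iUnion_countable X.U fun a => (X.S a).opn
  have h1 : ∀ a, ((X.S a).τ '' X.U a).Countable := fun a =>
    countable_img (X.S a).opn fun t ht => (h a t ht).mono fun t' ⟨k, hk⟩ => by
      have e1 := congrFun hk 1
      have e2 := congrFun hk 2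
      simp [s, Ry.sg] at e1 e2
      rw [e1, ← e2, one_mul]
  refine (countable_iUnion fun g : X.Γ => (hT'.biUnion fun a _ => h1 a).image
    (Ry.act F.e (X.ρ g))).mono ?_
  rintro τ ⟨t, y, hy⟩
  have h2 : t ∈ ⋃ a ∈ T, X.U a := by
    rw [hc]
    exact mem_iUnion.2 ⟨⟨t, hy.mem⟩, X.mem _⟩
  obtain ⟨a, ha, hta⟩ := mem_iUnion₂.1 h2
  obtain ⟨g, hg⟩ := X.tw_ex hT hp hy ((X.S a).mp t hta)
  obtain ⟨lam, l1, l2⟩ := X.tw_ap hA hT hp hy ((X.S a).mp t hta) hg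
  refine mem_iUnion.2 ⟨g, _, mem_biUnion ha ⟨t, hta, rfl⟩, ?_⟩
  rw [Ry.act, l2, Ry.Cov.tau_smul l1, Ry.Cov.tau_sg]

theorem per (hA : ARI) (hT : TW) (hL : LOCU) (hp : Pol F k c H) (hf : G.Uᶜ.Finite)
    (hu : ¬ {τ | ∃ t y, MP F H G t τ y}.Countable) :
    Ry.Per F.e X.ρ G.Uᶜ (ch G.Z) X.U X.g X.s where
  fin := hf
  mem := ch_mem
  opn a := (X.S a).opn
  off a t ht := not_not.2 ((X.S a).mp t ht).mem
  cov t ht := ⟨⟨t, not_not.1 ht⟩, X.mem _⟩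
  loc a b t ha hb := by
    filter_upwards [hL n r σ _ _ B F k c H G (X.S a) (X.S b) _ hp t ha hb (X.tw a b t ha hb),
      (X.S a).opn.mem_nhds ha, (X.S b).opn.mem_nhds hb] with t' h1 h2 h3
    exact X.tw_uniq hT hp ((X.S a).mp t' h2) ((X.S b).mp t' h3) (X.tw a b t' h2 h3) h1
  coc a b d t ha hb hd :=
    X.tw_uniq hT hp ((X.S a).mp t ha) ((X.S d).mp t hd)
      (X.tw_mul hT hp ((X.S a).mp t ha) ((X.S b).mp t hb) ((X.S d).mp t hd) (X.tw a b t ha hb)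
        (X.tw b d t hb hd)) (X.tw a d t ha hd)
  dom a t ha := (Ry.lin F.e F.epos).2.1 _
    ((hT n r σ _ _ B F k c H G t hp).1 _ _ ((X.S a).mp t ha)).2.1
  chg a b t ha hb := by
    obtain ⟨lam, l1, l2⟩ := X.tw_ap hA hT hp ((X.S a).mp t ha) ((X.S b).mp t hb)
      (X.tw a b t ha hb)
    refine ⟨lam⁻¹, ?_⟩
    rw [s, s, l2, smul_smul, inv_mul_cancel₀ l1, one_smul]
  hol a o i w hw := by
    have h1 := (hol_diff ((ch G.Z o).map_target hw.1) ((X.S a).hol _ hw.2)).differentiableAt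
    rw [(ch G.Z o).right_inv hw.1] at h1
    refine DifferentiableAt.differentiableWithinAt ?_
    fin_cases i
    · exact (((h1.pow 2).const_mul (F.e : ℂ)).div_const 2).neg
    · exact h1
    · exact differentiableAt_const (1 : ℂ)
  ncst := X.ncst hA hT hp hu

open Classical in
/-- the index of the sheet chosen at `t` -/
def idx (a : G.U) (t : G.Z.X) : G.U := if h : t ∈ G.U then ⟨t, h⟩ else a

theorem idx_eq (a : G.U) {t : G.Z.X} (h : t ∈ G.U) : idx a t = ⟨t, h⟩ := dif_pos h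

/-- the sheet `a` twisted by `m` -/
def Ya (a : G.U) (m : X.Γ) (t : G.Z.X) : Fb B G.V := X.Y (idx a t) (m * X.g a (idx a t) t)

theorem ya (hA : ARI) (hT : TW) (hp : Pol F k c H) {a : G.U} (m : X.Γ) (ha : t ∈ X.U a) :
    MP F H G t (Ry.Cov.ph X.ρ X.s a m t) (X.Ya a m t) ∧
      Tw (X.ι m) (X.Ya a m t) ((X.S a).Φ t) := by
  have h0 := ((X.S a).mp t ha).mem
  have hb : t ∈ (X.S ⟨t, h0⟩).W := X.mem ⟨t, h0⟩
  rw [Ya, idx_eq a h0]
  obtain ⟨⟨τ, h1⟩, h2⟩ := X.hY ⟨t, h0⟩ (m * X.g a ⟨t, h0⟩ t)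
  have h3 := X.tw_div hT hp h1 ((X.S a).mp t ha) ((X.S _).mp t hb) h2 (X.tw a _ t ha hb)
  obtain ⟨lam, l1, l2⟩ := X.tw_ap hA hT hp h1 ((X.S a).mp t ha) h3
  refine ⟨?_, h3⟩
  rw [Ry.Cov.ph, s, l2, Ry.Cov.tau_smul l1, Ry.Cov.tau_sg]
  exact h1

theorem sheet (hA : ARI) (hT : TW) (hS : SHT) (hp : Pol F k c H) (a : G.U) (m : X.Γ) :
    ∃ S' : Sh F H G, S'.W = X.U a ∧ S'.τ = Ry.Cov.ph X.ρ X.s a m ∧ S'.Φ = X.Ya a m :=
  hS n r σ _ _ B F k c H G (X.S a) (X.ι m) _ _ _ hp ((X.iso _).2 ⟨m, rfl⟩) (X.S a).opn subset_rfl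
    fun _ ht => X.ya hA hT hp m ht

theorem ya_tw (hA : ARI) (hT : TW) (hp : Pol F k c H) {a : G.U} (δ m : X.Γ) (ha : t ∈ X.U a) :
    Tw (X.ι δ) (X.Ya a (δ * m) t) (X.Ya a m t) :=
  X.tw_div hT hp (X.ya hA hT hp _ ha).1 (X.ya hA hT hp _ ha).1 ((X.S a).mp t ha)
    (X.ya hA hT hp _ ha).2 (X.ya hA hT hp _ ha).2

variable {P : Type} [TopologicalSpace P] {W : Set P} {u : P → G.Z.X} {μ : G.U → P → X.Γ}
  {π : P → ℂ}

/-- the marked point of a marked map -/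
def pnt (a₀ : G.U) (u : P → G.Z.X) (μ : G.U → P → X.Γ) (p : P) : Fb B G.V :=
  X.Y (idx a₀ (u p)) (μ (idx a₀ (u p)) p)

theorem pnt_eq (h : Ry.Marked F.e X.ρ G.Uᶜ X.U X.g X.s W u μ π) (a₀ : G.U) {p : P} (hp : p ∈ W)
    {a : G.U} (ha : u p ∈ X.U a) : X.pnt a₀ u μ p = X.Ya a (μ a p) (u p) := by
  have h0 : u p ∈ G.U := not_not.1 (h.off p hp)
  rw [pnt, Ya, idx_eq a₀ h0, idx_eq a h0, h.chg a ⟨u p, h0⟩ p hp ha (X.mem ⟨u p, h0⟩)]

theorem pnt_mp (hA : ARI) (hT : TW) (hq : Pol F k c H)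
    (h : Ry.Marked F.e X.ρ G.Uᶜ X.U X.g X.s W u μ π) (a₀ : G.U) {p : P} (hp : p ∈ W) :
    MP F H G (u p) (π p) (X.pnt a₀ u μ p) := by
  have h0 : u p ∈ G.U := not_not.1 (h.off p hp)
  have ha : u p ∈ X.U ⟨u p, h0⟩ := X.mem ⟨u p, h0⟩
  rw [X.pnt_eq h a₀ hp ha, ← h.tau_eq hp ha]
  exact (X.ya hA hT hq _ ha).1

end Dat

end Vale.Agent.P301Z.Al.Ra
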