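import Vale.Agent.P301Z.Al.Raya0
import Vale.Agent.P301Z.Al.Rf1
import Vale.Agent.P301Z.Li.Q

/-! P301, block ALG: the section of `K ^ 2` near the puncture. -/

open scoped Manifold ContDiff ComplexOrder Topology Matrix
open Set Filter
open Vale.Agent.P272.K
open Vale.Agent.P272.K.INT (IsDensity intX)
open Vale.Agent.P277Z (Hol at_chart)
open Vale.Agent.P281Z
open Vale.Agent.P299.D (jacF)
open Vale.Agent.P301.H599 (IsHolTwoForm)
open Vale.Agent.P301Z.Lat

noncomputable section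

namespace Vale.Agent.P301Z.Al

namespace Rf

variable {n r σ : ℕ} {B : BB n r} {c : Fin σ → ℝ}

theorem dens {d : ℕ} {V : Mf d} {s : Fld V} (hs : IsHolTwoForm s) :
    IsDensity fun e z => ‖(s e z).det‖ := by
  refine ⟨fun e x he => ?_, fun e e' x he he' => ?_⟩
  · have h : ContinuousAt (s e) (e x) :=
      continuousAt_pi.2 fun i => continuousAt_pi.2 fun j => (hs.holo e x he i j).continuousAt
    exact ((continuous_id.matrix_det.continuousAt).comp h).norm
  · rw [hs.change e e' x he he', Matrix.det_mul, Matrix.det_mul, Matrix.det_transpose, norm_mul,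
      norm_mul]
    ring

theorem cmp (hA : ARI) (hT : TW) {D p : ℕ} {F : Fr B} {k : Fin r → ℝ} {H : Fin σ → Fin r → ℝ}
    {G : PF D p (n + n) c} (hP : Pol F k c H) {t : G.Z.X} {τ τ' lam : ℂ} {y y' : Fb B G.V}
    {A : ZM r} (h : MP F H G t τ y) (h' : MP F H G t τ' y') (a3 : Tw A y y')
    (a4 : zC A *ᵥ F.p τ' = lam • F.p τ) :
    ∃ j : y.Y.V.X → y'.Y.V.X, HolM (n + n) (n + n) j ∧ (∀ z, y'.i (j z) = y.i z) ∧
      ∀ e e' z, At e z → At e' (j z) →
        lam • y.s e (e z) = (jacF j e e' z)ᵀ * y'.s e' (e' (j z)) * jacF j e e' z := by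
  obtain ⟨lam', j, -, b2, b3, b4, b5⟩ :=
    ((hT n r σ D p B F k c H G t hP).2.1 τ y τ' y' h h').2.2.2 A a3
  have h1 := congrArg (fun v => Li.QC B.q v (rc (zr F.l))) (a4.symm.trans b2)
  have h2 := (hA.ql F τ).1
  rw [Li.qC_eq] at h2
  simp only [map_smul, LinearMap.smul_apply, smul_eq_mul, h2] at h1
  rw [mul_right_cancel₀ (Complex.ofReal_ne_zero.2 F.Dpos.ne') h1]
  exact ⟨j, b3, b4, b5⟩

theorem det_pm {lam : ℂ} (h : lam ^ 2 = 1) (S : Mx (n + n)) : (lam • S).det = S.det := by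
  rw [Matrix.det_smul, Fintype.card_fin, pow_add, ← mul_pow, ← sq, h, one_pow, one_mul]

end Rf

open Rf in
theorem rayf_of (hL : LAT) (hA : ARI) (hT : TW) : RAYF := by
  intro n r σ B F k c H G hf m E hE hb o ho ξ hξ U π y hP _ hy hS
  refine ⟨⟨fun t => (y t).Y.V, fun t => (y t).i, fun t ht => (hy t ht).emb,
    fun t e z => ((y t).s e z).det, fun x hx => ?_⟩, fun t ht => ?_, ?_⟩
  · change G.V.X at x
    change G.f x ∈ U at hx
    obtain ⟨S, h1, h2⟩ := hS _ hx
    have he := at_chart (n := n + n + 1) x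
    obtain ⟨S', s1, s2⟩ := S.rel x h1 _ he
    obtain ⟨h, γ, d1, d2, d3⟩ := det_rel G.hol (G.sbm x (hy _ hx).mem) he s1
    refine ⟨h, γ, d1, d2, ?_⟩
    have hc : ContinuousAt G.f x := G.hol.cont.continuousAt
    filter_upwards [s2, d3, hc.eventually h2, hc.eventually (S.opn.mem_nhds h1), at_near he]
      with x' k1 k2 k3 k4 k5
    rintro t ht z rfl e hz
    have ft : G.f ((y t).i z) = t := (hy t ht).emb.fib z
    replace k3 : ∃ (A : ZM r) (lam : ℂ), lam ^ 2 = 1 ∧ Tw A (y t) (S.Φ t) ∧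
        zC A *ᵥ F.p (S.τ t) = lam • F.p (π t) := ft ▸ k3
    replace k4 : t ∈ S.W := ft ▸ k4
    obtain ⟨A, lam, j3, a3, a4⟩ := k3
    obtain ⟨j, j1, j2, j4⟩ := cmp hA hT hP (hy t ht) (S.mp t k4) a3 a4
    have he' := at_chart (n := n + n) (j z)
    have m1 := k1 t k4 (j z) (j2 z) _ he'
    have m2 := (S.mp t k4).emb.hol.at (j z)
    have k5' : At (chartAt (Cm (n + n + 1)) x) ((S.Φ t).i (j z)) := by rw [j2]; exact k5
    have m3 : jacF (y t).i e (chartAt (Cm (n + n + 1)) x) z =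
        jacF (S.Φ t).i (chartAt (Cm (n + n)) (j z)) (chartAt (Cm (n + n + 1)) x) (j z) *
          jacF j e (chartAt (Cm (n + n)) (j z)) z := by
      rw [jacF_dfM ((hy t ht).emb.hol.at z) hz k5, jacF_dfM m2 he' k5', jacF_dfM (j1.at z) hz he',
        ← dfM_comp m2 (j1.at z) hz he' k5', show (fun z => (S.Φ t).i (j z)) = (y t).i from
          funext j2]
    refine Eq.trans ?_ (k2 _ _ t (hy t ht).emb z rfl e hz)
    show ((y t).s e (e z)).det = _
    rw [← det_pm j3, j4 e _ z hz he', m1, m3, Matrix.transpose_mul]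
    simp only [Matrix.mul_assoc]
  · have h1 := ((hT n r σ _ _ B F k c H G t hP).1 _ _ (hy t ht)).1
    have h2 := hL.hr.vols h1
    rw [(hA.ql F (π t)).2.2.1, Complex.ofReal_re, show 2 * (2 * F.e * (π t).im ^ 2) =
      4 * F.e * (π t).im ^ 2 by ring] at h2
    rw [← h2]
    exact (dens h1.1.1.1).isIntegral
  · intro t ht τ' y' A lam h' j3 a3 a4
    obtain ⟨j, j1, j2, j4⟩ := cmp hA hT hP h' (hy t ht) a3 a4
    refine ⟨j, j1, j2, fun e (e' : Chart (n + n) (y t).Y.V.X) z he he' => ?_⟩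
    show _ = (jacF j e e' z).det ^ 2 * ((y t).s e' (e' (j z))).det
    rw [← det_pm j3 (y'.s e (e z)), j4 e e' z he he', Matrix.det_mul, Matrix.det_mul,
      Matrix.det_transpose]
    ring

end Vale.Agent.P301Z.Al
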