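import Vale.Agent.P301Z.Al.Loc

/-!
# P301, block ALG: equations which are independent along the fibres
-/

open scoped Manifold ContDiff Topology
open Set Filter Function
open Vale.Agent.P272.K
open Vale.Agent.P277Z (Hol at_chart)
open Vale.Agent.P277Z.Slc (Ind dd ind_iff_surj)
open Vale.Agent.P281Z Vale.Agent.P281Z.Ana

set_option linter.unusedSectionVars false

noncomputable section

namespace Vale.Agent.P301Z.Al

namespace L

theorem sel {V κ : Type} [AddCommGroup V] [Module ℂ V] [Finite κ] {c : ℕ} {w : κ → V}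
    (h : c ≤ Module.finrank ℂ (Submodule.span ℂ (range w))) :
    ∃ σ : Fin c → κ, LinearIndependent ℂ fun a => w (σ a) := by
  obtain ⟨κ', a, ha, h1, h2⟩ := exists_linearIndependent' ℂ w
  have := Finite.of_injective a ha
  have := Fintype.ofFinite κ'
  have h3 : c ≤ Fintype.card κ' := by
    rwa [linearIndependent_iff_card_eq_finrank_span.1 h2, Set.finrank, h1]
  obtain ⟨e⟩ : Nonempty (Fin c ↪ κ') := Function.Embedding.nonempty_of_card_le (by simpa using h3)
  exact ⟨fun i => a (e i), h2.comp e e.injective⟩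

variable {n c m : ℕ} {X : Type} [TopologicalSpace X] [ChartedSpace (Cm n) X]
  [IsManifold 𝓘(ℂ, Cm n) ω X] {y : X}

theorem ind_sel {h : Fin c → X → ℂ} {g : Fin m → X → ℂ} {u : Fin c → Fin m → X → ℂ}
    (h1 : Ind n h y) (hg : ∀ l, Hol n (g l) y) (h0 : ∀ l, g l y = 0)
    (hu : ∀ a l, Hol n (u a l) y) (k : ∀ a, ∀ᶠ z in 𝓝 y, h a z = ∑ l, u a l z * g l z) :
    ∃ σ : Fin c → Fin m, Ind n (fun a => g (σ a)) y := by
  have he := at_chart (n := n) y
  set e := chartAt (Cm n) y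
  have k1 : ∀ a, dd (h a) e y = ∑ l, u a l y • dd (g l) e y := fun a => by
    rw [P277Z.Slc.dd_congr (k a) he]
    simp only [← fun l => P277Z.Slc.dd_mul (hu a l) (hg l) (h0 l) he]
    exact fderiv_fun_sum fun l _ => ((hu a l e he).mul (hg l e he)).differentiableAt
  have := Module.Finite.span_of_finite ℂ (finite_range fun l => dd (g l) e y)
  obtain ⟨σ, hσ⟩ := sel (c := c) (w := fun l => dd (g l) e y) (by
    refine le_trans ?_ (Submodule.finrank_mono (s := Submodule.span ℂ (range fun a => dd (h a) e y))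
      (Submodule.span_le.2 ?_))
    · exact (Fintype.card_fin c).symm.le.trans
        (linearIndependent_iff_card_eq_finrank_span.1 (h1.2 e he)).le
    · rintro _ ⟨a, rfl⟩
      simp only [k1]
      exact Submodule.sum_mem _ fun l _ => Submodule.smul_mem _ _ (Submodule.subset_span ⟨l, rfl⟩))
  exact ⟨σ, .of_chart (fun a => hg _) he hσ⟩

end L

variable {p q D c : ℕ} {Z : Mf p} {C : Mf q} {M : Mf D} {A : Set (Z.prod M).X} {z : (Z.prod M).X}
  {h : Fin c → (Z.prod M).X → ℂ}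

theorem fi_iff {e : Chart p Z.X} (he : At e (Z.p1 M z)) :
    FI Z M c z h ↔ Ind (p + D) (Sum.elim h fun (a : Fin p) w => e (Z.p1 M w) a) z :=
  ⟨fun k => (emb_slice2 (W := M) (Z.p1 M z)).ind_fib (x := Z.p2 M z) hol_p1 (sbm_p1 _) k.1 he k.2,
    fun k => ⟨fun j => k.1 (.inl j),
      (emb_slice2 (W := M) (Z.p1 M z)).fib_ind (x := Z.p2 M z) hol_p1 he k⟩⟩

theorem FI.ind (k : FI Z M c z h) : Ind (p + D) h z :=
  ((fi_iff (at_chart _)).1 k).comp Sum.inl Sum.inl_injective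

theorem FI.near (k : FI Z M c z h) : ∀ᶠ w in 𝓝 z, FI Z M c w h := by
  filter_upwards [((fi_iff (at_chart _)).1 k).near,
    cont_p1.continuousAt.eventually (at_near (at_chart (n := p) (Z.p1 M z)))] with w a b
  exact (fi_iff b).2 a

theorem RS.js (k : RS Z M A c z) : JS Z M A c z :=
  let ⟨h, a, b⟩ := k; ⟨h, a, b.mono fun _ i => i.1⟩

theorem JS.near (k : JS Z M A c z) : ∀ᶠ w in 𝓝 z, JS Z M A c w :=
  let ⟨h, a, b⟩ := k; (a.near.and b.eventually_nhds).mono fun _ i => ⟨h, i⟩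

theorem RS.near (k : RS Z M A c z) : ∀ᶠ w in 𝓝 z, RS Z M A c w :=
  let ⟨h, a, b⟩ := k; (a.near.and b.eventually_nhds).mono fun _ i => ⟨h, i⟩

/-- **RKL** -/
theorem rkl : RKL := by
  intro p D c Z M A hA x
  obtain ⟨m, g, hg⟩ := Rs.car_man (hA x)
  have he := at_chart (n := p) (Z.p1 M x)
  set e := chartAt (Cm p) (Z.p1 M x)
  refine (AnAt.inter (hA x) (anAt_iInter fun σ : Fin c → Fin m => anAt_dep (n := p + D) (x := x)
    (h := Sum.elim (fun a => g (σ a)) fun (a : Fin p) w => e (Z.p1 M w) a) (Sum.rec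
      (fun a => hg.self_of_nhds.1 _) fun a => hol_p1.hol (P281Z.hol_chart he a)))).congr ?_
  filter_upwards [hg.eventually_nhds, cont_p1.continuousAt.eventually (at_near he)] with y a b
  refine and_congr_right fun hy => ?_
  simp only [mem_iInter, mem_ofPred_eq, ← fi_iff b, ← not_exists]
  obtain ⟨a1, a2, a3⟩ := a.self_of_nhds
  refine not_congr ⟨fun ⟨σ, k⟩ => ⟨_, k, a.mono fun w i j l => i.2.1.1 j _⟩, fun ⟨h, k1, k2⟩ => ?_⟩
  choose u u1 u2 using fun j => a3 _ (k1.1 j) (k2.mono fun w i l => i l j)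
  have s := (emb_slice2 (W := M) (Z.p1 M y)).hol
  obtain ⟨σ, k⟩ := L.ind_sel (g := fun l w => g l (Z.pair M (Z.p1 M y) w))
    (u := fun j l w => u j l (Z.pair M (Z.p1 M y) w)) k1.2 (fun l => s.hol (a1 l)) (a2.1 hy)
    (fun j l => s.hol (u1 j l)) fun j => (s.cont.tendsto' (Z.p2 M y) y rfl).eventually (u2 j)
  exact ⟨σ, fun j => a1 _, k⟩

/-! ### Pull back -/

variable {g : C.X → Z.X} {w : (C.prod M).X}

/-- the map between the products -/
def pm (M : Mf D) (g : C.X → Z.X) (w : (C.prod M).X) : (Z.prod M).X :=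
  Z.pair M (g (C.p1 M w)) (C.p2 M w)

theorem hol_pm (hg : HolM q p g) : HolM (q + D) (p + D) (pm M g) :=
  (hg.comp hol_p1).pair hol_p2

theorem an_pb (hg : HolM q p g) (hA : An (p + D) A) : An (q + D) (pb M g A) := hA.pre (hol_pm hg)

theorem mem_pb {t : C.X} {y : M.X} : C.pair M t y ∈ pb M g A ↔ Z.pair M (g t) y ∈ A := Iff.rfl

theorem FI.pb (hg : HolM q p g) (k : FI Z M c (pm M g w) h) :
    FI C M c w fun j w => h j (pm M g w) := ⟨fun j => (hol_pm hg).hol (k.1 j), k.2⟩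

theorem JS.pb (hg : HolM q p g) (k : JS Z M A c (pm M g w)) : JS C M (pb M g A) c w :=
  let ⟨_, a, b⟩ := k; ⟨_, a.pb hg, (hol_pm hg).cont.continuousAt.eventually b⟩

theorem RS.pb (hg : HolM q p g) (k : RS Z M A c (pm M g w)) : RS C M (pb M g A) c w :=
  let ⟨_, a, b⟩ := k; ⟨_, a.pb hg, (hol_pm hg).cont.continuousAt.eventually b⟩

/-- the smooth part of the family is a manifold -/
theorem rs_subM {N : ℕ} {B : Set Z.X} (hN : N + c = D) (hB : IsClosed B)
    (k : ∀ z ∈ A, Z.p1 M z ∉ B → RS Z M A c z) : SubM (p + D) (p + N) (A \ Z.p1 M ⁻¹' B) := by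
  intro z hz
  obtain ⟨h, a, b⟩ := k z hz.1 hz.2
  refine ⟨c, h, by omega, a.ind, ?_⟩
  filter_upwards [b, (hB.preimage cont_p1).isOpen_compl.mem_nhds hz.2] with w i j
  exact ⟨fun l => i.1 l.1, fun l => ⟨i.2 l, j⟩⟩

/-- the smooth fibres are manifolds -/
theorem rs_fib {N : ℕ} {t : Z.X} (hN : N + c = D) (hA : An (p + D) A)
    (k : ∀ y, Z.pair M t y ∈ A → RS Z M A c (Z.pair M t y)) :
    ∃ (F : Mf N) (j : F.X → M.X), Emb N D j {y | Z.pair M t y ∈ A} := by
  have s := (emb_slice2 (W := M) t).hol.cont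
  refine SubM.emb (fun y hy => ?_) (hA.closed.preimage s).isCompact
  obtain ⟨h, a, b⟩ := k y hy
  exact ⟨c, _, hN, a.2, s.continuousAt.eventually b⟩

end Vale.Agent.P301Z.Al
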