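import Vale.Agent.P301Z.Al.Rk
import Vale.Agent.P301Z.Al.Defs
import Vale.Agent.P301Z.Sn.Resv

/-!
# P301, block ALG: models of families of submanifolds
-/

open scoped Manifold ContDiff Topology ComplexOrder
open Set Filter Function
open Vale.Agent.P272.K
open Vale.Agent.P277Z (Hol at_chart)
open Vale.Agent.P277Z.Slc (Ind Snc)
open Vale.Agent.P281Z
open Vale.Agent.P299.D (FormM pullM jacF)
open Vale.Agent.P299.H956 (pullM_eq)
open Vale.Agent.P301.H599 (SameClass)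

noncomputable section

namespace Vale.Agent.P301Z.Al

/-- the slice over `t` -/
def sl {p D : ℕ} {Z : Mf p} {M : Mf D} (A : Set (Z.prod M).X) (t : Z.X) : Set M.X :=
  {y | Z.pair M t y ∈ A}

/-- A model `V` of the family `A`, smooth over the complement of `B`, with its fibres. -/
structure Md (E N : ℕ) {p D : ℕ} (Z : Mf p) (M : Mf D) (A : Set (Z.prod M).X) (B : Set Z.X) :
    Type 1 where
  V : Mf E
  f : V.X → Z.X
  π : V.X → M.X
  Y : Z.X → Mf N
  j : ∀ t, (Y t).X → V.X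
  dim : E = p + N
  clo : IsClosed B
  hf : HolM E p f
  hπ : HolM E D π
  ovr : Over E (p + D) (fun x => Z.pair M (f x) (π x)) A (Z.p1 M ⁻¹' B)
  sbm : ∀ x, f x ∉ B → Sbm E p f x
  emb : ∀ t ∉ B, Emb N E (j t) (f ⁻¹' {t})
  embM : ∀ t ∉ B, Emb N D (fun y => π (j t y)) (sl A t)
  r : ℕ
  G : Fin r → Set V.X
  snc : Snc E G
  bad : ∀ x, f x ∈ B ↔ ∃ l, x ∈ G l
  kah : ∀ w : FormM D M.X, IsKahler w → ∃ W : FormM E V.X, IsKahler W ∧
    ∀ (d : ℕ) (F : Mf d) (i : F.X → V.X), HolM d E i → ∀ t ∉ B, (∀ y, f (i y) = t) →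
      SameClass (d := d) (pullM i W) (pullM (fun y => π (i y)) w)

/-- the family of the fibres -/
abbrev Md.fy {E N p D : ℕ} {Z : Mf p} {M : Mf D} {A : Set (Z.prod M).X} {B : Set Z.X}
    (R : Md E N Z M A B) : Fy E p N :=
  ⟨R.V, Z, R.f, Bᶜ, R.Y, R.j, R.dim, R.hf, R.clo.isOpen_compl, R.sbm, R.emb⟩

/-- two embeddings with the same image -/
theorem emb_iso {N D : ℕ} {F F' : Mf N} {M : Mf D} {i : F.X → M.X} {i' : F'.X → M.X}
    {S : Set M.X} (h : Emb N D i S) (h' : Emb N D i' S) : ∃ (u : F.X → F'.X) (u' : F'.X → F.X),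
      LeftInverse u' u ∧ RightInverse u' u ∧ HolM N N u ∧ HolM N N u' ∧ (∀ y, i' (u y) = i y) ∧
        ∀ y, i (u' y) = i' y := by
  obtain ⟨u, a, b⟩ := h'.fac h subset_rfl
  obtain ⟨u', a', b'⟩ := h.fac h' subset_rfl
  exact ⟨u, u', fun y => h.inj (by rw [b', b]), fun y => h'.inj (by rw [b, b']), a.hol, a'.hol,
    b, b'⟩

namespace Rz

theorem smul {n : ℕ} {X : Type} [TopologicalSpace X] [ChartedSpace (Cm n) X] {χ : FormM n X}
    {t : ℝ} (ht : 0 < t) (hχ : IsKahler χ) : IsKahler (fun e z => (t : ℂ) • χ e z : FormM n X) where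
  smooth e x h i j := contDiffAt_const.mul (hχ.smooth e x h i j)
  posDef e x h := (hχ.posDef e x h).smul (by exact_mod_cast ht)
  change e e' x h h' := by rw [hχ.change e e' x h h', Matrix.mul_smul, Matrix.smul_mul]
  closed e x h i j k := by
    have h1 : ∀ i j k, dz k (fun z => ((t : ℂ) • χ e z) i j) (e x) =
        (t : ℂ) * dz k (fun z => χ e z i j) (e x) := fun i j k =>
      dz_const_mul (i := k) (t : ℂ) ((hχ.smooth e x h i j).differentiableAt (by simp))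
    rw [h1, h1, hχ.closed e x h i j k]

/-- the product metric -/
def pk {p D : ℕ} (Z : Mf p) (M : Mf D) (v : FormM p Z.X) (w : FormM D M.X) :
    FormM (p + D) (Z.prod M).X := Prod.pm v w

theorem pk_kah {p D : ℕ} {Z : Mf p} {M : Mf D} {v : FormM p Z.X} {w : FormM D M.X}
    (hv : IsKahler v) (hw : IsKahler w) : IsKahler (pk Z M v w) := Prod.pm_kahler hv hw

theorem alg {d p D : ℕ} {J : Matrix (Fin (p + D)) (Fin d) ℂ} {J' : Matrix (Fin D) (Fin d) ℂ}
    {A : Matrix (Fin p) (Fin p) ℂ} {B B' : Matrix (Fin D) (Fin D) ℂ}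
    (a : ∀ k i, J (Fin.castAdd D k) i = 0) (b : ∀ k i, J (Fin.natAdd p k) i = J' k i)
    (c : B = B') : J.transpose * Prod.bd A B * J.map (starRingEnd ℂ) =
      J'.transpose * B' * J'.map (starRingEnd ℂ) := by
  ext i j
  simp [Matrix.mul_apply, Fin.sum_univ_add, a, b, c]

theorem slice {d p D : ℕ} {F : Mf d} {Z : Mf p} {M : Mf D} {φ : F.X → M.X} (hφ : HolM d D φ)
    (t : Z.X) {v : FormM p Z.X} {w : FormM D M.X} (hv : IsKahler v) (hw : IsKahler w)
    {e : Chart d F.X} {y : F.X} (he : At e y) :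
    pullM (fun y => Z.pair M t (φ y)) (pk Z M v w) e (e y) = pullM φ w e (e y) := by
  have h := at_chart (n := p + D) (Z.pair M t (φ y))
  obtain ⟨c, c', h0, -, h2, h3⟩ := Prod.pm_dec v w h
  rw [pullM_eq hw.isForm (hφ y) he h2,
    pullM_eq (pk_kah hv hw).isForm (((holM_const t).pair hφ) y) he h, pk, h3, h0]
  refine alg (fun k i => (congrArg (dz i · (e y))
    (funext fun z => Fin.append_left (c t) _ k)).trans (by simp [dz])) (fun k i =>
      congrArg (dz i · (e y)) (funext fun z => Fin.append_right (c t) _ k))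
    (congrArg (w c') (Prod.sndP_glue _ _))

end Rz

/-- **RESZ** -/
theorem md {E N p D c : ℕ} {Z : Mf p} {M : Mf D} {A : Set (Z.prod M).X} {B : Set Z.X}
    (hE : E = p + N) (h0 : 0 < E) (hN : N + c = D) (hZ : Z.Kah) (hA : An (p + D) A) (hB : An p B)
    (rs : ∀ z ∈ A, Z.p1 M z ∉ B → RS Z M A c z) : Nonempty (Md E N Z M A B) := by
  obtain ⟨V, π, r, G, h1, h2, h3, h4, h5⟩ := Sn.resz (Z.prod M) Z (Z.p1 M) A B h0 hol_p1 hA hB
    fun x hx hx' => by
      obtain ⟨h, a, b⟩ := rs x hx hx'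
      have he := at_chart (n := p) (Z.p1 M x)
      refine ⟨c, h, fun j t => chartAt (Cm p) (Z.p1 M x) t j, by omega, hol_chart he, ?_, b⟩
      refine (congrArg (Ind (p + D) · x) (funext fun l => ?_)).mp
        (((fi_iff he).1 a).comp Sum.swap Sum.swap_leftInverse.injective)
      cases l <;> rfl
  have hf := hol_p1.comp h1.hol
  have hπ := hol_p2.comp h1.hol
  have k : ∀ t, ∃ (F : Mf N) (i : F.X → V.X), t ∉ B →
      Emb N E i ((fun x => Z.p1 M (π x)) ⁻¹' {t}) := fun t => by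
    by_cases ht : t ∈ B
    · obtain ⟨F, i, -⟩ := SubM.emb (n := E) (d := N) (S := (∅ : Set V.X)) (fun _ h => h.elim)
        isCompact_empty
      exact ⟨F, i, fun c => (c ht).elim⟩
    · obtain ⟨F, i, h⟩ := fib_emb (y := t) hE hf fun x hx => h4 x (hx ▸ ht)
      exact ⟨F, i, fun _ => h⟩
  choose Y j hj using k
  have e : ∀ t ∉ B, ∀ y, π (j t y) = Z.pair M t (Z.p2 M (π (j t y))) := fun t ht y =>
    prod_ext ((hj t ht).fib y) rfl
  have n : ∀ t ∉ B, ∀ y, π (j t y) ∉ Z.p1 M ⁻¹' B := fun t ht y c => ht ((hj t ht).fib y ▸ c)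
  refine ⟨⟨V, _, _, Y, j, hE, hB.closed, hf, hπ, h1, h4, hj, fun t ht => ⟨hπ.comp (hj t ht).hol,
    fun y y' c => (hj t ht).inj ((h1.one _ (h1.maps _) (n t ht y)).unique rfl ?_), fun y => ?_,
    Subset.antisymm ?_ fun y hy => ?_⟩, r, G, h2, h3, fun w hw => ?_⟩⟩
  · rw [e t ht y, e t ht y', show Z.p2 M (π (j t y)) = _ from c]
  · exact Imm.of_comp ((emb_slice2 t).hol.at _) ((hπ.comp (hj t ht).hol).at y)
      ((Imm.comp (h1.hol.at _) ((hj t ht).hol.at y) (h1.imm _ (n t ht y))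
        ((hj t ht).imm y)).cng (.of_forall (e t ht)))
  · rintro _ ⟨y, rfl⟩
    exact (e t ht y ▸ h1.maps (j t y) :)
  · obtain ⟨x, hx, -⟩ := h1.one _ hy ht
    obtain ⟨u, rfl⟩ := (hj t ht).ex (y := x) (congrArg (Z.p1 M) hx)
    exact ⟨u, congrArg (Z.p2 M) hx⟩
  obtain ⟨v, hv⟩ := hZ
  obtain ⟨k, χ, k0, k1, k2⟩ := h5 _ (Rz.pk_kah hv hw)
  refine ⟨_, Rz.smul (inv_pos.2 k0) k1, fun d F i hi t ht c => ?_⟩
  obtain ⟨u, u1, u2⟩ := k2 d F i hi fun y => (c y).symm ▸ ht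
  refine ⟨fun y => k⁻¹ * u y, fun e y he => contDiffAt_const.mul (u1 e y he), fun e y he => ?_⟩
  have a : (fun y => π (i y)) = fun y => Z.pair M t (Z.p2 M (π (i y))) :=
    funext fun y => prod_ext (c y) rfl
  have b := u2 e y he
  beta_reduce at b
  rw [a, Rz.slice (hπ.comp hi) t hv hw he] at b
  have s : pullM i (fun e z => ((k⁻¹ : ℝ) : ℂ) • χ e z) e (e y) =
      ((k⁻¹ : ℝ) : ℂ) • pullM i χ e (e y) := by
    simp only [pullM, Matrix.mul_smul, Matrix.smul_mul]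
  rw [s, b, smul_add, smul_smul, ← Complex.ofReal_mul, inv_mul_cancel₀ k0.ne', Complex.ofReal_one,
    one_smul]
  exact congrArg _ (cHess_const_mul _ ((u1 e y he).of_le P284Y.Lib.two_le_inf)).symm

/-- the model of a family `Fm` -/
theorem Fm.md {D N c : ℕ} {M : Mf D} {ι : Type} {Y : ι → Set M.X} (F : Fm M c Y) (h0 : 0 < N)
    (hN : N + c = D) (hZ : F.Z.Kah) : Nonempty (Md (F.p + N) N F.Z M F.A F.B) :=
  Al.md rfl (by omega) hN hZ F.an F.thin.an F.rs

/-- the model of the pull back to a curve -/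
theorem Fm.md_pb {D N c : ℕ} {M : Mf D} {ι : Type} {Y : ι → Set M.X} (F : Fm M c Y)
    (hN : N + c = D) {C : Mf 1} {g : C.X → F.Z.X} (hg : HolM 1 F.p g) (hC : C.Kah) {S : Set C.X}
    (hS : An 1 S) (k : ∀ t ∉ S, g t ∉ F.B) : Nonempty (Md (N + 1) N C M (pb M g F.A) S) :=
  Al.md (add_comm _ _) N.succ_pos hN hC (an_pb hg F.an) hS fun _ hz h =>
    (F.rs _ hz (k _ h)).pb hg

theorem sl_pb {p q D : ℕ} {Z : Mf p} {C : Mf q} {M : Mf D} (g : C.X → Z.X) (A : Set (Z.prod M).X)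
    (t : C.X) : sl (pb M g A) t = sl A (g t) := rfl

end Vale.Agent.P301Z.Al
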