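import Vale.Agent.P301Z.Al.Sk
import Vale.Agent.P301Z.Lat.Pk
import Vale.Agent.P299.H956.D1.Pull

/-!
# P301, block ALG: twisting and shrinking a sheet
-/

open scoped Manifold ContDiff ComplexOrder Topology Matrix
open Set Filter Metric
open Vale.Agent.P272.K Vale.Agent.P299.IX Vale.Agent.P299.IX.Fock
open Vale.Agent.P277Z (Hol)
open Vale.Agent.P281Z (Mf HolM Emb Thin Sbm)
open Vale.Agent.P281Z.Hg
open Vale.Agent.P299.D (pullM jacF)
open Vale.Agent.P301Z.Lat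

noncomputable section

namespace Vale.Agent.P301Z.Al

variable {n r σ D p : ℕ} {B : BB n r}

/-- the pairing of the twisted period with a fixed vector -/
def Sht.pr (F : Fr B) (A : ZM r) (y : Fin r → ℂ) (x : ℂ) : ℂ := qC B.q (zC A *ᵥ F.p x) y

theorem Sht.pr_an (F : Fr B) (A : ZM r) (y : Fin r → ℂ) (x : ℂ) :
    AnalyticAt ℂ (Sht.pr F A y) x := by
  have h : Differentiable ℂ (Sht.pr F A y) := by
    unfold Sht.pr
    simp only [qC, Matrix.mulVec, dotProduct, Fr.p, Pi.add_apply, Pi.sub_apply, Pi.smul_apply,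
      smul_eq_mul, div_eq_mul_inv]
    fun_prop
  exact h.analyticAt x

theorem Sht.vals (hA : ARI) (F : Fr B) {A : ZM r} {x τ lam : ℂ} (h0 : lam ≠ 0)
    (h : zC A *ᵥ F.p x = lam • F.p τ) :
    Sht.pr F A (rc (zr F.l)) x / F.D = lam ∧
      τ = Sht.pr F A (rc (zr F.v)) x / F.e / (Sht.pr F A (rc (zr F.l)) x / F.D) := by
  have hD : (F.D : ℂ) ≠ 0 := by exact_mod_cast F.Dpos.ne'
  have he : (F.e : ℂ) ≠ 0 := by exact_mod_cast F.epos.ne'
  obtain ⟨h1, h2, -⟩ := hA.ql F τ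
  have a1 : Sht.pr F A (rc (zr F.l)) x / F.D = lam := by
    unfold Sht.pr
    rw [h, qC_smul_l, h1, mul_div_assoc, div_self hD, mul_one]
  refine ⟨a1, ?_⟩
  rw [a1]
  unfold Sht.pr
  rw [h, qC_smul_l, h2]
  field_simp

/-- a holomorphic function of the base point, in a chart of the total space -/
theorem Sht.an_comp {V : Mf D} {Z : Mf p} {f : V.X → Z.X} (hf : HolM D p f) {u : Z.X → ℂ}
    {y : V.X} (hu : Hol p u (f y)) {e : Chart D V.X} (he : At e y) :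
    AnalyticAt ℂ (fun z => u (f (e.symm z))) (e y) := by
  have hχ : At (chartAt (Cm p) (f y)) (f y) := Lat.at_chart (f y)
  have h1 := (Vale.Agent.P299.H956.rep_hol (hf y) he hχ).analyticAt
  have h2 := hu _ hχ
  have h3 : chartAt (Cm p) (f y) (f y) = chartAt (Cm p) (f y) (f (e.symm (e y))) := by
    rw [he.left_inv]
  rw [h3] at h2
  refine (AnalyticAt.comp (f := fun z => chartAt (Cm p) (f y) (f (e.symm z))) h2 h1).congr ?_
  filter_upwards [Vale.Agent.P299.H956.nhds_at_map (hf y).continuousAt he hχ] with z hz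
  simp only [Function.comp_apply]
  rw [hz.2.2.left_inv]

theorem Tv.mono {N : ℕ} {V : Mf D} {Z : Mf p} {f : V.X → Z.X} {W W' : Set Z.X} {M : Mf N}
    {Ψ : V.X → M.X} {Θ : Z.X → M.X → V.X} (h : Tv f W M Ψ Θ) (hs : W' ⊆ W) : Tv f W' M Ψ Θ :=
  ⟨fun t ht => h.h1 t (hs ht), fun y hy => h.h2 y (hs hy), fun y hy => h.Ψc y (hs hy),
    fun y hy => h.Ψs y (hs hy), fun t ht => h.Θc t (hs ht), fun t ht => h.Θs t (hs ht)⟩

theorem sht (hL : LAT) (hA : ARI) (_hP : PBR) (hT : TWA) (hW : TW) : SHT := by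
  intro n r σ D p B F k c H G S A W τ Φ hP hI hO hs h
  obtain ⟨m, hf, hm⟩ := hT.tw S.M A hI.unit hI.iso
  have key := fun t (ht : t ∈ W) => ((hW n r σ D p B F k c H G t hP).2.1 (τ t) (Φ t) (S.τ t)
    (S.Φ t) (h t ht).1 (S.mp t (hs ht))).2.2.2 A (h t ht).2
  have hlam : ∀ t ∈ W, Sht.pr F A (rc (zr F.l)) (S.τ t) / F.D ≠ 0 := by
    intro t ht
    obtain ⟨lam, φ, h0, h1, -⟩ := key t ht
    rw [(Sht.vals hA F h0 h1).1]
    exact h0
  refine ⟨⟨W, hO, τ, ?_, Φ, fun t ht => (h t ht).1, ⟨S.M.V, S.M.sc, m, hf⟩, S.kM, S.Ψ, S.Θ,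
    S.tv.mono hs, ?_, ?_⟩, rfl, rfl, rfl⟩
  · intro t ht
    have h1 : Hol p (fun t => Sht.pr F A (rc (zr F.v)) (S.τ t) / F.e /
        (Sht.pr F A (rc (zr F.l)) (S.τ t) / F.D)) t := by
      intro e he
      have a := S.hol t (hs ht) e he
      refine AnalyticAt.div ((Sht.pr_an F A _ _).comp a).div_const
        ((Sht.pr_an F A _ _).comp a).div_const ?_
      have := hlam t ht
      rwa [← he.left_inv] at this
    refine Vale.Agent.P277Z.Hol.congr h1 ?_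
    filter_upwards [hO.mem_nhds ht] with t' ht'
    obtain ⟨lam, φ, h0, h1, -⟩ := key t' ht'
    exact (Sht.vals hA F h0 h1).2.symm
  · intro t ht
    obtain ⟨φ, h1, h2, h3⟩ := (h t ht).2
    obtain ⟨g1, g2⟩ := S.mor t (hs ht)
    have e1 : (fun z => S.Ψ ((Φ t).i z)) = (fun z => S.Ψ ((S.Φ t).i z)) ∘ φ := by
      funext z
      simp only [Function.comp_apply, h1]
    obtain ⟨c1, c2⟩ := (rows.pbc (n + n) (Φ t).Y.V.X (n + n) (S.Φ t).Y.V.X).2.2 (n + n) S.M.V.X φ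
      _ h2 g1
    obtain ⟨⟨T₁, hT₁⟩, -⟩ := pb1T (n + n) (Φ t).Y.V.X (n + n) (S.Φ t).Y.V.X φ h2
    obtain ⟨⟨T₂, hT₂⟩, -⟩ := pb1T (n + n) (S.Φ t).Y.V.X (n + n) S.M.V.X _ g1
    refine ⟨e1 ▸ c1, fun T hT' u hu => ?_⟩
    have e2 : T = T₁ ∘ T₂ :=
      (pb1T (n + n) (Φ t).Y.V.X (n + n) S.M.V.X _ c1).2.1 _ _ (e1 ▸ hT') (c2 _ _ hT₁ hT₂)
    rw [e2, Function.comp_apply, h3 _ hT₁ _ ((hL.mark.pb g1 hT₂ u).1 hu), g2 _ hT₂ u hu]
    exact (hm u).symm
  · intro y hy e he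
    obtain ⟨Sm, a1, a2⟩ := S.rel y (hs hy) e he
    refine ⟨fun z => (Sht.pr F A (rc (zr F.l)) (S.τ (G.f (e.symm z))) / F.D)⁻¹ • Sm z,
      fun a b => ?_, ?_⟩
    · simp only [Matrix.smul_apply, smul_eq_mul]
      refine AnalyticAt.mul (AnalyticAt.inv ((Sht.pr_an F A _ _).comp
        (Sht.an_comp G.hol (S.hol _ (hs hy)) he)).div_const ?_) (a1 a b)
      have := hlam _ hy
      rwa [← he.left_inv] at this
    · filter_upwards [a2, e.open_source.mem_nhds he.2] with y' b1 b2 t ht z hz e' he'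
      obtain ⟨lam, φ, h0, h1, h2, h3, h4⟩ := key t ht
      have he2 : At e y' := ⟨he.1, b2⟩
      have hft : G.f y' = t := by
        have : y' ∈ range (Φ t).i := ⟨z, hz⟩
        rw [(h t ht).1.emb.rng] at this
        exact this
      have hc : At (chartAt (Cm (n + n)) (φ z)) (φ z) := Lat.at_chart (φ z)
      have k1 := b1 t (hs ht) (φ z) ((h3 z).trans hz) _ hc
      have k2 := h4 e' _ z he' hc
      have k3 : jacF (Φ t).i e' e z = jacF (S.Φ t).i (chartAt (Cm (n + n)) (φ z)) e (φ z) *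
          jacF φ e' (chartAt (Cm (n + n)) (φ z)) z := by
        rw [← Vale.Agent.P299.H956.jacF_comp (h2 z) ((S.mp t (hs ht)).emb.hol (φ z)) he' hc
          (by rw [h3, hz]; exact he2)]
        congr 1
        funext w
        exact (h3 w).symm
      rw [he2.left_inv, hft, (Sht.vals hA F h0 h1).1, k3, Matrix.mul_smul, Matrix.smul_mul,
        eq_inv_smul_iff₀ h0, k2, k1, Matrix.transpose_mul]
      simp only [Matrix.mul_assoc]

end Vale.Agent.P301Z.Al
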