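import Vale.Agent.P301Z.Al.Sk

/-!
# P301, block ALG: the parts of the row `PER`
-/

open scoped Manifold ContDiff ComplexOrder Topology Matrix
open Set Filter Metric
open Vale.Agent.P272.K
open Vale.Agent.P281Z (Mf HolM Emb)
open Vale.Agent.P281Z.Hg
open Vale.Agent.P299.D (pullM)
open Vale.Agent.P301Z.Lat

noncomputable section

namespace Vale.Agent.P301Z.Al

/-- **FLT**: classes of global forms are constant for flat markings -/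
structure FLT : Prop where
  symm : ∀ {n r : ℕ} {B : BB n r} (Y Y' : MK B) (φ : Y.V.X ≃ₜ Y'.V.X),
    Smo (n + n) (n + n) φ.symm → Y.Mor Y' φ → Y'.Mor Y φ.symm
  smo : ∀ {D p N : ℕ} {V : Mf D} {Z : Mf p} {f : V.X → Z.X} {W : Set Z.X} {M : Mf N}
    {Ψ : V.X → M.X} {Θ : Z.X → M.X → V.X}, Tv f W M Ψ Θ → ∀ t ∈ W, Smo N D (Θ t)
  flat : ∀ {n r D p : ℕ} {B : BB n r} {V : Mf D} {Z : Mf p} {f : V.X → Z.X} {W : Set Z.X}
    {M : MK B} {Ψ : V.X → M.V.X} {Θ : Z.X → M.V.X → V.X}, V.Kah → M.V.Kah → IsPreconnected W →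
    Tv f W M.V Ψ Θ → ∀ (a : Fld V) (v : Fin r → ℝ), R11 a → ∀ t ∈ W, ∀ t' ∈ W,
    ∀ (Y Y' : MK B) (i : Y.V.X → V.X) (i' : Y'.V.X → V.X), Emb (n + n) D i (f ⁻¹' {t}) →
    Emb (n + n) D i' (f ⁻¹' {t'}) → Y.Mor M (fun z => Ψ (i z)) → Y'.Mor M (fun z => Ψ (i' z)) →
    Y.C11 (pullM i a) v → Y'.C11 (pullM i' a) v

/-- **GOOD**: all fibres are marked points -/
def GOOD : Prop := ∀ (n r σ D p : ℕ) (B : BB n r) (F : Fr B) (k : Fin r → ℝ) (c : Fin σ → ℝ)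
  (H : Fin σ → Fin r → ℝ) (G : PF D p (n + n) c), Pol F k c H → (∃ t τ y, MP F H G t τ y) →
  ∀ t ∈ G.U, ∃ (sc : SimplyConnectedSpace (G.Y t).X) (m : Mark (G.Y t) r) (h : Fuj B m)
    (s : Fld (G.Y t)) (τ : ℂ), MP F H G t τ ⟨⟨⟨G.Y t, sc, m, h⟩, s⟩, G.j t⟩

end Vale.Agent.P301Z.Al
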