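import Vale.Agent.P301Z.Al.Sk
import Vale.Agent.P281Z.An.Rk
import Vale.Agent.P281Z.Mf.Adapt

/-!
# P301, block ALG: sheets as local families, critical values (rows SLF, CVAL)
-/

open scoped Manifold ContDiff Topology Matrix
open Set Filter Metric Function
open Vale.Agent.P272.K Vale.Agent.P281Z
open Vale.Agent.P277Z (Hol at_chart)
open Vale.Agent.P277Z.Slc (dd Ind)

noncomputable section

namespace Vale.Agent.P301Z.Al

namespace SlfX

theorem chart0 {b : ℕ} {Z : Mf (b + 1)} {u : Z.X → ℂ} {t : Z.X} (hu : Hol (b + 1) u t)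
    (h0 : dd u (chartAt (Cm (b + 1)) t) t ≠ 0) {U : Set Z.X} (hU : U ∈ 𝓝 t) :
    ∃ κ : Chart (b + 1) Z.X, Co (b + 1) κ ∧ t ∈ κ.source ∧ κ.source ⊆ U ∧
      ∀ y ∈ κ.source, κ y 0 = u y := by
  obtain ⟨c, j, h1, h2, h3, -, h5⟩ := exists_chart (h := fun _ : Unit => u)
    (Ind.of_chart (fun _ => hu) (at_chart t) (linearIndependent_unique_iff.2 h0)) hU
  let T : Cm (b + 1) ≃L[ℂ] Cm (b + 1) :=
    (LinearEquiv.funCongrLeft ℂ ℂ (Equiv.swap 0 (j ()))).toContinuousLinearEquiv
  refine ⟨_, h1.trans T, h2, h3, fun y hy => ?_⟩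
  change c y (Equiv.swap 0 (j ()) 0) = _
  rw [Equiv.swap_apply_left, h5 y hy]

theorem co_surj {p : ℕ} {Z : Mf p} {κ : Chart p Z.X} (h : Co p κ) {x : Z.X} (hx : x ∈ κ.source)
    {e : Chart p Z.X} (he : At e x) : Surjective (fderiv ℂ (fun z => κ (e.symm z)) (e x)) := by
  have hv := κ.map_source hx
  have he' : At e (κ.symm (κ x)) := by rwa [κ.left_inv hx]
  have h1 := (h.an _ (κ.map_target hv) e he').differentiableAt.hasFDerivAt.comp (κ x)
    (h.inv _ hv e he').differentiableAt.hasFDerivAt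
  have h2 := h1.unique ((hasFDerivAt_id (κ x)).congr_of_eventuallyEq (by
    filter_upwards [κ.open_target.mem_nhds hv, (κ.continuousAt_symm hv).eventually (at_near he')]
      with w k1 k2
    simp only [comp_apply, id, k2.left_inv, κ.right_inv k1]))
  rw [κ.left_inv hx] at h2
  exact fun v => ⟨_, DFunLike.congr_fun h2 v⟩

theorem comp_surj {D p : ℕ} {V : Mf D} {Z : Mf p} {f : V.X → Z.X} {κ : Chart p Z.X} (h : Co p κ)
    {y : V.X} (hf : HolA D p f y) (hs : Sbm D p f y) (hx : f y ∈ κ.source) {e : Chart D V.X}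
    (he : At e y) : Surjective (fderiv ℂ (fun z => κ (f (e.symm z))) (e y)) := by
  have hc := at_chart (n := p) (f y)
  set c := chartAt (Cm p) (f y)
  have h1 : HasFDerivAt (fun w => κ (c.symm w)) (fderiv ℂ (fun w => κ (c.symm w)) (c (f y)))
      (c (f (e.symm (e y)))) := by
    rw [he.left_inv]
    exact (h.an _ hx c hc).differentiableAt.hasFDerivAt
  have h2 := (h1.comp (e y) (hf.an he hc).differentiableAt.hasFDerivAt).congr_of_eventuallyEq
    (f₁ := fun z => κ (f (e.symm z))) (by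
      filter_upwards [at_ev he (hf.cont.eventually (at_near hc))] with z hz
      simp only [comp_apply, hz.left_inv])
  rw [h2.fderiv]
  exact (co_surj h hx hc).comp (hs e c he hc)

end SlfX

open SlfX in
theorem slf (hW : TW) : SLF := by
  intro n r σ D b B F k c H G S hP t ht him h0
  have hU : S.W ∩ {t' | 0 < (S.τ t').im} ∈ 𝓝 t := inter_mem (S.opn.mem_nhds ht)
    ((Complex.continuous_im.continuousAt.comp (S.hol t ht).cont).eventually (lt_mem_nhds him))
  obtain ⟨κ, hκ, h1, h2, h3⟩ := chart0 (S.hol t ht) h0 hU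
  obtain ⟨δ₀, h4, h5⟩ := Metric.isOpen_iff.1 κ.open_target _ (κ.map_source h1)
  refine ⟨κ, δ₀, h1, fun y hy => (h2 hy).1, h3, h4, h5, fun δ hδ hle => ?_⟩
  have ht' : ∀ w ∈ ball (κ t) δ, w ∈ κ.target := fun w hw => h5 (ball_subset_ball hle hw)
  have hs : ∀ w ∈ ball (κ t) δ, κ.symm w ∈ S.W := fun w hw => (h2 (κ.map_target (ht' w hw))).1
  have hτ : ∀ w ∈ ball (κ t) δ, w 0 = S.τ (κ.symm w) := fun w hw => by
    rw [← h3 _ (κ.map_target (ht' w hw)), κ.right_inv (ht' w hw)]
  refine ⟨{ dim := G.dim, pos := hδ, kah := G.kah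
            im := fun w hw => hτ w hw ▸ (h2 (κ.map_target (ht' w hw))).2
            O := G.f ⁻¹' (κ.source ∩ κ ⁻¹' ball (κ t) δ)
            g := fun y => κ (G.f y)
            opn := (κ.isOpen_inter_preimage isOpen_ball).preimage G.hol.cont
            hol := fun y hy a => (G.hol.at y).hol ((hκ.an _ hy.1).hol a)
            sbm := fun y hy e he =>
              comp_surj hκ (G.hol.at y) (G.sbm y (S.mp _ (h2 hy.1).1).mem) hy.1 he
            maps := fun y hy => hy.2
            Φ := fun w => S.Φ (κ.symm w)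
            emb := fun w hw => ?_
            sym := fun w hw => hτ w hw ▸ (S.mp _ (hs w hw)).sym
            kc := fun w hw =>
              ((hW n r σ D (b + 1) B F k c H G _ hP).1 _ _ (S.mp _ (hs w hw))).1.2.1
            M := S.M, Mk := S.kM, Ψ := S.Ψ
            Θ := fun w => S.Θ (κ.symm w)
            h1 := fun w hw z => ?_
            h2 := fun y hy => ?_
            Ψc := fun y hy => S.tv.Ψc y (h2 hy.1).1
            Ψs := fun y hy => S.tv.Ψs y (h2 hy.1).1
            Θc := fun w hw z => ?_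
            Θs := fun w hw z e' e he' he => ?_
            mor := fun w hw => S.mor _ (hs w hw)
            rel := fun y hy e he => ?_ }, fun _ => rfl⟩
  · have e : G.f ⁻¹' (κ.source ∩ κ ⁻¹' ball (κ t) δ) ∩ (fun y => κ (G.f y)) ⁻¹' {w} =
        G.f ⁻¹' {κ.symm w} := by
      ext y
      constructor
      · rintro ⟨a, rfl⟩
        exact (κ.left_inv a.1).symm
      · intro a
        have a' : G.f y = κ.symm w := a
        simp only [mem_inter_iff, mem_preimage, mem_singleton_iff, a', κ.right_inv (ht' w hw)]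
        exact ⟨⟨κ.map_target (ht' w hw), hw⟩, trivial⟩
    rw [e]
    exact (S.mp _ (hs w hw)).emb
  · obtain ⟨a, a'⟩ := S.tv.h1 _ (hs w hw) z
    simp only [mem_inter_iff, mem_preimage, a, κ.right_inv (ht' w hw)]
    exact ⟨⟨κ.map_target (ht' w hw), hw⟩, trivial, a'⟩
  · simp only [κ.left_inv hy.1]
    exact S.tv.h2 y (h2 hy.1).1
  · exact ContinuousAt.comp (f := fun q : Cm (b + 1) × S.M.V.X => (κ.symm q.1, q.2))
      (g := fun q : G.Z.X × S.M.V.X => S.Θ q.1 q.2) (S.tv.Θc _ (hs w hw) z)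
      (((κ.continuousAt_symm (ht' w hw)).comp continuousAt_fst).prodMk continuousAt_snd)
  · have hc := at_chart (n := b + 1) (κ.symm w)
    set χ := chartAt (Cm (b + 1)) (κ.symm w)
    have a : ContDiffAt ℝ ∞ (fun q : Cm (b + 1) × Cm (n + n) => (χ (κ.symm q.1), q.2)) (w, e' z) :=
      (ContDiffAt.comp (w, e' z) (g := fun v => χ (κ.symm v))
        ((hκ.inv w (ht' w hw) χ hc).contDiffAt.restrict_scalars ℝ) contDiffAt_fst).prodMk
        contDiffAt_snd
    refine (ContDiffAt.comp (w, e' z) (S.tv.Θs _ (hs w hw) z χ e' e hc he' he)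
      a).congr_of_eventuallyEq ?_
    filter_upwards [(continuousAt_fst (p := (w, e' z))).eventually
      ((κ.continuousAt_symm (ht' w hw)).eventually (at_near hc))] with q hq
    simp only [comp_apply, hq.left_inv]
  · obtain ⟨S', a, a'⟩ := S.rel y (h2 hy.1).1 e he
    exact ⟨S', a, a'.mono fun y' h w hw => h _ (hs w hw)⟩

theorem cval : CVAL := by
  intro p Z W u hW hu
  obtain ⟨s, hs, hc⟩ := TopologicalSpace.countable_cover_nhds
    fun x : Z.X => chart_source_mem_nhds (Cm p) x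
  have key : ∀ x : Z.X, (u '' ({t | t ∈ W ∧ dd u (chartAt (Cm p) t) t = 0} ∩
      (chartAt (Cm p) x).source)).Countable := by
    intro x
    set e := chartAt (Cm p) x
    have he : e ∈ atlas (Cm p) Z.X := chart_mem_atlas _ x
    have h1 : ∀ z ∈ e.target ∩ e.symm ⁻¹' W, AnalyticAt ℂ (fun z => u (e.symm z)) z :=
      fun z hz => by simpa only [e.right_inv hz.1] using hu _ hz.2 e (At.of_target he hz.1)
    obtain ⟨Ω, g, -, -, h2⟩ := Ana.cvrk p 1 0 _ (fun z _ => u (e.symm z))
      (e.isOpen_inter_preimage_symm hW) fun z hz => AnalyticAt.pi fun _ => h1 z hz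
    refine ((countable_range fun l => g l 0 0)).mono ?_
    rintro _ ⟨y, ⟨⟨a, a'⟩, hy⟩, rfl⟩
    have h3 : e y ∈ e.target ∩ e.symm ⁻¹' W :=
      ⟨e.map_source hy, by rw [mem_preimage, e.left_inv hy]; exact a⟩
    have h4 : fderiv ℂ (fun z => u (e.symm z)) (e y) = 0 := by
      have := P277Z.Slc.dd_chart (hu y a) (at_chart y) ⟨he, hy⟩
      rw [a', ContinuousLinearMap.zero_comp] at this
      exact this
    obtain ⟨l, v, -, h5⟩ := mem_iUnion.1 (h2 ⟨e y, ⟨h3, by
      rw [fderiv_pi fun _ => (h1 _ h3).differentiableAt, h4, ContinuousLinearMap.pi_zero]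
      simp [Ana.rk]⟩, rfl⟩)
    refine ⟨l, ?_⟩
    show g l 0 0 = u y
    rw [Subsingleton.elim 0 v, h5]
    simp only [e.left_inv hy]
  refine (hs.biUnion fun x _ => key x).mono ?_
  rintro _ ⟨y, hy, rfl⟩
  obtain ⟨x, a, a'⟩ := mem_iUnion₂.1 (hc ▸ mem_univ y)
  exact mem_biUnion a ⟨y, ⟨hy, a'⟩, rfl⟩

end Vale.Agent.P301Z.Al
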