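import Vale.Agent.P301Z.Al.Sk
import Vale.Agent.P301Z.Lat.Pk
import Vale.Agent.P281Z.Mf.Sub

/-!
# P301, block ALG: twists of marked points (row TW)
-/

open scoped Manifold ContDiff ComplexOrder Topology Matrix
open Set Filter Metric
open Vale.Agent.P272.K Vale.Agent.P299.IX Vale.Agent.P299.IX.Fock
open Vale.Agent.P281Z (Mf HolM Emb)
open Vale.Agent.P281Z.Hg
open Vale.Agent.P299.D (pullM jacF)
open Vale.Agent.P301.H599 (IsHolTwoForm SameClass)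
open Vale.Agent.P301Z.Lat

noncomputable section

namespace Vale.Agent.P301Z.Al

namespace TwH

variable {n r σ D p : ℕ} {B : BB n r}

/-! ### Integral matrices -/

theorem zC_mul (A A' : ZM r) : zC (A * A') = zC A * zC A' := by
  ext i j
  simp [zC, Matrix.mul_apply]

theorem zC_one : zC (1 : ZM r) = 1 := by
  ext i j
  by_cases h : i = j <;> simp [zC, Matrix.one_apply, h]

theorem zC_tr (A : ZM r) : zC Aᵀ = (zC A)ᵀ := rfl

theorem zC_inj {A A' : ZM r} (h : ∀ v, zC A *ᵥ v = zC A' *ᵥ v) : A = A' := by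
  ext i j
  have := congrFun (h (Pi.single j 1)) i
  rw [Matrix.mulVec_single_one, Matrix.mulVec_single_one] at this
  have h2 : ((A i j : ℤ) : ℂ) = ((A' i j : ℤ) : ℂ) := this
  exact_mod_cast h2

theorem zC_star (A : ZM r) (v : Fin r → ℂ) : star (zC A *ᵥ v) = zC A *ᵥ star v := by
  funext i
  simp [zC, Matrix.mulVec, dotProduct]

theorem qC_eq (q : ZM r) (x y : Fin r → ℂ) : qC q x y = x ⬝ᵥ (zC q *ᵥ y) := by
  simp only [qC, zC, dotProduct, Matrix.mulVec, Matrix.map_apply, Finset.mul_sum]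
  exact Finset.sum_congr rfl fun i _ => Finset.sum_congr rfl fun j _ => by ring

theorem qC_iso {q A : ZM r} (h : Aᵀ * q * A = q) (x y : Fin r → ℂ) :
    qC q (zC A *ᵥ x) (zC A *ᵥ y) = qC q x y := by
  have h2 : (zC A)ᵀ * zC q * zC A = zC q := by rw [← zC_tr, ← zC_mul, ← zC_mul, h]
  rw [qC_eq, qC_eq]
  conv_rhs => rw [← h2]
  rw [← Matrix.mulVec_mulVec, ← Matrix.mulVec_mulVec, Matrix.dotProduct_mulVec x,
    Matrix.vecMul_transpose]

theorem fix_span {A : ZM r} {H : Fin σ → Fin r → ℝ} (h : ∀ a, zC A *ᵥ rc (H a) = rc (H a))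
    {x : Fin r → ℝ} (hx : x ∈ Submodule.span ℝ (range H)) : zC A *ᵥ rc x = rc x := by
  induction hx using Submodule.span_induction with
  | mem x hx =>
    obtain ⟨a, rfl⟩ := hx
    exact h a
  | zero => rw [rc_zero, Matrix.mulVec_zero]
  | add x y _ _ hx hy => rw [rc_add, Matrix.mulVec_add, hx, hy]
  | smul c x _ hx => rw [rc_smul, Matrix.mulVec_smul, hx]

/-! ### Pull backs -/

section pb
variable {d d' d'' : ℕ} {V : Mf d} {V' : Mf d'} {V'' : Mf d''}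

theorem pb_ex {f : V.X → V'.X} (h : Smo d d' f) : ∃ T : Fs V' →ₗ[ℂ] Fs V, IsPb f T :=
  (pb1T d V.X d' V'.X f h).1

theorem pb_uniq {f : V.X → V'.X} (h : Smo d d' f) {T T' : Fs V' → Fs V} (h1 : IsPb f T)
    (h2 : IsPb f T') : T = T' := (pb1T d V.X d' V'.X f h).2.1 T T' h1 h2

theorem smo_id' (V : Mf d) : Smo d d (id : V.X → V.X) := (pbc d V.X d V.X f1a k1b').2.1

theorem pb_id {T : Fs V → Fs V} (h : IsPb (id : V.X → V.X) T) (u : Fs V) : T u = u :=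
  congrFun (pb_uniq (smo_id' V) h (pbc d V.X d V.X f1a k1b').1) u

theorem smo_comp' {f : V.X → V'.X} {g : V'.X → V''.X} (hf : Smo d d' f) (hg : Smo d' d'' g) :
    Smo d d'' (g ∘ f) := ((pbc d V.X d' V'.X f1a k1b').2.2 d'' V''.X f g hf hg).1

theorem pb_comp {f : V.X → V'.X} {g : V'.X → V''.X} (hf : Smo d d' f) (hg : Smo d' d'' g)
    {T : Fs V' → Fs V} {T' : Fs V'' → Fs V'} (h : IsPb f T) (h' : IsPb g T') :
    IsPb (g ∘ f) (T ∘ T') := ((pbc d V.X d' V'.X f1a k1b').2.2 d'' V''.X f g hf hg).2 T T' h h'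

theorem hol_smul (c : ℂ) {s : Fld V} (hs : IsHolTwoForm s) :
    IsHolTwoForm (X := V.X) fun e z => c • s e z where
  holo e x hx i j := analyticAt_const.mul (hs.holo e x hx i j)
  alt e x hx := by rw [Matrix.transpose_smul, hs.alt e x hx, smul_neg]
  change e e' x hx hx' := by
    rw [hs.change e e' x hx hx', Matrix.mul_smul, Matrix.smul_mul]

theorem is20_smul (A : PWA) (c : ℂ) {s : Fld V} {u : Fs V} (hu : Is20 s u) :
    Is20 (V := V) (fun e z => c • s e z) (c • u) := fun e x hx => by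
  show c • vl u e (e x) = f20 (c • s e (e x))
  rw [hu e x hx, A.f20_smul]

end pb

/-! ### One marked point -/

variable {F : Fr B} {k : Fin r → ℝ} {c : Fin σ → ℝ} {H : Fin σ → Fin r → ℝ}
  {G : PF D p (n + n) c} {t : G.Z.X} {τ τ' : ℂ} {y y' : Fb B G.V}

theorem perp_k (hF : Pol F k c H) : Perp F k := ⟨hF.inP.1, hF.inP.2.1, hF.inP.2.2.1⟩

theorem kk_pos (hF : Pol F k c H) : 0 < qR B.q k k := by
  rw [hF.inP.2.2.2]
  exact F.epos

theorem hk (hL : LAT) (hF : Pol F k c H) (h : MP F H G t τ y) :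
    y.Y.HK y.s (pullM y.i G.W) (F.p τ) k := by
  have kah : IsKahler (pullM y.i G.W : Fld y.Y.V) :=
    P281Z.kah_of_imm h.emb.hol h.emb.imm G.kah
  refine ⟨h.sym, ⟨kah, ?_⟩, kk_pos hF⟩
  have hs : ∀ s : Finset (Fin σ), y.Y.C11
      (fun e z => ∑ a ∈ s, (c a : ℂ) • pullM y.i (G.η a) e z) (∑ a ∈ s, c a • H a) := by
    intro s
    induction s using Finset.induction_on with
    | empty =>
      obtain ⟨v, hv⟩ := hL.rel.c11 y.Y (R11.kahler kah)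
      simpa using hL.rel.add 0 0 hv hv
    | insert a s ha ih =>
      simpa [Finset.sum_insert ha] using hL.rel.add (c a) 1 (h.cls a) ih
  rw [hF.sum]
  exact hL.rel.same (hs Finset.univ) (R11.kahler kah) (G.cls t h.mem y.Y.V y.i h.emb)

theorem im_ne (hL : LAT) (hA : ARI) (hF : Pol F k c H) (h : MP F H G t τ y) : τ.im ≠ 0 := by
  intro h0
  have := hL.rel.ppb (hk hL hF h)
  rw [(hA.ql F τ).2.2.1, h0] at this
  simp at this

theorem tw_one {V : Mf D} (y : Fb B V) : Tw 1 y y :=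
  ⟨id, fun _ => rfl, smo_id' _, fun T hT u _ => by rw [pb_id hT, zC_one, Matrix.one_mulVec]⟩

theorem new_pt (hL : LAT) (hA : ARI) (hT : TWA) (hF : Pol F k c H) (h : MP F H G t τ y)
    {A : ZM r} (ha : IsoP F A) : ∃ τ' y', MP F H G t τ' y' ∧ Tw A y' y := by
  obtain ⟨m, fuj, hm⟩ := hT.tw y.Y A ha.unit ha.iso
  obtain ⟨lam, τ', hl, -, hπ⟩ := hA.per F (zC A *ᵥ F.p τ)
    (by rw [qC_iso ha.iso]; exact hL.rel.pp h.sym.1 h.sym.1)
    (by rw [zC_star, qC_iso ha.iso]; exact hL.rel.ppb (hk hL hF h))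
    (fun x hx => by
      rw [← ha.fix x hx, qC_iso ha.iso]
      exact (hA.ql F τ).2.2.2 x hx)
  refine ⟨τ', ⟨⟨⟨y.Y.V, y.Y.sc, m, fuj⟩, fun e z => lam⁻¹ • y.s e z⟩, y.i⟩,
    ⟨h.mem, h.emb, fun a => ?_, ⟨hol_smul _ h.sym.1.1, ?_⟩, fun e x hx => ?_⟩,
    id, fun _ => rfl, smo_id' _, fun T hT u _ => ?_⟩
  · obtain ⟨h1, u, h2, h3, h4⟩ := h.cls a
    refine ⟨h1, u, h2, h3, ?_⟩
    show m.c u = _
    rw [hm, h4, ha.fix _ (hF.perp a)]
  · obtain ⟨u, h2, h3, h4⟩ := h.sym.1.2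
    refine ⟨lam⁻¹ • u, is20_smul hL.pwa _ h2, h3.smul _, ?_⟩
    show m.c (lam⁻¹ • u) = _
    rw [map_smul, hm, h4, hπ, smul_smul, inv_mul_cancel₀ hl, one_smul]
  · show (lam⁻¹ • y.s e (e x)).det ≠ 0
    rw [Matrix.det_smul]
    exact mul_ne_zero (pow_ne_zero _ (inv_ne_zero hl)) (h.sym.2 e x hx)
  · show m.c (T u) = _
    rw [pb_id (V := y.Y.V) hT, hm]

/-! ### Two marked points -/

theorem tw_map (h' : MP F H G t τ' y') {A : ZM r} (hA : Tw A y y') {φ : y.Y.V.X → y'.Y.V.X}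
    (hφ : ∀ z, y'.i (φ z) = y.i z) {T : Fs y'.Y.V → Fs y.Y.V} (hT : IsPb φ T) {u : Fs y'.Y.V}
    (hu : Cl2 y'.Y.V u) : y.Y.m.c (T u) = zC A *ᵥ y'.Y.m.c u := by
  obtain ⟨ψ, h1, -, h3⟩ := hA
  obtain rfl : ψ = φ := funext fun z => h'.emb.inj ((h1 z).trans (hφ z).symm)
  exact h3 T hT u hu

theorem tw_uniq (h' : MP F H G t τ' y') {A A' : ZM r} (hA : Tw A y y') (hA' : Tw A' y y') :
    A = A' := by
  obtain ⟨φ, h1, h2, h3⟩ := hA
  obtain ⟨T, hT⟩ := pb_ex h2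
  refine zC_inj fun v => ?_
  obtain ⟨u, hu, rfl⟩ := y'.Y.m.onto v
  rw [← h3 T hT u hu, tw_map h' hA' h1 hT hu]

theorem tw_fix (hP : PBR) (h : MP F H G t τ y) (h' : MP F H G t τ' y') {A : ZM r}
    (hA : Tw A y y') (a : Fin σ) : zC A *ᵥ rc (H a) = rc (H a) := by
  obtain ⟨φ, h1, h2, -⟩ := hP.fac h.emb h'.emb
  obtain ⟨T, hT⟩ := pb_ex (hP.smo h2)
  obtain ⟨-, u, hu, -, hc⟩ := h.cls a
  obtain ⟨-, u', hu', hcl, hc'⟩ := h'.cls a
  have e1 : (fun z => y'.i (φ z)) = y.i := funext h1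
  have e2 : T u' = u := ext_F fun e x hx => by
    rw [(hP.is11 h2 hT hu').val hx, hu.val hx, ← hP.comp h2 h'.emb.hol (G.r11 a) e x hx, e1]
  rw [← hc', ← tw_map h' hA h1 hT hcl, e2, hc, hc']

theorem tw_ex (hL : LAT) (hP : PBR) (hT : TWA) (hF : Pol F k c H) (h : MP F H G t τ y)
    (h' : MP F H G t τ' y') : ∃ A, IsoP F A ∧ Tw A y y' := by
  obtain ⟨φ, h1, h2, h3, h4, -⟩ := hP.fac h.emb h'.emb
  obtain ⟨sc, m, fuj, hm⟩ := hL.tr y'.Y y.Y.V φ (hP.smo h2) (hP.smo h3) h4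
  obtain ⟨A, hu, hA⟩ := hT.ex y.Y.m m
  have htw : Tw A y y' := ⟨φ, h1, hP.smo h2, fun T hT u hc => by
    rw [hA _ ((hL.mark.pb (hP.smo h2) hT u).1 hc)]
    exact congrArg _ (hm.2 T hT u hc)⟩
  have hfix : ∀ x, Perp F x → zC A *ᵥ rc x = rc x := fun x hx =>
    fix_span (tw_fix hP h h' htw) (hF.span x hx)
  refine ⟨A, ⟨hu, hT.alg B A k (kk_pos hF) (hfix k (perp_k hF)) fun v => ?_, hfix⟩, htw⟩
  obtain ⟨u, hc, rfl⟩ := m.onto v
  have e1 := y.Y.fuj u hc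
  rw [fuj u hc, hA u hc] at e1
  exact (mul_left_cancel₀ (Complex.ofReal_ne_zero.2 B.Cpos.ne') e1).symm

theorem tw_per (hL : LAT) (hP : PBR) (hF : Pol F k c H) (h : MP F H G t τ y)
    (h' : MP F H G t τ' y') {A : ZM r} (hA : Tw A y y') {φ : y.Y.V.X → y'.Y.V.X}
    (h1 : ∀ z, y'.i (φ z) = y.i z) (h2 : HolM (n + n) (n + n) φ)
    (h5 : ∀ (e : Chart (n + n) y.Y.V.X) (e' : Chart (n + n) y'.Y.V.X) z, At e z → At e' (φ z) →
      (jacF φ e e' z).det ≠ 0) :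
    ∃ lam : ℂ, lam ≠ 0 ∧ zC A *ᵥ F.p τ' = lam • F.p τ ∧ ∀ e e' z, At e z → At e' (φ z) →
      lam • y.s e (e z) = (jacF φ e e' z)ᵀ * y'.s e' (e' (φ z)) * jacF φ e e' z := by
  obtain ⟨T, hT⟩ := pb_ex (hP.smo h2)
  obtain ⟨u, hu, -, hc⟩ := h.sym.1.2
  obtain ⟨u', hu', hcl, hc'⟩ := h'.sym.1.2
  obtain ⟨s, hs, hs2, hs3⟩ := hP.is20 h2 hT h'.sym.1.1 hu'
  obtain ⟨lam, hl⟩ := (hL.rel.sym (hk hL hF h)).unique s hs
  refine ⟨lam, fun h0 => ?_, ?_, fun e e' z hz hz' => by rw [← hl e z hz, hs3 e e' z hz hz']⟩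
  · have := y.Y.sc
    obtain ⟨z⟩ : Nonempty y.Y.V.X := inferInstance
    have : Nonempty (Fin (n + n)) := ⟨⟨0, by have := B.npos; omega⟩⟩
    have e1 := congrArg Matrix.det (hs3 _ _ z (Lat.at_chart z) (Lat.at_chart (φ z)))
    rw [hl _ z (Lat.at_chart z), h0, zero_smul, Matrix.det_zero, Matrix.det_mul,
      Matrix.det_mul, Matrix.det_transpose] at e1
    have e2 := h5 _ _ z (Lat.at_chart z) (Lat.at_chart (φ z))
    exact mul_ne_zero (mul_ne_zero e2 (h'.sym.2 _ _ (Lat.at_chart (φ z)))) e2 e1.symm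
  · have e2 : T u' = lam • u := ext_F fun e x hx => by
      rw [hs2 e x hx, hl e x hx, is20_smul hL.pwa lam hu e x hx]
    rw [← hc', ← tw_map h' hA h1 hT hcl, e2, map_smul, hc]

theorem tw_iso (hL : LAT) (hA : ARI) (hP : PBR) (hF : Pol F k c H) (h : MP F H G t τ y)
    (h' : MP F H G t τ' y') (h1 : Tw 1 y y') : τ = τ' ∧ Iso y.toPt y'.toPt := by
  obtain ⟨φ, g1, g2, g3, -, g5⟩ := hP.fac h.emb h'.emb
  obtain ⟨lam, -, e1, e2⟩ := tw_per hL hP hF h h' h1 g1 g2 g5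
  rw [zC_one, Matrix.one_mulVec] at e1
  have hD : (F.D : ℂ) ≠ 0 := Complex.ofReal_ne_zero.2 F.Dpos.ne'
  have he : (F.e : ℂ) ≠ 0 := Complex.ofReal_ne_zero.2 F.epos.ne'
  have l1 : lam = 1 := by
    have := (hA.ql F τ').1
    rw [e1, qC_smul_l, (hA.ql F τ).1] at this
    exact mul_right_cancel₀ hD (this.trans (one_mul _).symm)
  subst l1
  rw [one_smul] at e1
  have hm : ∀ T : Fs y'.Y.V → Fs y.Y.V, IsPb φ T → ∀ u, Cl2 y'.Y.V u →
      y.Y.m.c (T u) = y'.Y.m.c u := fun T hT u hu => by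
    rw [tw_map h' h1 g1 hT hu, zC_one, Matrix.one_mulVec]
  refine ⟨?_, φ, φ.symm, φ.symm_apply_apply, φ.apply_symm_apply, g2, g3, ⟨hP.smo g2, hm⟩,
    ⟨hP.smo g3, fun T' hT' u hu => ?_⟩, h.sym.1.1, h'.sym.1.1, fun e e' z hz hz' => ?_⟩
  · have := (hA.ql F τ').2.1
    rw [e1, (hA.ql F τ).2.1] at this
    exact mul_left_cancel₀ he this
  · obtain ⟨T, hT⟩ := pb_ex (hP.smo g2)
    have hc := pb_comp (hP.smo g2) (hP.smo g3) hT hT'
    rw [show (φ.symm ∘ φ : y.Y.V.X → y.Y.V.X) = id from φ.symm_comp_self] at hc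
    have e3 : T (T' u) = u := pb_id hc u
    rw [← hm T hT _ ((hL.mark.pb (hP.smo g3) hT' u).1 hu), e3]
  · rw [← e2 e e' z hz hz', one_smul]

theorem tw_mul (hL : LAT) {V : Mf D} {y y' y'' : Fb B V} {A A' : ZM r} (h : Tw A y y')
    (h' : Tw A' y' y'') : Tw (A * A') y y'' := by
  obtain ⟨φ, h1, h2, h3⟩ := h
  obtain ⟨ψ, g1, g2, g3⟩ := h'
  refine ⟨ψ ∘ φ, fun z => (g1 (φ z)).trans (h1 z), smo_comp' h2 g2, fun T'' hT'' u hu => ?_⟩
  obtain ⟨T, hT⟩ := pb_ex h2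
  obtain ⟨T', hT'⟩ := pb_ex g2
  rw [pb_uniq (smo_comp' h2 g2) hT'' (pb_comp h2 g2 hT hT'), Function.comp_apply,
    h3 T hT _ ((hL.mark.pb g2 hT' u).1 hu), g3 T' hT' u hu, zC_mul, Matrix.mulVec_mulVec]

end TwH

open TwH in
/-- row TW -/
theorem tw (hL : LAT) (hA : ARI) (hP : PBR) (hT : TWA) : TW := by
  intro n r σ D p B F k c H G t hF
  refine ⟨fun τ y h => ⟨hk hL hF h, im_ne hL hA hF h, tw_one y, fun A ha =>
    new_pt hL hA hT hF h ha⟩, fun τ y τ' y' h h' => ⟨tw_ex hL hP hT hF h h',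
      fun A A' h1 h2 => tw_uniq h' h1 h2, tw_iso hL hA hP hF h h', fun A h1 => ?_⟩,
    fun τ y τ' y' τ'' y'' A A' _ _ _ h1 h2 => tw_mul hL h1 h2⟩
  obtain ⟨φ, g1, g2, -, -, g5⟩ := hP.fac h.emb h'.emb
  obtain ⟨lam, l0, e1, e2⟩ := tw_per hL hP hF h h' h1 g1 g2 g5
  exact ⟨lam, φ, l0, e1, g2, g1, e2⟩

end Vale.Agent.P301Z.Al
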