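import Vale.Agent.P301Z.Al.Sk
import Vale.Agent.P301Z.Lat.Pk

/-!
# P301, block ALG: two markings differ by an isometry
-/

open scoped Topology Matrix
open Filter
open Vale.Agent.P281Z (Mf)
open Vale.Agent.P301Z.Lat

noncomputable section

namespace Vale.Agent.P301Z.Al

namespace TwaH

variable {r : ℕ}

theorem zC_mul (A A' : ZM r) : zC (A * A') = zC A * zC A' :=
  Matrix.map_mul (f := Int.castRingHom ℂ)

theorem zC_one : zC (1 : ZM r) = 1 :=
  Matrix.map_one _ Int.cast_zero Int.cast_one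

theorem zC_inj {A A' : ZM r} (h : zC A = zC A') : A = A' := by
  ext i j
  exact Int.cast_injective (α := ℂ) (congrFun (congrFun h i) j)

theorem zC_int (A : ZM r) (k : Fin r → ℤ) :
    (zC A *ᵥ fun i => (k i : ℂ)) = fun i => ((A *ᵥ k) i : ℂ) := by
  funext i
  simp [zC, Matrix.mulVec, dotProduct]

theorem zC_star (A : ZM r) (v : Fin r → ℂ) : zC A *ᵥ star v = star (zC A *ᵥ v) := by
  funext i
  simp [zC, Matrix.mulVec, dotProduct]

theorem zC_cancel {A A' : ZM r} (h : A * A' = 1) (v : Fin r → ℂ) : zC A *ᵥ (zC A' *ᵥ v) = v := by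
  rw [Matrix.mulVec_mulVec, ← zC_mul, h, zC_one, Matrix.one_mulVec]

theorem qC_dot (q : ZM r) (v w : Fin r → ℂ) : qC q v w = v ⬝ᵥ zC q *ᵥ w := by
  simp only [qC, zC, Matrix.mulVec, dotProduct, Matrix.map_apply, Finset.mul_sum]
  exact Finset.sum_congr rfl fun i _ => Finset.sum_congr rfl fun j _ => by ring

theorem qC_zC (q A : ZM r) (v w : Fin r → ℂ) :
    qC q (zC A *ᵥ v) (zC A *ᵥ w) = qC (Aᵀ * q * A) v w := by
  have h : zC Aᵀ = (zC A)ᵀ := rfl
  rw [qC_dot, qC_dot, zC_mul, zC_mul, h, ← Matrix.mulVec_mulVec, ← Matrix.mulVec_mulVec,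
    Matrix.dotProduct_mulVec v, Matrix.vecMul_transpose]

theorem qR_par (q : ZM r) (x y : Fin r → ℝ) (s : ℝ) :
    qR q (x + s • y) (x + s • y) + qR q (x + (-s) • y) (x + (-s) • y) =
      2 * qR q x x + 2 * s ^ 2 * qR q y y := by
  simp only [qR, Pi.add_apply, Pi.smul_apply, smul_eq_mul, Finset.mul_sum,
    ← Finset.sum_add_distrib]
  exact Finset.sum_congr rfl fun i _ => Finset.sum_congr rfl fun j _ => by ring

theorem qR_cont (q : ZM r) (x y : Fin r → ℝ) :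
    Continuous fun s : ℝ => qR q (x + s • y) (x + s • y) := by
  unfold qR
  fun_prop

theorem qR_add (q : ZM r) (x y : Fin r → ℝ) :
    qR q (x + y) (x + y) = qR q x x + qR q x y + qR q y x + qR q y y := by
  simp only [qR, Pi.add_apply, ← Finset.sum_add_distrib]
  exact Finset.sum_congr rfl fun i _ => Finset.sum_congr rfl fun j _ => by ring

theorem qR_single (q : ZM r) (i j : Fin r) :
    qR q (Pi.single i 1) (Pi.single j 1) = q i j := by
  simp [qR, Pi.single_apply]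

theorem diag_eq {n : ℕ} (hn : 0 < n) (q q' : ZM r) (x : Fin r → ℝ) (hx : 0 < qR q x x)
    (hx' : qR q' x x = qR q x x) (h : ∀ v, qR q' v v ^ n = qR q v v ^ n) (y : Fin r → ℝ) :
    qR q' y y = qR q y y := by
  have h1 : ∀ᶠ s in 𝓝 (0 : ℝ), 0 < qR q (x + s • y) (x + s • y) :=
    ((qR_cont q x y).tendsto 0).eventually (lt_mem_nhds (by simpa using hx))
  have h2 : ∀ᶠ s in 𝓝 (0 : ℝ), 0 < qR q' (x + s • y) (x + s • y) :=
    ((qR_cont q' x y).tendsto 0).eventually (lt_mem_nhds (by simpa [hx'] using hx))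
  have h3 : ∀ᶠ s in 𝓝 (0 : ℝ), qR q' (x + s • y) (x + s • y) = qR q (x + s • y) (x + s • y) := by
    filter_upwards [h1, h2] with s a b
    exact (pow_left_inj₀ b.le a.le hn.ne').1 (h _)
  have h4 : ∀ᶠ s in 𝓝 (0 : ℝ),
      qR q' (x + (-s) • y) (x + (-s) • y) = qR q (x + (-s) • y) (x + (-s) • y) :=
    (continuous_neg.tendsto' (0 : ℝ) 0 neg_zero).eventually h3
  have h5 : ∀ᶠ s in 𝓝[≠] (0 : ℝ), s ≠ 0 := self_mem_nhdsWithin
  obtain ⟨s, hs, ha, hb⟩ := (h5.and ((h3.and h4).filter_mono nhdsWithin_le_nhds)).exists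
  have e1 := qR_par q x y s
  have e2 := qR_par q' x y s
  rw [ha, hb, e1, hx', add_right_inj] at e2
  exact (mul_left_cancel₀ (mul_ne_zero two_ne_zero (pow_ne_zero 2 hs)) e2).symm

theorem eq_of_diag {q q' : ZM r} (hq : qᵀ = q) (hq' : q'ᵀ = q')
    (h : ∀ y, qR q' y y = qR q y y) : q' = q := by
  ext i j
  have e := h (Pi.single i 1 + Pi.single j 1)
  rw [qR_add, qR_add, h, h, qR_single, qR_single, qR_single, qR_single, qR_single,
    qR_single] at e
  have a : q j i = q i j := congrFun (congrFun hq i) j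
  have b : q' j i = q' i j := congrFun (congrFun hq' i) j
  rw [a, b] at e
  refine Int.cast_injective (α := ℝ) ?_
  linarith

theorem alg {n : ℕ} (B : BB n r) (A : ZM r) (x : Fin r → ℝ) (hx : 0 < qR B.q x x)
    (hA : zC A *ᵥ rc x = rc x)
    (h : ∀ v, qC B.q (zC A *ᵥ v) (zC A *ᵥ v) ^ n = qC B.q v v ^ n) : Aᵀ * B.q * A = B.q := by
  refine eq_of_diag B.symm ?_ (diag_eq B.npos _ _ x hx ?_ fun v => ?_)
  · rw [Matrix.transpose_mul, Matrix.transpose_mul, Matrix.transpose_transpose, B.symm,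
      Matrix.mul_assoc]
  · have e := qC_zC B.q A (rc x) (rc x)
    rw [hA, qC_rc, qC_rc] at e
    exact Complex.ofReal_injective e.symm
  · have e := h (rc v)
    rw [qC_zC, qC_rc, qC_rc, ← Complex.ofReal_pow, ← Complex.ofReal_pow] at e
    exact Complex.ofReal_injective e

theorem ex1 {d : ℕ} {V : Mf d} (m m' : Mark V r) :
    ∃ A : ZM r, ∀ u, Cl2 V u → m.c u = zC A *ᵥ m'.c u := by
  choose b hb hc using fun i : Fin r => m'.onto (Pi.single i 1)
  have hI : ∀ i, IntF V (b i) := fun i => (m'.int _ (hb i)).2 ⟨Pi.single i 1, by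
    rw [hc]
    funext j
    by_cases hj : j = i <;> simp [Pi.single_apply, hj]⟩
  choose k hk using fun i => (m.int _ (hb i)).1 (hI i)
  refine ⟨Matrix.of fun a i => k i a, fun u hu => ?_⟩
  have hw : Cl2 V (∑ i, m'.c u i • b i) := Cl2.sum _ fun i _ => (hb i).smul _
  have h1 : m'.c u = m'.c (∑ i, m'.c u i • b i) := by
    simp only [map_sum, map_smul, hc]
    funext j
    simp [Finset.sum_apply, Pi.single_apply]
  rw [(m.eq_of hu hw).2 ((m'.eq_of hu hw).1 h1)]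
  simp only [map_sum, map_smul, hk]
  funext j
  simp [zC, Matrix.mulVec, dotProduct, Finset.sum_apply, mul_comm]

theorem inv1 {d : ℕ} {V : Mf d} {m m' : Mark V r} {A A' : ZM r}
    (h : ∀ u, Cl2 V u → m.c u = zC A *ᵥ m'.c u) (h' : ∀ u, Cl2 V u → m'.c u = zC A' *ᵥ m.c u) :
    A * A' = 1 := by
  refine zC_inj ?_
  rw [zC_mul, zC_one]
  refine Matrix.mulVec_injective (funext fun x => ?_)
  obtain ⟨u, hu, rfl⟩ := m.onto x
  rw [← Matrix.mulVec_mulVec, ← h' u hu, ← h u hu, Matrix.one_mulVec]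

theorem ex {d : ℕ} {V : Mf d} (m m' : Mark V r) :
    ∃ A : ZM r, IsUnit A ∧ ∀ u, Cl2 V u → m.c u = zC A *ᵥ m'.c u := by
  obtain ⟨A, h⟩ := ex1 m m'
  obtain ⟨A', h'⟩ := ex1 m' m
  exact ⟨A, ⟨⟨A, A', inv1 h h', inv1 h' h⟩, rfl⟩, h⟩

/-- the twist of a marking -/
def twM {d : ℕ} {V : Mf d} (m : Mark V r) {A A' : ZM r} (h : A * A' = 1) (h' : A' * A = 1) :
    Mark V r where
  c := (zC A).mulVecLin ∘ₗ m.c
  ker u hu := by
    rw [← m.ker u hu]
    refine ⟨fun e => ?_, fun e => ?_⟩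
    · have e' : zC A *ᵥ m.c u = 0 := e
      rw [← zC_cancel h' (m.c u), e', Matrix.mulVec_zero]
    · change zC A *ᵥ m.c u = 0
      rw [e, Matrix.mulVec_zero]
  onto x := by
    obtain ⟨u, hu, e⟩ := m.onto (zC A' *ᵥ x)
    refine ⟨u, hu, ?_⟩
    change zC A *ᵥ m.c u = x
    rw [e, zC_cancel h]
  int u hu := by
    rw [m.int u hu]
    refine ⟨fun ⟨k, e⟩ => ⟨A *ᵥ k, ?_⟩, fun ⟨k, e⟩ => ⟨A' *ᵥ k, ?_⟩⟩
    · change zC A *ᵥ m.c u = _
      rw [e, zC_int]
    · have e' : zC A *ᵥ m.c u = fun i => (k i : ℂ) := e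
      rw [← zC_cancel h' (m.c u), e', zC_int]
  cj u hu := by
    change zC A *ᵥ m.c _ = star (zC A *ᵥ m.c u)
    rw [m.cj u hu, zC_star]

end TwaH

open TwaH in
theorem twa : TWA where
  alg B A x hx hA h := alg B A x hx hA h
  ex m m' := ex m m'
  tw Y A hA hq := by
    obtain ⟨a, rfl⟩ := hA
    refine ⟨twM Y.m a.val_inv a.inv_val, fun u hu => ?_, fun u => rfl⟩
    change _ = _ * qC _ (zC a.val *ᵥ Y.m.c u) (zC a.val *ᵥ Y.m.c u) ^ _
    rw [qC_zC, hq]
    exact Y.fuj u hu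

end Vale.Agent.P301Z.Al
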