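import Vale.Agent.P301Z.Al.GeoAll
import Vale.Agent.P301Z.Al.Alg
import Vale.Agent.P301Z.Al.Can
import Vale.Agent.P301Z.Al.Holb
import Vale.Agent.P301Z.Al.Kc
import Vale.Agent.P301Z.Al.Locu
import Vale.Agent.P301Z.Al.Rayf
import Vale.Agent.P301Z.Al.Sht
import Vale.Agent.P301Z.Al.Slf
import Vale.Agent.P301Z.Al.Tw
import Vale.Agent.P301Z.Al.Twa

namespace Vale.Agent.P301Z.Al

theorem alg_top (L : Lat.LAT) (A : ARI) (P : PBR) (hP : PER) (hR : RAYA) : ALG :=
  have T := tw L A P twa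
  alg_of L (kc L A) (gf P) P T hP (sht L A P twa T) (slf T) cval hR

end Vale.Agent.P301Z.Al
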