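import Vale.Agent.P301Z.Al.Sk
import Vale.Agent.P301Z.Pt.Ret
import Vale.Agent.P281Z.Nt.Conv
import Vale.Agent.P281Z.Hg.AllA

/-!
# P301, block ALG: smooth trivialisations of families
-/

open scoped Manifold ContDiff Topology
open Set Filter
open Vale.Agent.P272.K
open Vale.Agent.P281Z (Mf HolM HolA Emb Imm)
open Vale.Agent.P281Z.Hg
open Vale.Agent.P301Z.Pt

noncomputable section

namespace Vale.Agent.P301Z.Al

namespace Trv

section ori

variable {d : ℕ} {M M' M'' : Type} [TopologicalSpace M] [ChartedSpace (Cm d) M]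
  [TopologicalSpace M'] [ChartedSpace (Cm d) M'] [TopologicalSpace M''] [ChartedSpace (Cm d) M'']
  {f : M → M'} {g : M' → M''}

theorem det_comp (hf : Smo d d f) (hg : Smo d d g) {e : Chart d M} {c : Chart d M'}
    {b : Chart d M''} {x : M} (hx : At e x) (hc : At c (f x)) (hb : At b (g (f x))) :
    (fderiv ℝ (fun z => b (g (f (e.symm z)))) (e x)).det =
      (fderiv ℝ (fun z => b (g (c.symm z))) (c (f x))).det *
        (fderiv ℝ (fun z => c (f (e.symm z))) (e x)).det := by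
  have h1 := (hg.sm c b _ hc hb).differentiableAt (by simp)
  have h2 : c (f x) = c (f (e.symm (e x))) := by rw [e.left_inv hx.2]
  rw [h2] at h1 ⊢
  rw [(Pb1H.lc_comp hf.cont hx hc).fderiv_eq]
  exact (congrArg ContinuousLinearMap.det (fderiv_comp (g := fun z => b (g (c.symm z))) _ h1
    ((hf.sm e c x hx hc).differentiableAt (by simp)))).trans (LinearMap.det_comp _ _)

variable [IsManifold 𝓘(ℂ, Cm d) ω M] [IsManifold 𝓘(ℂ, Cm d) ω M'] [IsManifold 𝓘(ℂ, Cm d) ω M'']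

theorem ori_comp (hf : Smo d d f) (hg : Smo d d g) (of : Ori d f) (og : Ori d g) :
    Ori d (g ∘ f) := fun x => ⟨_, _, ca x, ca _,
  (mul_pos (Pb2H.det_pos k1b' hg og (ca _) (ca _)) (Pb2H.det_pos k1b' hf of (ca _) (ca _))).trans_eq
    (det_comp hf hg (ca x) (ca _) (ca _)).symm⟩

theorem ori_inv {g : M' → M} (hf : Smo d d f) (hg : Smo d d g) (h : ∀ x, g (f x) = x)
    (og : Ori d g) : Ori d f := fun x => by
  have hx : At (chartAt (Cm d) x) (g (f x)) := (h x).symm ▸ ca x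
  have k := det_comp hf hg (ca x) (ca _) hx
  have k1 : (fun z => chartAt (Cm d) x (g (f ((chartAt (Cm d) x).symm z)))) =ᶠ[𝓝 (chartAt (Cm d) x x)]
      id := (Pb1H.near hf.cont (ca x) (ca (d := d) _)).mono fun z a =>
    (congrArg _ (h _)).trans ((chartAt (Cm d) x).right_inv a.1)
  rw [k1.fderiv_eq, fderiv_id] at k
  refine ⟨_, _, ca x, ca _, (pos_iff_pos_of_mul_pos (k ▸ ?_)).1 (Pb2H.det_pos k1b' hg og (ca _) hx)⟩
  exact zero_lt_one.trans_eq LinearMap.det_id.symm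

end ori

theorem fib_emb {p d : ℕ} {V : Mf (p + d)} {Z : Mf p} {f : V.X → Z.X} {y : Z.X}
    (B : Fib p d f y) : Emb d (p + d) B.j (f ⁻¹' {y}) := by
  have h : ∀ x, HolA d (p + d) B.j x := fun x => .of_an B.emb.continuous.continuousAt (ca x) (ca _)
    (Mdp.j_hol B (ca x) (ca _)).analyticAt
  refine ⟨h, B.emb.injective, fun x => ?_, B.rng⟩
  obtain ⟨e, he⟩ := Mdp.ex_at (n := d) x
  obtain ⟨c, hc⟩ := Mdp.ex_at (n := p + d) (B.j x)
  refine .of_chart (h x) he hc ?_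
  obtain ⟨q, hq, hs⟩ := B.ch1 _ he.1
  have h1 : ContDiffAt ℂ ω (fun u => (q.2 (c.symm u)).2) (c (B.j (e.symm (e x)))) := by
    rw [e.left_inv he.2]
    exact (Mdp.pc_c hq (Mdp.q_j B hq hs he.2).1 hc).snd
  have h2 := fderiv_comp (f := fun z => c (B.j (e.symm z))) _ (h1.differentiableAt (by simp))
    ((h x).an he hc).differentiableAt
  rw [EventuallyEq.fderiv_eq (f := id) ((Pb1H.near B.emb.continuous he hc).mono fun z a => by
    simp only [Function.comp_apply, id]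
    rw [c.left_inv a.2.2.2, ← hs.val _ a.2.1.2, e.right_inv a.1]), fderiv_id] at h2
  exact Function.LeftInverse.injective fun v => (DFunLike.congr_fun h2 v).symm

end Trv

open Trv

theorem trv (hP : PBR) : TRV := by
  rintro D p N ⟨V, Z, f, U, _, _, rfl, hol, opn, sbm, _⟩ ⟨w, hw⟩ hon t₀ ht₀ M i₀ hi₀
  dsimp only at *
  have hF : Fam p N w f U :=
    ⟨hw, hol, opn, fun x hx => (P281Z.Nt.sbm_iff (hol.at x)).1 (sbm x hx), hon⟩
  obtain ⟨O, r, Φ, hO, T⟩ := ehr p N _ _ w f U hF t₀ ht₀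
  obtain ⟨x₀, hx₀⟩ := hon t₀ ht₀
  have : Nonempty M.X := ⟨(hi₀.ex hx₀).choose⟩
  have := ChartedSpace.locallyConnectedSpace (Cm p) Z.X
  let Ψ : V.X → M.X := fun y => Function.invFun i₀ (r y)
  have hΨ : ∀ y, f y ∈ O → i₀ (Ψ y) = r y := fun y c => Function.invFun_eq (hi₀.ex (T.h2 y c).1)
  have hm : ∀ z, f (i₀ z) = t₀ := hi₀.mem
  have sΨ : ∀ y, f y ∈ O → SmP (p + N) N Ψ y := fun y c => smP_lift hi₀
    (SmP.cng ⟨T.rc y c, fun e e' => T.rs e e' y c⟩
      ((hol.cont.continuousAt.eventually (T.opn.mem_nhds c)).mono hΨ))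
  have sub := connectedComponentIn_subset O t₀
  refine ⟨connectedComponentIn O t₀, Ψ, fun t z => Φ t (i₀ z), T.opn.connectedComponentIn,
    mem_connectedComponentIn T.mem, sub.trans hO, isPreconnected_connectedComponentIn,
    ⟨fun t c z => ?_, fun y c => ?_, fun y c => (sΨ y (sub c)).cont,
      fun y c => (sΨ y (sub c)).sm, fun t c z => ?_, fun t c z χ e' e a1 a2 a3 => ?_⟩,
    fun z => T.h3 _ (hm z), fun t c Y i hi => ?_⟩
  · obtain ⟨k1, k2⟩ := T.h1 t (sub c) _ (hm z)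
    exact ⟨k1, hi₀.inj ((hΨ _ (k1.symm ▸ sub c)).trans k2)⟩
  · rw [hΨ y (sub c)]
    exact (T.h2 y (sub c)).2
  · exact (T.pc t (sub c) _ (hm z)).tendsto.comp (tendsto_nhdsWithin_iff.2
      ⟨(continuous_fst.prodMk (hi₀.hol.cont.comp continuous_snd)).tendsto (t, z),
        .of_forall fun k => hm k.2⟩)
  · obtain ⟨q, hq, q1, -⟩ := T.ori t (sub c) _ (hm z)
    obtain ⟨b, hb⟩ := Mdp.ex_at (n := p + N) (i₀ z)
    have h1 : ContDiffAt ℝ ∞ (fun u => (q.2 (i₀ (e'.symm u))).2) (e' z) := by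
      have k : ContDiffAt ℂ ω (fun u => (q.2 (b.symm u)).2) (b (i₀ (e'.symm (e' z)))) := by
        rw [e'.left_inv a2.2]
        exact (Mdp.pc_c hq q1 hb).snd
      refine (((k.comp (e' z) ((hi₀.hol.at z).an a2 hb).contDiffAt).restrict_scalars ℝ).of_le
        le_top).congr_of_eventuallyEq ((Pb1H.near hi₀.hol.cont a2 hb).mono fun u a => ?_)
      simp only [Function.comp_apply]
      rw [b.left_inv a.2.2.2]
    have h2 : ContDiffAt ℝ ∞ (fun k : Cm p × Cm N => e (Φ (χ.symm k.1) (q.2.symm (q.1 t₀, k.2))))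
        (χ t, (q.2 (i₀ (e'.symm (e' z)))).2) := by
      rw [e'.left_inv a2.2]
      exact T.ps t (sub c) _ (hm z) q χ e hq q1 a1 a3
    refine (ContDiffAt.comp (f := fun k : Cm p × Cm N => (k.1, (q.2 (i₀ (e'.symm k.2))).2))
      (χ t, e' z) h2 (contDiffAt_fst.prodMk (ContDiffAt.comp (χ t, e' z) h1 contDiffAt_snd :))
        ).congr_of_eventuallyEq ?_
    filter_upwards [continuousAt_snd.eventually (((hi₀.hol.cont.tendsto z).comp
      (e'.tendsto_symm a2.2)).eventually (q.2.open_source.mem_nhds q1))] with k a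
    simp only [Function.comp_apply] at a ⊢
    rw [← hm (e'.symm k.2), ← (hq.2.fst _ a).2, q.2.left_inv a]
  · obtain ⟨⟨Ba⟩, -⟩ := fib p N _ _ w f U hF t₀ ht₀
    obtain ⟨⟨Bt⟩, -⟩ := fib p N _ _ w f U hF t (hO (sub c))
    obtain ⟨φ, -, f2, f3, f4, f5⟩ := trf p N _ _ w f U t₀ O r Φ hF hO T t (sub c) Ba Bt
    obtain ⟨α, a1, a2, a3, a4, -⟩ := hP.fac (Y' := ⟨Ba.F⟩) hi₀ (fib_emb Ba)
    obtain ⟨β, b1, b2, b3, b4, -⟩ := hP.fac (Y' := ⟨Bt.F⟩) hi (fib_emb Bt)
    have s1 := Pb1H.smo_comp (Pb1H.smo_comp (hP.smo b2) f4) (hP.smo a3)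
    have s2 := Pb1H.smo_comp (Pb1H.smo_comp (hP.smo a2) f3) (hP.smo b3)
    have o1 := ori_comp (Pb1H.smo_comp (hP.smo b2) f4) (hP.smo a3) (ori_comp (hP.smo b2) f4 b4
      (ori_inv f4 f3 φ.apply_symm_apply f5)) (ori_inv (hP.smo a3) (hP.smo a2) α.apply_symm_apply a4)
    refine ⟨(β.trans φ.symm).trans α.symm, fun z => hi₀.inj ?_, s1, s2, o1,
      ori_inv s2 s1 ((β.trans φ.symm).trans α.symm).apply_symm_apply o1⟩
    rw [hΨ _ ((show f (i z) = t from hi.mem z).symm ▸ sub c), ← a1, ← b1, ← f2]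
    exact congrArg Ba.j (α.apply_symm_apply _)

end Vale.Agent.P301Z.Al
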