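import Vale.Agent.P301Z.Al.Top
import Vale.Agent.P301Z.Al.Good
import Vale.Agent.P301Z.Al.Per
import Vale.Agent.P301Z.Al.Raya
import Vale.Agent.P301Z.Al.Trv
import Vale.Agent.P301Z.Al.Pbr
import Vale.Agent.P301Z.Al.Flt
import Vale.Agent.P301Z.Ex.All

namespace Vale.Agent.P301Z.Al

theorem alg_top2 (L : Lat.LAT) (A : ARI) (H : HOLA) : ALG :=
  have P := pbr L
  have T := tw L A P twa
  have Fl := flt_of L P
  have R := per_of L A P (trv P) Fl (good_of L A P (trv P) can Fl) T H (holb L) Ex.exts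
  alg_top L A P R (raya_of A T R (locu L T) (sht L A P twa T) (slf T) (rayf_of L A T))

end Vale.Agent.P301Z.Al
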